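import Vale.Agent.P263.GB.Segal

/-!
# P263: labels, stage maps and the Segal condition in one stage

* `push f : C(BMap X (K × Y), BMap X (L × Y))`, `f : K → Option L` : relabel / drop;
* `stC e e' : C(BMap X Y, BMap X' Y')` for homeomorphisms `e : X × ℝ ≃ₜ X'`, `e' : Y × ℝ ≃ₜ Y'` :
  the stage map; `stK e e'` the same with labels in `K`;
* `bsC e e' : C(K → BMap X Y, BMap X' (K × Y'))` : the loop sum in the new coordinate;
* `prA_stK`, `homotopic_prA_bsC`, `homotopic_bsC_prA`;
* `HFun`, `HFun.segal_inj`, `HFun.segal_surj` : the elementwise form for a homotopy functor.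
-/

open OnePoint Topology Vale.Agent.P251.G Vale.Agent.P263.TOP Filter

set_option linter.unusedSectionVars false

namespace Vale.Agent.P263.GB

section push

variable {K L M : Type} [TopologicalSpace K] [DiscreteTopology K] [Finite K]
  [TopologicalSpace L] [DiscreteTopology L] [Finite L]
  [TopologicalSpace M] [DiscreteTopology M] [Finite M]
  {X Y Z : Type} [TopologicalSpace X] [T2Space X] [LocallyCompactSpace X]
  [TopologicalSpace Y] [T2Space Y] [LocallyCompactSpace Y]
  [TopologicalSpace Z] [T2Space Z] [LocallyCompactSpace Z]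

instance : DiscreteTopology (OnePoint K) := by
  have : Finite (OnePoint K) := inferInstanceAs (Finite (Option K))
  infer_instance

/-- the pointed map `K⁺ → L⁺` given by a partial function -/
def optB (f : K → Option L) : BMap K L :=
  ⟨⟨fun z => z.elim ∞ f, continuous_of_discreteTopology⟩, rfl⟩

/-- relabel: `(k, y) ↦ (f k, y)`, or `∞` if `f k` is not defined -/
def pushPt (f : K → Option L) (z : OnePoint (K × Y)) : OnePoint (L × Y) :=
  z.elim ∞ fun p => (f p.1).elim ∞ fun l => (((l, p.2) : L × Y) : OnePoint (L × Y))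

@[simp] theorem pushPt_infty (f : K → Option L) :
    pushPt f (∞ : OnePoint (K × Y)) = ∞ := rfl

theorem pushPt_coe (f : K → Option L) (k : K) (y : Y) :
    pushPt f (((k, y) : K × Y) : OnePoint (K × Y)) =
      (f k).elim ∞ fun l => (((l, y) : L × Y) : OnePoint (L × Y)) := rfl

theorem pushPt_eq (f : K → Option L) (z : OnePoint (K × Y)) :
    pushPt f z = (BMap.sus Y (optB f)).1 z := by
  induction z using OnePoint.rec with
  | infty => rfl
  | coe p =>
    obtain ⟨k, y⟩ := p
    rw [pushPt_coe]
    show _ = LC.smash (f k : OnePoint L) (y : OnePoint Y)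
    generalize f k = o
    cases o with
    | none => rfl
    | some l => rfl

theorem continuous_pushPt (f : K → Option L) :
    Continuous (pushPt f : OnePoint (K × Y) → OnePoint (L × Y)) :=
  (BMap.sus Y (optB f)).1.continuous.congr fun z => (pushPt_eq f z).symm

theorem pushPt_some (z : OnePoint (K × Y)) : pushPt (Option.some : K → Option K) z = z := by
  induction z using OnePoint.rec with
  | infty => rfl
  | coe p => rfl

theorem pushPt_pushPt (f : K → Option L) (g : L → Option M) (z : OnePoint (K × Y)) :
    pushPt g (pushPt f z) = pushPt (fun k => (f k).bind g) z := by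
  induction z using OnePoint.rec with
  | infty => rfl
  | coe p =>
    obtain ⟨k, y⟩ := p
    rw [pushPt_coe, pushPt_coe]
    generalize f k = o
    cases o with
    | none => rfl
    | some l => rfl

/-- relabelling as a continuous map -/
def pushC (f : K → Option L) : C(OnePoint (K × Y), OnePoint (L × Y)) :=
  ⟨pushPt f, continuous_pushPt f⟩

theorem pushC_base (f : K → Option L) (q : BMap X (K × Y)) :
    ((pushC (Y := Y) f).comp q.1) ∞ = ∞ := by
  rw [ContinuousMap.comp_apply, q.2]; rfl

/-- relabelling of based maps -/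
def push (f : K → Option L) : C(BMap X (K × Y), BMap X (L × Y)) where
  toFun q := ⟨(pushC f).comp q.1, pushC_base f q⟩
  continuous_toFun :=
    Continuous.subtype_mk ((ContinuousMap.continuous_postcomp _).comp continuous_subtype_val) _

theorem push_apply (f : K → Option L) (q : BMap X (K × Y)) (x : OnePoint X) :
    (push f q).1 x = pushPt f (q.1 x) := rfl

theorem push_some (q : BMap X (K × Y)) : push (Option.some : K → Option K) q = q :=
  Subtype.ext (ContinuousMap.ext fun x => pushPt_some (q.1 x))

theorem push_push (f : K → Option L) (g : L → Option M) (q : BMap X (K × Y)) :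
    push g (push f q) = push (fun k => (f k).bind g) q :=
  Subtype.ext (ContinuousMap.ext fun x => pushPt_pushPt f g (q.1 x))

/-- relabelling by a pointed map with at most one preimage of `l` (e.g. an injection or a
projection) in terms of projections -/
theorem prK_pushPt (f : K → Option L) (k : K) (l : L) (hk : f k = Option.some l)
    (h : ∀ k', f k' = Option.some l → k' = k) (z : OnePoint (K × Y)) :
    prK l (pushPt f z) = prK k z := by
  induction z using OnePoint.rec with
  | infty => rfl
  | coe p =>
    obtain ⟨k', y⟩ := p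
    rw [pushPt_coe]
    by_cases hkk : k' = k
    · subst hkk
      rw [hk, prK_self]
      exact prK_self l y
    · rw [prK_of_ne hkk]
      rcases hf : f k' with _ | l'
      · rfl
      · have : l' ≠ l := by
          rintro rfl
          exact hkk (h k' hf)
        exact prK_of_ne this y

/-- a missing label -/
theorem prK_pushPt_none (f : K → Option L) (l : L) (h : ∀ k, f k ≠ Option.some l)
    (z : OnePoint (K × Y)) : prK l (pushPt f z) = ∞ := by
  induction z using OnePoint.rec with
  | infty => rfl
  | coe p =>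
    obtain ⟨k', y⟩ := p
    rw [pushPt_coe]
    rcases hf : f k' with _ | l'
    · rfl
    · have : l' ≠ l := by
        rintro rfl
        exact h k' hf
      exact prK_of_ne this y

end push

section stage

variable {K L : Type} [TopologicalSpace K] [DiscreteTopology K] [Finite K]
  [TopologicalSpace L] [DiscreteTopology L] [Finite L]
  {X Y X' Y' : Type} [TopologicalSpace X] [T2Space X] [LocallyCompactSpace X]
  [TopologicalSpace Y] [T2Space Y] [LocallyCompactSpace Y]
  [TopologicalSpace X'] [T2Space X'] [LocallyCompactSpace X']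
  [TopologicalSpace Y'] [T2Space Y'] [LocallyCompactSpace Y']

/-- `(K × Y) × ℝ = K × Y'` if `Y × ℝ = Y'` -/
def kH (K : Type) [TopologicalSpace K] (e' : Y × ℝ ≃ₜ Y') : (K × Y) × ℝ ≃ₜ K × Y' :=
  (Homeomorph.prodAssoc K Y ℝ).trans ((Homeomorph.refl K).prodCongr e')

/-- the map on based maps induced by homeomorphisms of source and target, with its continuity -/
def conjC (e : X ≃ₜ X') (e' : Y ≃ₜ Y') : C(BMap X Y, BMap X' Y') :=
  ⟨BMap.conj e e', (BMap.conj e e').continuous⟩

/-- the stage map -/
def stC (e : X × ℝ ≃ₜ X') (e' : Y × ℝ ≃ₜ Y') : C(BMap X Y, BMap X' Y') :=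
  ⟨fun f => BMap.conj e e' (BMap.sus ℝ f), (BMap.conj e e').continuous.comp BMap.continuous_sus⟩

variable (K) in
/-- the stage map with labels in `K` -/
def stK (e : X × ℝ ≃ₜ X') (e' : Y × ℝ ≃ₜ Y') : C(BMap X (K × Y), BMap X' (K × Y')) :=
  stC e (kH K e')

/-- the value of the stage map at `e (x ∧ t)` -/
theorem stC_smash (e : X × ℝ ≃ₜ X') (e' : Y × ℝ ≃ₜ Y') (f : BMap X Y) (x : OnePoint X)
    (t : OnePoint ℝ) :
    (stC e e' f).1 (opH e (LC.smash x t)) = opH e' (LC.smash (f.1 x) t) := by
  show (BMap.conj e e' (BMap.sus ℝ f)).1 (opH e (LC.smash x t)) = _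
  rw [BMap.conj_apply, Homeomorph.symm_apply_apply, BMap.sus_smash]

/-- based maps out of `X'` are determined by the values at `e (x ∧ t)` -/
theorem ext2' {W : Type} [TopologicalSpace W] [T2Space W] [LocallyCompactSpace W]
    (e : X × ℝ ≃ₜ X') {f g : BMap X' W}
    (h : ∀ x t, f.1 (opH e (LC.smash x t)) = g.1 (opH e (LC.smash x t))) : f = g := by
  refine Subtype.ext (ContinuousMap.ext fun q => ?_)
  obtain ⟨q, rfl⟩ := (opH e).surjective q
  obtain ⟨p, rfl⟩ := smash_surjective q
  exact h p.1 p.2

omit [TopologicalSpace Y] [T2Space Y] [LocallyCompactSpace Y] [T2Space Y']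
  [LocallyCompactSpace Y'] in
theorem prK_kH [TopologicalSpace Y] (e' : Y × ℝ ≃ₜ Y') (k : K) (z : OnePoint (K × Y))
    (t : OnePoint ℝ) :
    prK k (opH (kH K e') (LC.smash z t)) = opH e' (LC.smash (prK k z) t) := by
  induction z using OnePoint.rec with
  | infty => rfl
  | coe p =>
    induction t using OnePoint.rec with
    | infty => rw [LC.smash_infty_right, LC.smash_infty_right]; rfl
    | coe t =>
      rw [LC.smash_coe_coe]
      show prK k (((p.1, e' (p.2, t)) : K × Y') : OnePoint (K × Y')) = _
      by_cases h : p.1 = k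
      · rw [prK_coe, prK_coe, if_pos h, if_pos h]; rfl
      · rw [prK_coe, prK_coe, if_neg h, if_neg h]; rfl

theorem prK_kH' (e' : Y × ℝ ≃ₜ Y') (k : K) (z : OnePoint (K × (Y × ℝ))) :
    prK k (opH ((Homeomorph.refl K).prodCongr e') z) = opH e' (prK k z) := by
  induction z using OnePoint.rec with
  | infty => rfl
  | coe p =>
    show prK k (((p.1, e' p.2) : K × Y') : OnePoint (K × Y')) = _
    by_cases h : p.1 = k
    · rw [prK_coe, prK_coe, if_pos h, if_pos h]; rfl
    · rw [prK_coe, prK_coe, if_neg h, if_neg h]; rfl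

/-- the projections commute strictly with the stage maps -/
theorem prA_stK (e : X × ℝ ≃ₜ X') (e' : Y × ℝ ≃ₜ Y') (f : BMap X (K × Y)) (k : K) :
    prA K X' Y' (stK K e e' f) k = stC e e' (prA K X Y f k) := by
  refine ext2' e fun x t => ?_
  rw [prA_apply, stK, stC_smash, stC_smash, prA_apply, prK_kH]

/-- relabelling commutes strictly with the stage maps -/
theorem push_stK (e : X × ℝ ≃ₜ X') (e' : Y × ℝ ≃ₜ Y') (f : K → Option L)
    (q : BMap X (K × Y)) : push f (stK K e e' q) = stK L e e' (push f q) := by
  refine ext2' e fun x t => ?_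
  rw [push_apply, stK, stC_smash, stK, stC_smash, push_apply]
  generalize q.1 x = z
  induction z using OnePoint.rec with
  | infty => rfl
  | coe p =>
    induction t using OnePoint.rec with
    | infty => rw [LC.smash_infty_right, LC.smash_infty_right]; rfl
    | coe t =>
      obtain ⟨k, y⟩ := p
      rw [pushPt_coe, LC.smash_coe_coe]
      show pushPt f (((k, e' (y, t)) : K × Y') : OnePoint (K × Y')) = _
      rw [pushPt_coe]
      generalize f k = o
      cases o with
      | none => rfl
      | some l => rfl

variable (K) in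
/-- the loop sum in the new coordinate -/
noncomputable def bsC (e : X × ℝ ≃ₜ X') (e' : Y × ℝ ≃ₜ Y') :
    C(K → BMap X Y, BMap X' (K × Y')) :=
  (conjC e ((Homeomorph.refl K).prodCongr e')).comp (bsum K X Y)

/-- the value of the loop sum -/
theorem prK_bsC (e : X × ℝ ≃ₜ X') (e' : Y × ℝ ≃ₜ Y') (q : K → BMap X Y) (x : OnePoint X)
    (t : OnePoint ℝ) (k : K) :
    prK k ((bsC K e e' q).1 (opH e (LC.smash x t))) =
      opH e' (LC.smash ((q k).1 x) (rhoK k 0 t)) := by
  show prK k ((BMap.conj e ((Homeomorph.refl K).prodCongr e') (bsum K X Y q)).1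
    (opH e (LC.smash x t))) = _
  rw [BMap.conj_apply, Homeomorph.symm_apply_apply, prK_kH', bsum_smash]

variable (K) in
/-- the stage map on each factor -/
def stP (e : X × ℝ ≃ₜ X') (e' : Y × ℝ ≃ₜ Y') : C(K → BMap X Y, K → BMap X' Y') :=
  ⟨fun q k => stC e e' (q k), continuous_pi fun k =>
    (stC e e').continuous.comp (continuous_apply k)⟩

theorem stC_eq (e : X × ℝ ≃ₜ X') (e' : Y × ℝ ≃ₜ Y') :
    stC e e' = (conjC e e').comp (susC X Y) := rfl

theorem stK_eq (e : X × ℝ ≃ₜ X') (e' : Y × ℝ ≃ₜ Y') :
    stK K e e' = (conjC e ((Homeomorph.refl K).prodCongr e')).comp (susK K X Y) := by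
  ext1 f
  refine ext2' e fun x t => prK_injective (funext fun k => ?_)
  show prK k ((stK K e e' f).1 (opH e (LC.smash x t))) =
    prK k ((BMap.conj e ((Homeomorph.refl K).prodCongr e') (susK K X Y f)).1
      (opH e (LC.smash x t)))
  rw [stK, stC_smash, prK_kH, BMap.conj_apply, Homeomorph.symm_apply_apply, prK_kH', prK_susK]

/-- **Segal condition, first half, in one stage.** -/
theorem homotopic_prA_bsC (e : X × ℝ ≃ₜ X') (e' : Y × ℝ ≃ₜ Y') :
    ((prA K X' Y').comp (bsC K e e')).Homotopic (stP K e e') := by
  have h1 : (prA K X' Y').comp (bsC K e e') =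
      (⟨fun q k => conjC e e' (q k), continuous_pi fun k =>
        (conjC e e').continuous.comp (continuous_apply k)⟩ :
        C(K → BMap (X × ℝ) (Y × ℝ), K → BMap X' Y')).comp
        ((prA K (X × ℝ) (Y × ℝ)).comp (bsum K X Y)) := by
    ext1 q
    funext k
    refine ext2' e fun x t => ?_
    show prK k ((bsC K e e' q).1 (opH e (LC.smash x t))) =
      (BMap.conj e e' (prA K (X × ℝ) (Y × ℝ) (bsum K X Y q) k)).1 (opH e (LC.smash x t))
    rw [prK_bsC, BMap.conj_apply, Homeomorph.symm_apply_apply, prA_apply, bsum_smash]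
  have h2 : stP K e e' =
      (⟨fun q k => conjC e e' (q k), continuous_pi fun k =>
        (conjC e e').continuous.comp (continuous_apply k)⟩ :
        C(K → BMap (X × ℝ) (Y × ℝ), K → BMap X' Y')).comp (susP K X Y) := rfl
  rw [h1, h2]
  exact (ContinuousMap.Homotopic.refl _).comp (homotopic_prA_bsum (K := K) (X := X) (Y := Y))

/-- **Segal condition, second half, in one stage.** -/
theorem homotopic_bsC_prA (e : X × ℝ ≃ₜ X') (e' : Y × ℝ ≃ₜ Y') :
    ((bsC K e e').comp (prA K X Y)).Homotopic (stK K e e') := by
  rw [stK_eq]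
  exact (ContinuousMap.Homotopic.refl (conjC (X := X × ℝ) (Y := K × (Y × ℝ)) e
    ((Homeomorph.refl K).prodCongr e'))).comp
      (homotopic_bsum_prA (K := K) (X := X) (Y := Y))

end stage

/-! ### Homotopy functors -/

/-- a homotopy invariant functor from spaces to abelian groups -/
structure HFun where
  /-- the value at a space -/
  obj : (T : Type) → [TopologicalSpace T] → Type
  /-- the group structure -/
  [grp : ∀ (T : Type) [TopologicalSpace T], AddCommGroup (obj T)]
  /-- the induced maps -/
  map : ∀ {S T : Type} [TopologicalSpace S] [TopologicalSpace T], C(S, T) → (obj S →+ obj T)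
  map_comp : ∀ {S T U : Type} [TopologicalSpace S] [TopologicalSpace T] [TopologicalSpace U]
    (f : C(S, T)) (g : C(T, U)) (x : obj S), map (g.comp f) x = map g (map f x)
  map_htpy : ∀ {S T : Type} [TopologicalSpace S] [TopologicalSpace T] {f g : C(S, T)},
    f.Homotopic g → map f = map g

attribute [instance] HFun.grp

namespace HFun

variable (H : HFun)
  {K : Type} [TopologicalSpace K] [DiscreteTopology K] [Finite K]
  {X Y X' Y' : Type} [TopologicalSpace X] [T2Space X] [LocallyCompactSpace X]
  [TopologicalSpace Y] [T2Space Y] [LocallyCompactSpace Y]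
  [TopologicalSpace X'] [T2Space X'] [LocallyCompactSpace X']
  [TopologicalSpace Y'] [T2Space Y'] [LocallyCompactSpace Y']

/-- a class that dies under the projections dies in the next stage -/
theorem segal_inj (e : X × ℝ ≃ₜ X') (e' : Y × ℝ ≃ₜ Y') (x : H.obj (BMap X (K × Y)))
    (hx : H.map (prA K X Y) x = 0) : H.map (stK K e e') x = 0 := by
  have h := H.map_htpy (homotopic_bsC_prA (K := K) e e')
  rw [← h, H.map_comp, hx, map_zero]

/-- every class of the product comes in the next stage from the labelled space -/
theorem segal_surj (e : X × ℝ ≃ₜ X') (e' : Y × ℝ ≃ₜ Y') (y : H.obj (K → BMap X Y)) :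
    H.map (prA K X' Y') (H.map (bsC K e e') y) = H.map (stP K e e') y := by
  have h := H.map_htpy (homotopic_prA_bsC (K := K) e e')
  rw [← H.map_comp, h]

end HFun

end Vale.Agent.P263.GB
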