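import Vale.Agent.P263.GB.Colim
import Vale.Agent.P263.GB.QStage
import Vale.Agent.P263.GB.SingHtp
import Vale.Agent.P263.GB.Gam

/-!
# P263, block G2: the functor `Q` and its Segal condition

* `QS B r = BMap ℝ^r (B × ℝ^r)` (`= Ω^r (S^r ∧ B⁺)`), `stB B r` the stage map, `pushB g` ;
* `FQ B : SS` the increasing union of `sing (QS B r)`, `FQ.inc`, `FQ.map g` for a pointed map
  `g : B⁺ → B'⁺`, `FQ.map_bid`, `FQ.map_bcomp` ;
* `FQ.seg e : FQ M → ∏_K FQ L` for a homeomorphism `e : M ≃ₜ K × L`, `K` finite discrete;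
  **`FQ.seg_rz0`** : its relative homology vanishes in all degrees, over any ring;
* `Gam.Q : K ↦ FQ K`, `Gam.QA A : K ↦ FQ (K × A)`, and their Segal conditions.
-/

open OnePoint Topology Vale.Agent.P251.G Vale.Agent.P263.TOP
open Vale.Agent.P263.S Vale.Agent.P263.E Vale.Agent.P263.G2

set_option linter.unusedSectionVars false

namespace Vale.Agent.P263.GB

/-! ### composition of based maps -/

section comp

variable {X Y Z W : Type} [TopologicalSpace X] [T2Space X] [LocallyCompactSpace X]
  [TopologicalSpace Y] [T2Space Y] [LocallyCompactSpace Y]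
  [TopologicalSpace Z] [T2Space Z] [LocallyCompactSpace Z]
  [TopologicalSpace W] [T2Space W] [LocallyCompactSpace W]

/-- the composite of based maps -/
def cmp (g : BMap Y Z) (f : BMap X Y) : BMap X Z :=
  ⟨g.1.comp f.1, by rw [ContinuousMap.comp_apply, f.2, g.2]⟩

theorem cmp_apply (g : BMap Y Z) (f : BMap X Y) (x : OnePoint X) :
    (cmp g f).1 x = g.1 (f.1 x) := rfl

variable (X) in
/-- the identity -/
def idB : BMap X X := ⟨ContinuousMap.id _, rfl⟩

theorem idB_apply (x : OnePoint X) : (idB X).1 x = x := rfl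

/-- the based map of a homeomorphism -/
def homB (e : X ≃ₜ Y) : BMap X Y := ⟨⟨opH e, (opH e).continuous⟩, opH_infty e⟩

theorem homB_apply (e : X ≃ₜ Y) (x : OnePoint X) : (homB e).1 x = opH e x := rfl

theorem BMap.ext' {f g : BMap X Y} (h : ∀ x, f.1 x = g.1 x) : f = g :=
  Subtype.ext (ContinuousMap.ext h)

theorem opH_symm_opH (e : X ≃ₜ Y) (x : OnePoint X) : opH e.symm (opH e x) = x := by
  rw [← opH_symm, Homeomorph.symm_apply_apply]

theorem opH_opH_symm (e : X ≃ₜ Y) (y : OnePoint Y) : opH e (opH e.symm y) = y := by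
  rw [← opH_symm, Homeomorph.apply_symm_apply]

theorem homB_symm_homB (e : X ≃ₜ Y) : cmp (homB e.symm) (homB e) = idB X :=
  BMap.ext' fun x => opH_symm_opH e x

theorem homB_homB_symm (e : X ≃ₜ Y) : cmp (homB e) (homB e.symm) = idB Y :=
  BMap.ext' fun x => opH_opH_symm e x

theorem cmp_homB_cmp_symm (e : X ≃ₜ Y) (q : BMap W Y) : cmp (homB e) (cmp (homB e.symm) q) = q :=
  BMap.ext' fun x => opH_opH_symm e (q.1 x)

theorem sus_idB : BMap.sus Z (idB X) = idB (X × Z) := by
  refine ext2 fun x z => ?_
  rw [BMap.sus_smash]; rfl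

theorem sus_cmp (g : BMap Y W) (f : BMap X Y) :
    BMap.sus Z (cmp g f) = cmp (BMap.sus Z g) (BMap.sus Z f) := by
  refine ext2 fun x z => ?_
  rw [BMap.sus_smash, cmp_apply, cmp_apply, BMap.sus_smash, BMap.sus_smash]

/-- composition with a based map, on the target -/
def postB (g : BMap Y Z) : C(BMap X Y, BMap X Z) where
  toFun q := cmp g q
  continuous_toFun :=
    Continuous.subtype_mk ((ContinuousMap.continuous_postcomp _).comp continuous_subtype_val) _

theorem postB_apply (g : BMap Y Z) (q : BMap X Y) (x : OnePoint X) :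
    (postB g q).1 x = g.1 (q.1 x) := rfl

end comp

/-! ### the stages -/

section stage

variable {B B' B'' : Type} [TopologicalSpace B] [T2Space B] [LocallyCompactSpace B]
  [TopologicalSpace B'] [T2Space B'] [LocallyCompactSpace B']
  [TopologicalSpace B''] [T2Space B''] [LocallyCompactSpace B'']

variable (B) in
/-- the space `Ω^r (S^r ∧ B⁺)` -/
abbrev QS (r : ℕ) : Type := BMap (Fin r → ℝ) (B × (Fin r → ℝ))

variable (B) in
/-- the stage map -/
def stB (r : ℕ) : C(QS B r, QS B (r + 1)) := stC (snocH r) (assocH B r)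

theorem stB_smash (r : ℕ) (q : QS B r) (x : OnePoint (Fin r → ℝ)) (t : OnePoint ℝ) :
    (stB B r q).1 (opH (snocH r) (LC.smash x t)) = opH (assocH B r) (LC.smash (q.1 x) t) :=
  stC_smash _ _ _ _ _

variable (B) in
theorem stB_injective (r : ℕ) : Function.Injective (stB B r) := fun _ _ h =>
  BMap.isClosedEmbedding_sus.injective ((BMap.conj (snocH r) (assocH B r)).injective h)

/-- the map `g ∧ 1` on the target -/
def pushB (r : ℕ) (g : BMap B B') : C(QS B r, QS B' r) := postB (BMap.sus (Fin r → ℝ) g)

theorem pushB_apply (r : ℕ) (g : BMap B B') (q : QS B r) (x : OnePoint (Fin r → ℝ)) :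
    (pushB r g q).1 x = (BMap.sus (Fin r → ℝ) g).1 (q.1 x) := rfl

theorem pushB_idB (r : ℕ) : pushB r (idB B) = ContinuousMap.id (QS B r) := by
  ext1 q
  refine BMap.ext' fun x => ?_
  rw [pushB_apply, sus_idB]; rfl

theorem pushB_cmp (r : ℕ) (g : BMap B' B'') (f : BMap B B') :
    pushB r (cmp g f) = (pushB r g).comp (pushB r f) := by
  ext1 q
  refine BMap.ext' fun x => ?_
  rw [pushB_apply, sus_cmp]; rfl

/-- `g ∧ 1` and the stage maps, pointwise -/
theorem sus_assocH (r : ℕ) (g : BMap B B') (z : OnePoint (B × (Fin r → ℝ))) (t : OnePoint ℝ) :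
    (BMap.sus (Fin (r + 1) → ℝ) g).1 (opH (assocH B r) (LC.smash z t)) =
      opH (assocH B' r) (LC.smash ((BMap.sus (Fin r → ℝ) g).1 z) t) := by
  obtain ⟨⟨b, v⟩, rfl⟩ := smash_surjective z
  show (BMap.sus (Fin (r + 1) → ℝ) g).1 (opH (assocH B r) (LC.smash (LC.smash b v) t)) =
    opH (assocH B' r) (LC.smash ((BMap.sus (Fin r → ℝ) g).1 (LC.smash b v)) t)
  have key : ∀ {A : Type} [TopologicalSpace A] [T2Space A] [LocallyCompactSpace A]
      (a : OnePoint A), opH (assocH A r) (LC.smash (LC.smash a v) t) =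
        LC.smash a (opH (snocH r) (LC.smash v t)) := by
    intro A _ _ _ a
    induction a using OnePoint.rec with
    | infty =>
      rw [LC.smash_infty_left, LC.smash_infty_left, LC.smash_infty_left]; rfl
    | coe a =>
      induction v using OnePoint.rec with
      | infty =>
        rw [LC.smash_infty_right, LC.smash_infty_left, LC.smash_infty_left]
        show (∞ : OnePoint _) = LC.smash _ ∞
        rw [LC.smash_infty_right]
      | coe v =>
        induction t using OnePoint.rec with
        | infty =>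
          rw [LC.smash_infty_right, LC.smash_infty_right]
          show (∞ : OnePoint _) = LC.smash _ ∞
          rw [LC.smash_infty_right]
        | coe t => rfl
  rw [key, BMap.sus_smash, BMap.sus_smash, key]

/-- naturality of the stage maps -/
theorem pushB_stB (r : ℕ) (g : BMap B B') :
    (pushB (r + 1) g).comp (stB B r) = (stB B' r).comp (pushB r g) := by
  ext1 q
  refine ext2' (snocH r) fun x t => ?_
  show (pushB (r + 1) g (stB B r q)).1 _ = (stB B' r (pushB r g q)).1 _
  rw [pushB_apply, stB_smash, stB_smash, pushB_apply, sus_assocH]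

end stage

/-! ### the union -/

section union

variable {B B' B'' : Type} [TopologicalSpace B] [T2Space B] [LocallyCompactSpace B]
  [TopologicalSpace B'] [T2Space B'] [LocallyCompactSpace B']
  [TopologicalSpace B''] [T2Space B''] [LocallyCompactSpace B'']

variable (B) in
/-- the sequence of the `sing (Ω^r (S^r ∧ B⁺))` -/
noncomputable def QSeq : Seq := ⟨fun r => sing (QS B r), fun r => singMap (stB B r)⟩

theorem QSeq_inj (r : ℕ) : ((QSeq B).s r).Inj := singMap_inj (stB_injective B r)

variable (B) in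
/-- the singular simplicial set of `Q(B⁺) = ⋃ Ω^r (S^r ∧ B⁺)` -/
noncomputable def FQ : SS := (QSeq B).colim

namespace FQ

variable (B) in
/-- the inclusion of a stage -/
noncomputable def inc (r : ℕ) : SS.Map (sing (QS B r)) (FQ B) := (QSeq B).inc r

theorem inc_stB (r : ℕ) : (inc B (r + 1)).comp (singMap (stB B r)) = inc B r := (QSeq B).inc_s r

theorem inc_inj (r : ℕ) : (inc B r).Inj := (QSeq B).inc_inj QSeq_inj r

theorem exists_inc {p : ℕ} (u : (FQ B).obj p) : ∃ r x, (inc B r).app x = u := (QSeq B).exists_inc u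

variable (B) in
/-- `FQ B` is the increasing union of its stages -/
noncomputable def isUnion : IsUnion (FQ B) fun r => sing (QS B r) := (QSeq B).isUnion QSeq_inj

/-- functoriality in pointed maps -/
noncomputable def map (g : BMap B B') : SS.Map (FQ B) (FQ B') :=
  Seq.cmap (A := QSeq B) (B := QSeq B') (fun r => singMap (pushB r g)) fun r => by
    show singMap ((pushB (r + 1) g).comp (stB B r)) = singMap ((stB B' r).comp (pushB r g))
    rw [pushB_stB]

theorem map_inc (g : BMap B B') (r : ℕ) :
    (map g).comp (inc B r) = (inc B' r).comp (singMap (pushB r g)) := rfl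

theorem map_inc_app (g : BMap B B') (r : ℕ) {p : ℕ} (x : (sing (QS B r)).obj p) :
    (map g).app ((inc B r).app x) = (inc B' r).app ((singMap (pushB r g)).app x) := rfl

theorem hom_ext {Z : SS} {f g : SS.Map (FQ B) Z} (h : ∀ r, f.comp (inc B r) = g.comp (inc B r)) :
    f = g := Seq.hom_ext h

theorem map_idB : map (idB B) = SS.Map.id (FQ B) := by
  refine hom_ext fun r => ?_
  rw [map_inc, pushB_idB]
  rfl

theorem map_cmp (g : BMap B' B'') (f : BMap B B') : map (cmp g f) = (map g).comp (map f) := by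
  refine hom_ext fun r => ?_
  rw [map_inc, pushB_cmp]
  rfl

theorem map_homB_bijective (e : B ≃ₜ B') (p : ℕ) :
    Function.Bijective ((map (homB e)).app (p := p)) := by
  have h1 : (map (homB e.symm)).comp (map (homB e)) = SS.Map.id _ := by
    rw [← map_cmp, homB_symm_homB, map_idB]
  have h2 : (map (homB e)).comp (map (homB e.symm)) = SS.Map.id _ := by
    rw [← map_cmp, homB_homB_symm, map_idB]
  refine Function.bijective_iff_has_inverse.2 ⟨(map (homB e.symm)).app, fun x => ?_, fun x => ?_⟩
  · exact congrArg (fun f : SS.Map (FQ B) (FQ B) => f.app x) h1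
  · exact congrArg (fun f : SS.Map (FQ B') (FQ B') => f.app x) h2

end FQ

end union

/-! ### the Segal condition -/

section segal

/-- the singular simplicial set of a product -/
noncomputable def singPi {K : Type} (Y : K → Type) [∀ k, TopologicalSpace (Y k)] :
    SS.Map (sing (∀ k, Y k)) (piS fun k => sing (Y k)) :=
  toPi fun k => singMap ⟨fun y => y k, continuous_apply k⟩

/-- the inverse of `singPi` -/
noncomputable def piSing {K : Type} (Y : K → Type) [∀ k, TopologicalSpace (Y k)] :
    SS.Map (piS fun k => sing (Y k)) (sing (∀ k, Y k)) where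
  app {p} σ := ofC (⟨fun t k => toC (σ k) t, continuous_pi fun k => (toC (σ k)).continuous⟩ :
    C(Dl p, ∀ k, Y k))
  nat _ _ := rfl

theorem singPi_piSing {K : Type} (Y : K → Type) [∀ k, TopologicalSpace (Y k)] :
    (singPi Y).comp (piSing Y) = SS.Map.id _ := rfl

theorem piSing_singPi {K : Type} (Y : K → Type) [∀ k, TopologicalSpace (Y k)] :
    (piSing Y).comp (singPi Y) = SS.Map.id _ := rfl

variable {K : Type} [TopologicalSpace K] [DiscreteTopology K] [Finite K]
  {M L : Type} [TopologicalSpace M] [T2Space M] [LocallyCompactSpace M]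
  [TopologicalSpace L] [T2Space L] [LocallyCompactSpace L]

/-- the projection `(K × L)⁺ → L⁺` onto the leaf `k`, as a based map -/
noncomputable def prE (L : Type) [TopologicalSpace L] [T2Space L] [LocallyCompactSpace L] (k : K) :
    BMap (K × L) L := ⟨⟨prK k, continuous_prK k⟩, prK_infty k⟩

theorem prE_apply (k : K) (z : OnePoint (K × L)) : (prE L k).1 z = prK k z := rfl

/-- the projection of `M ≃ K × L` onto the leaf `k` -/
noncomputable def prM (e : M ≃ₜ K × L) (k : K) : BMap M L := cmp (prE L k) (homB e)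

/-- the Segal map -/
noncomputable def FQ.seg (e : M ≃ₜ K × L) : SS.Map (FQ M) (piS fun _ : K => FQ L) :=
  toPi fun k => FQ.map (prM e k)

/-- `M × Z ≃ K × (L × Z)` -/
def hM (e : M ≃ₜ K × L) (Z : Type) [TopologicalSpace Z] : M × Z ≃ₜ K × (L × Z) :=
  (e.prodCongr (Homeomorph.refl Z)).trans (Homeomorph.prodAssoc K L Z)

theorem prK_hM (e : M ≃ₜ K × L) {Z : Type} [TopologicalSpace Z] [T2Space Z]
    [LocallyCompactSpace Z] (k : K) (z : OnePoint (M × Z)) :
    prK k (opH (hM e Z) z) = (BMap.sus Z (prM e k)).1 z := by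
  induction z using OnePoint.rec with
  | infty => rfl
  | coe z =>
    obtain ⟨m, z⟩ := z
    show prK k ((((e m).1, ((e m).2, z)) : K × (L × Z)) : OnePoint (K × (L × Z))) =
      LC.smash (prK k (((e m) : K × L) : OnePoint (K × L))) (z : OnePoint Z)
    by_cases h : (e m).1 = k
    · rw [prK_coe, prK_coe, if_pos h, if_pos h]; rfl
    · rw [prK_coe, prK_coe, if_neg h, if_neg h, LC.smash_infty_left]

/-- the projections at one stage -/
noncomputable def prQ (e : M ≃ₜ K × L) (r : ℕ) : C(QS M r, K → QS L r) :=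
  ⟨fun q k => pushB r (prM e k) q, continuous_pi fun k => (pushB r (prM e k)).continuous⟩

/-- the projections at one stage through `prA` -/
theorem prQ_eq (e : M ≃ₜ K × L) (r : ℕ) :
    prQ e r = (prA K (Fin r → ℝ) (L × (Fin r → ℝ))).comp (postB (homB (hM e (Fin r → ℝ)))) := by
  ext1 q
  funext k
  refine BMap.ext' fun x => ?_
  exact (prK_hM e k (q.1 x)).symm

/-- the loop sum at one stage -/
noncomputable def smQ (e : M ≃ₜ K × L) (r : ℕ) : C(K → QS L r, QS M (r + 1)) :=
  (postB (homB (hM e (Fin (r + 1) → ℝ)).symm)).comp (bsC K (snocH r) (assocH L r))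

theorem homotopic_prQ_smQ (e : M ≃ₜ K × L) (r : ℕ) :
    ((prQ e (r + 1)).comp (smQ e r)).Homotopic (stP K (snocH r) (assocH L r)) := by
  have h : (prQ e (r + 1)).comp (smQ e r) =
      (prA K (Fin (r + 1) → ℝ) (L × (Fin (r + 1) → ℝ))).comp
        (bsC K (snocH r) (assocH L r)) := by
    rw [prQ_eq]
    ext1 q
    show prA K (Fin (r + 1) → ℝ) (L × (Fin (r + 1) → ℝ))
      (cmp (homB (hM e (Fin (r + 1) → ℝ)))
        (cmp (homB (hM e (Fin (r + 1) → ℝ)).symm) (bsC K (snocH r) (assocH L r) q))) = _
    rw [cmp_homB_cmp_symm]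
    rfl
  rw [h]
  exact homotopic_prA_bsC (snocH r) (assocH L r)

/-- the stage map through `hM` -/
theorem stB_eq (e : M ≃ₜ K × L) (r : ℕ) :
    stB M r = ((postB (homB (hM e (Fin (r + 1) → ℝ)).symm)).comp
      (stK K (snocH r) (assocH L r))).comp (postB (homB (hM e (Fin r → ℝ)))) := by
  ext1 q
  refine ext2' (snocH r) fun x t => ?_
  rw [stB_smash]
  show _ = opH (hM e (Fin (r + 1) → ℝ)).symm
    ((stC (snocH r) (kH K (assocH L r)) (cmp (homB (hM e (Fin r → ℝ))) q)).1
      (opH (snocH r) (LC.smash x t)))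
  rw [stC_smash, cmp_apply, homB_apply]
  generalize q.1 x = z
  induction z using OnePoint.rec with
  | infty =>
    rw [LC.smash_infty_left, opH_infty, opH_infty, LC.smash_infty_left]
    rfl
  | coe z =>
    induction t using OnePoint.rec with
    | infty =>
      rw [LC.smash_infty_right, LC.smash_infty_right]; rfl
    | coe t =>
      obtain ⟨m, v⟩ := z
      show (((m, Fin.snoc v t) : M × (Fin (r + 1) → ℝ)) : OnePoint (M × (Fin (r + 1) → ℝ))) =
        opH (hM e (Fin (r + 1) → ℝ)).symm ((hM e (Fin (r + 1) → ℝ) (m, Fin.snoc v t) :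
          K × (L × (Fin (r + 1) → ℝ))) : OnePoint (K × (L × (Fin (r + 1) → ℝ))))
      rw [opH_coe, Homeomorph.symm_apply_apply]

theorem homotopic_smQ_prQ (e : M ≃ₜ K × L) (r : ℕ) :
    ((smQ e r).comp (prQ e r)).Homotopic (stB M r) := by
  rw [stB_eq e, prQ_eq]
  exact ((ContinuousMap.Homotopic.refl _).comp
    (homotopic_bsC_prA (snocH r) (assocH L r))).comp (ContinuousMap.Homotopic.refl _)

/-- **The Segal condition for `Q`**: for `M = K × L`, `K` finite discrete, the relative homology
of `Q(M⁺) → ∏_K Q(L⁺)` vanishes in all degrees, over any ring. -/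
theorem FQ.seg_rz0 {R : Type} [CommRing R] (e : M ≃ₜ K × L) (n : ℕ) :
    RZ0 (freeMap R (FQ.seg e)).cx n := by
  refine IsUnion.rz0_stage (FQ.isUnion M) (IsUnion.pi fun _ : K => FQ.isUnion L) (FQ.seg e)
    (fun r => (singPi fun _ : K => QS L r).comp (singMap (prQ e r))) (fun r => rfl)
    (fun r => (singMap (smQ e r)).comp (piSing fun _ : K => QS L r)) (fun r => ?_) (fun r => ?_) n
  · -- `f (r+1) ∘ g r`
    have h := ((htpRel_sing (homotopic_prQ_smQ e r)).ch (R := R)).comp
      (singPi fun _ : K => QS L (r + 1))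
    exact h.pre (piSing fun _ : K => QS L r)
  · exact (htpRel_sing (homotopic_smQ_prQ e r)).ch (R := R)

end segal

/-! ### labels -/

section label

/-- a finite set with the discrete topology -/
def Dsc (K : Type) : Type := K

instance (K : Type) : TopologicalSpace (Dsc K) := ⊥

instance (K : Type) : DiscreteTopology (Dsc K) := ⟨rfl⟩

instance (K : Type) [h : Finite K] : Finite (Dsc K) := h

/-- the based map of discrete spaces given by a partial function -/
def lbl {K L : Type} [Finite K] [Finite L] (f : K → Option L) : BMap (Dsc K) (Dsc L) :=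
  optB (K := Dsc K) (L := Dsc L) f

theorem lbl_coe {K L : Type} [Finite K] [Finite L] (f : K → Option L) (k : Dsc K) :
    (lbl f).1 (k : OnePoint (Dsc K)) = (f k : Option (Dsc L)) := rfl

theorem lbl_some {K : Type} [Finite K] : lbl (Option.some : K → Option K) = idB (Dsc K) := by
  refine BMap.ext' fun x => ?_
  induction x using OnePoint.rec with
  | infty => rfl
  | coe x => rfl

theorem lbl_bind {K L M : Type} [Finite K] [Finite L] [Finite M] (f : K → Option L)
    (g : L → Option M) : lbl (fun k => (f k).bind g) = cmp (lbl g) (lbl f) := by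
  refine BMap.ext' fun x => ?_
  induction x using OnePoint.rec with
  | infty => rfl
  | coe x =>
    show ((f x).bind g : Option M) = (lbl g).1 (f x : Option (Dsc L))
    cases f x with
    | none => rfl
    | some l => rfl

/-- relabelling at one stage -/
theorem pushB_lbl {K L : Type} [Finite K] [Finite L] (r : ℕ) (f : K → Option L)
    (q : QS (Dsc K) r) :
    pushB r (lbl f) q = push (K := Dsc K) (L := Dsc L) (X := Fin r → ℝ) (Y := Fin r → ℝ) f q :=
  BMap.ext' fun x => (pushPt_eq (K := Dsc K) (L := Dsc L) f (q.1 x)).symm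

/-- the functor `K₊ ↦ Q(K₊)` -/
noncomputable def Gam.Q : Gam where
  obj K _ := FQ (Dsc K)
  map f := FQ.map (lbl f)
  map_some x := by rw [lbl_some, FQ.map_idB]; rfl
  map_bind f g p x := by rw [lbl_bind, FQ.map_cmp]; rfl

/-- the functor `K₊ ↦ Q(K₊ ∧ A⁺)` -/
noncomputable def Gam.QA (A : Type) [TopologicalSpace A] [T2Space A] [LocallyCompactSpace A] :
    Gam where
  obj K _ := FQ (Dsc K × A)
  map f := FQ.map (BMap.sus A (lbl f))
  map_some x := by rw [lbl_some, sus_idB, FQ.map_idB]; rfl
  map_bind f g p x := by rw [lbl_bind, sus_cmp, FQ.map_cmp]; rfl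

end label

end Vale.Agent.P263.GB
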