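import Vale.Agent.P263.GB.QGam

/-!
# P263, block G2: the functors `Q` with target towers

* `TSeq` : a tower of target spaces `Y r` with `Y r × ℝ ≃ₜ Y (r + 1)`; `TSeq.zero` (`Y r = ℝ^r`),
  `T.del` (`Y r = ℝ × T.Y r`), `TSeq.iter n`;
* `QT T K r = BMap ℝ^r (K × T.Y r)`, `FT T K : SS` the union of the `sing (QT T K r)`,
  `FT.inc`, `FT.isUnion`, `FT.map f` (`= push f`), `Gam.QT T : Gam`;
* `FT.seg e : FT T M → ∏_K FT T L` for `e : M ≃ K × L`; **`FT.seg_rz0`** (all degrees, any ring);
* `Gam.QT_pt`, and the comparison `Gam.Q ≅ Gam.QT TSeq.zero`.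
-/

open OnePoint Topology Vale.Agent.P251.G Vale.Agent.P263.TOP
open Vale.Agent.P263.S Vale.Agent.P263.E Vale.Agent.P263.G2

set_option linter.unusedSectionVars false

namespace Vale.Agent.P263.GB

/-- a tower of target spaces -/
structure TSeq where
  /-- the spaces -/
  Y : ℕ → Type
  [top : ∀ r, TopologicalSpace (Y r)]
  [t2 : ∀ r, T2Space (Y r)]
  [lc : ∀ r, LocallyCompactSpace (Y r)]
  /-- the stage identification -/
  e : ∀ r, Y r × ℝ ≃ₜ Y (r + 1)

attribute [instance] TSeq.top TSeq.t2 TSeq.lc

namespace TSeq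

/-- the spaces `ℝ^r` -/
def zero : TSeq := ⟨fun r => Fin r → ℝ, fun r => snocH r⟩

/-- one more coordinate in front (one delooping) -/
def del (T : TSeq) : TSeq :=
  ⟨fun r => ℝ × T.Y r, fun r => (Homeomorph.prodAssoc ℝ (T.Y r) ℝ).trans
    ((Homeomorph.refl ℝ).prodCongr (T.e r))⟩

/-- the spaces `A × ℝ^r` -/
def lab (A : Type) [TopologicalSpace A] [T2Space A] [LocallyCompactSpace A] : TSeq :=
  ⟨fun r => A × (Fin r → ℝ), fun r => assocH A r⟩

/-- `n` deloopings -/
def iter : ℕ → TSeq
  | 0 => zero
  | n + 1 => (iter n).del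

end TSeq

section spaces

variable (T : TSeq) (K : Type) [Finite K]

/-- the space `Ω^r (K₊ ∧ Y_r⁺)` -/
abbrev QT (r : ℕ) : Type := BMap (Fin r → ℝ) (Dsc K × T.Y r)

/-- the stage map -/
def stT (r : ℕ) : C(QT T K r, QT T K (r + 1)) := stK (Dsc K) (snocH r) (T.e r)

theorem stT_injective (r : ℕ) : Function.Injective (stT T K r) := fun _ _ h =>
  BMap.isClosedEmbedding_sus.injective ((BMap.conj (snocH r) (kH (Dsc K) (T.e r))).injective h)

variable {K} {L M : Type} [Finite L] [Finite M]

/-- relabelling -/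
def pushT (r : ℕ) (f : K → Option L) : C(QT T K r, QT T L r) :=
  push (K := Dsc K) (L := Dsc L) (X := Fin r → ℝ) (Y := T.Y r) f

theorem pushT_apply (r : ℕ) (f : K → Option L) (q : QT T K r) (x : OnePoint (Fin r → ℝ)) :
    (pushT T r f q).1 x = pushPt (K := Dsc K) (L := Dsc L) f (q.1 x) := rfl

theorem pushT_some (r : ℕ) : pushT T r (Option.some : K → Option K) = ContinuousMap.id _ :=
  ContinuousMap.ext fun q => push_some (K := Dsc K) q

theorem pushT_bind (r : ℕ) (f : K → Option L) (g : L → Option M) :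
    pushT T r (fun k => (f k).bind g) = (pushT T r g).comp (pushT T r f) :=
  ContinuousMap.ext fun q => (push_push (K := Dsc K) (L := Dsc L) (M := Dsc M) f g q).symm

theorem pushT_stT (r : ℕ) (f : K → Option L) :
    (pushT T (r + 1) f).comp (stT T K r) = (stT T L r).comp (pushT T r f) :=
  ContinuousMap.ext fun q => push_stK (K := Dsc K) (L := Dsc L) (snocH r) (T.e r) f q

end spaces

/-! ### the union -/

section union

variable (T : TSeq) (K : Type) [Finite K] {L M : Type} [Finite L] [Finite M]

/-- the sequence of singular simplicial sets -/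
noncomputable def TSq : Seq := ⟨fun r => sing (QT T K r), fun r => singMap (stT T K r)⟩

theorem TSq_inj (r : ℕ) : ((TSq T K).s r).Inj := singMap_inj (stT_injective T K r)

/-- the singular simplicial set of `Q(K₊ ∧ Y⁺)` -/
noncomputable def FT : SS := (TSq T K).colim

namespace FT

/-- the inclusion of a stage -/
noncomputable def inc (r : ℕ) : SS.Map (sing (QT T K r)) (FT T K) := (TSq T K).inc r

theorem inc_stT (r : ℕ) : (inc T K (r + 1)).comp (singMap (stT T K r)) = inc T K r :=
  (TSq T K).inc_s r

theorem inc_inj (r : ℕ) : (inc T K r).Inj := (TSq T K).inc_inj (TSq_inj T K) r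

theorem exists_inc {p : ℕ} (u : (FT T K).obj p) : ∃ r x, (inc T K r).app x = u :=
  (TSq T K).exists_inc u

/-- `FT T K` is the increasing union of its stages -/
noncomputable def isUnion : IsUnion (FT T K) fun r => sing (QT T K r) :=
  (TSq T K).isUnion (TSq_inj T K)

variable {T K}

theorem hom_ext {Z : SS} {f g : SS.Map (FT T K) Z} (h : ∀ r, f.comp (inc T K r) = g.comp (inc T K r)) :
    f = g := Seq.hom_ext h

/-- relabelling -/
noncomputable def map (f : K → Option L) : SS.Map (FT T K) (FT T L) :=
  Seq.cmap (A := TSq T K) (B := TSq T L) (fun r => singMap (pushT T r f)) fun r => by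
    show singMap ((pushT T (r + 1) f).comp (stT T K r)) = singMap ((stT T L r).comp (pushT T r f))
    rw [pushT_stT]

theorem map_inc (f : K → Option L) (r : ℕ) :
    (map f).comp (inc T K r) = (inc T L r).comp (singMap (pushT T r f)) := rfl

theorem map_inc_app (f : K → Option L) (r : ℕ) {p : ℕ} (x : (sing (QT T K r)).obj p) :
    (map f).app ((inc T K r).app x) = (inc T L r).app ((singMap (pushT T r f)).app x) := rfl

theorem map_some : map (T := T) (Option.some : K → Option K) = SS.Map.id _ := by
  refine hom_ext fun r => ?_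
  rw [map_inc, pushT_some]
  rfl

theorem map_bind (f : K → Option L) (g : L → Option M) :
    map (T := T) (fun k => (f k).bind g) = (map g).comp (map f) := by
  refine hom_ext fun r => ?_
  rw [map_inc, pushT_bind]
  rfl

end FT

/-- the functor `K₊ ↦ Q(K₊ ∧ Y⁺)` -/
noncomputable def Gam.QT : Gam where
  obj K _ := FT T K
  map f := FT.map f
  map_some x := by rw [FT.map_some]; rfl
  map_bind f g p x := by rw [FT.map_bind]; rfl

end union

/-! ### the Segal condition -/

section segal

variable {K M L : Type} [TopologicalSpace K] [DiscreteTopology K] [Finite K]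
  [TopologicalSpace M] [DiscreteTopology M] [Finite M]
  [TopologicalSpace L] [DiscreteTopology L] [Finite L]
  {X Y X' Y' : Type} [TopologicalSpace X] [T2Space X] [LocallyCompactSpace X]
  [TopologicalSpace Y] [T2Space Y] [LocallyCompactSpace Y]
  [TopologicalSpace X'] [T2Space X'] [LocallyCompactSpace X']
  [TopologicalSpace Y'] [T2Space Y'] [LocallyCompactSpace Y']

open Classical in
/-- the labels of the leaf `k` -/
noncomputable def selK {K M L : Type} (e : M ≃ K × L) (k : K) (m : M) : Option L :=
  if (e m).1 = k then Option.some (e m).2 else Option.none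

/-- `M ≃ₜ K × L` for discrete spaces -/
def dH (e : M ≃ K × L) : M ≃ₜ K × L where
  toEquiv := e
  continuous_toFun := continuous_of_discreteTopology
  continuous_invFun := continuous_of_discreteTopology

theorem prK_hM_dH (e : M ≃ K × L) (k : K) (z : OnePoint (M × Y)) :
    prK k (opH (hM (dH e) Y) z) = pushPt (selK e k) z := by
  induction z using OnePoint.rec with
  | infty => rfl
  | coe z =>
    obtain ⟨m, y⟩ := z
    show prK k ((((e m).1, ((e m).2, y)) : K × (L × Y)) : OnePoint (K × (L × Y))) = _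
    rw [pushPt_coe, selK]
    by_cases h : (e m).1 = k
    · rw [prK_coe, if_pos h, if_pos h]; rfl
    · rw [prK_coe, if_neg h, if_neg h]; rfl

/-- the projections at one stage -/
noncomputable def prT (X Y : Type) [TopologicalSpace X] [T2Space X] [LocallyCompactSpace X]
    [TopologicalSpace Y] [T2Space Y] [LocallyCompactSpace Y] (e : M ≃ K × L) :
    C(BMap X (M × Y), K → BMap X (L × Y)) :=
  ⟨fun q k => push (selK e k) q, continuous_pi fun k => (push (selK e k)).continuous⟩

theorem prT_eq (e : M ≃ K × L) :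
    prT X Y e = (prA K X (L × Y)).comp (postB (homB (hM (dH e) Y))) := by
  ext1 q
  funext k
  refine BMap.ext' fun x => ?_
  exact (prK_hM_dH e k (q.1 x)).symm

/-- the loop sum at one stage -/
noncomputable def smT (e : M ≃ K × L) (a : X × ℝ ≃ₜ X') (b : Y × ℝ ≃ₜ Y') :
    C(K → BMap X (L × Y), BMap X' (M × Y')) :=
  (postB (homB (hM (dH e) Y').symm)).comp (bsC K a (kH L b))

theorem homotopic_prT_smT (e : M ≃ K × L) (a : X × ℝ ≃ₜ X') (b : Y × ℝ ≃ₜ Y') :
    ((prT X' Y' e).comp (smT e a b)).Homotopic
      (⟨fun q k => stK L a b (q k), continuous_pi fun k =>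
        (stK L a b).continuous.comp (continuous_apply k)⟩ :
        C(K → BMap X (L × Y), K → BMap X' (L × Y'))) := by
  have h : (prT X' Y' e).comp (smT e a b) = (prA K X' (L × Y')).comp (bsC K a (kH L b)) := by
    rw [prT_eq]
    ext1 q
    show prA K X' (L × Y') (cmp (homB (hM (dH e) Y')) (cmp (homB (hM (dH e) Y').symm)
      (bsC K a (kH L b) q))) = _
    rw [cmp_homB_cmp_symm]
    rfl
  rw [h]
  exact homotopic_prA_bsC a (kH L b)

/-- the stage map through `hM` -/
theorem stK_eq_hM (e : M ≃ K × L) (a : X × ℝ ≃ₜ X') (b : Y × ℝ ≃ₜ Y') :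
    stK M a b = ((postB (homB (hM (dH e) Y').symm)).comp (stK K a (kH L b))).comp
      (postB (homB (hM (dH e) Y))) := by
  ext1 q
  refine ext2' a fun x t => ?_
  show (stC a (kH M b) q).1 (opH a (LC.smash x t)) = opH (hM (dH e) Y').symm
    ((stC a (kH K (kH L b)) (cmp (homB (hM (dH e) Y)) q)).1 (opH a (LC.smash x t)))
  rw [stC_smash, stC_smash, cmp_apply, homB_apply]
  generalize q.1 x = z
  induction z using OnePoint.rec with
  | infty =>
    rw [LC.smash_infty_left, opH_infty, opH_infty, LC.smash_infty_left]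
    rfl
  | coe z =>
    induction t using OnePoint.rec with
    | infty =>
      rw [LC.smash_infty_right, LC.smash_infty_right]; rfl
    | coe t =>
      obtain ⟨m, y⟩ := z
      show (((m, b (y, t)) : M × Y') : OnePoint (M × Y')) =
        opH (hM (dH e) Y').symm ((hM (dH e) Y' (m, b (y, t)) :
          K × (L × Y')) : OnePoint (K × (L × Y')))
      rw [opH_coe, Homeomorph.symm_apply_apply]

theorem homotopic_smT_prT (e : M ≃ K × L) (a : X × ℝ ≃ₜ X') (b : Y × ℝ ≃ₜ Y') :
    ((smT e a b).comp (prT X Y e)).Homotopic (stK M a b) := by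
  rw [stK_eq_hM e, prT_eq]
  exact ((ContinuousMap.Homotopic.refl _).comp
    (homotopic_bsC_prA a (kH L b))).comp (ContinuousMap.Homotopic.refl _)

end segal

section segalT

variable {T : TSeq} {K M L : Type} [Finite K] [Finite M] [Finite L]

/-- the Segal map -/
noncomputable def FT.seg (T : TSeq) (e : M ≃ K × L) : SS.Map (FT T M) (piS fun _ : K => FT T L) :=
  toPi fun k => FT.map (selK e k)

/-- **The Segal condition**: the relative homology of `Q((K × L)₊ ∧ Y⁺) → ∏_K Q(L₊ ∧ Y⁺)`
vanishes in all degrees, over any ring. -/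
theorem FT.seg_rz0 {R : Type} [CommRing R] (T : TSeq) (e : M ≃ K × L) (n : ℕ) :
    RZ0 (freeMap R (FT.seg T e)).cx n := by
  let e' : Dsc M ≃ Dsc K × Dsc L := e
  refine IsUnion.rz0_stage (FT.isUnion T M) (IsUnion.pi fun _ : K => FT.isUnion T L) (FT.seg T e)
    (fun r => (singPi fun _ : K => QT T L r).comp (singMap (prT (Fin r → ℝ) (T.Y r) e')))
    (fun r => ?_)
    (fun r => (singMap (smT e' (snocH r) (T.e r))).comp (piSing fun _ : K => QT T L r))
    (fun r => ?_) (fun r => ?_) n
  · rfl
  · have h := ((htpRel_sing (homotopic_prT_smT e' (snocH r) (T.e r))).ch (R := R)).comp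
      (singPi fun _ : K => QT T L (r + 1))
    exact h.pre (piSing fun _ : K => QT T L r)
  · exact (htpRel_sing (homotopic_smT_prT e' (snocH r) (T.e r))).ch (R := R)

end segalT

/-! ### the empty label set and the comparison with `Gam.Q` -/

section pt

variable (T : TSeq) (K : Type) [Finite K]

instance [IsEmpty K] : IsEmpty (Dsc K) := ‹IsEmpty K›

theorem QT_subsingleton [IsEmpty K] (r : ℕ) (q q' : QT T K r) : q = q' := by
  refine BMap.ext' fun x => ?_
  have h : ∀ z : OnePoint (Dsc K × T.Y r), z = ∞ := fun z => by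
    induction z using OnePoint.rec with
    | infty => rfl
    | coe z => exact (IsEmpty.false z.1).elim
  rw [h (q.1 x), h (q'.1 x)]

/-- the constant map -/
def QT.const (r : ℕ) : QT T K r := ⟨ContinuousMap.const _ ∞, rfl⟩

theorem Gam.QT_pt : (Gam.QT T).Pt where
  sub K _ _ p := by
    refine ⟨fun u v => ?_⟩
    obtain ⟨r, x, rfl⟩ := (TSq T K).exists_inc u
    obtain ⟨r', hr, y, rfl⟩ := (TSq T K).exists_inc_ge v r
    have e1 : ((TSq T K).inc r).app x = ((TSq T K).inc r').app (((TSq T K).up hr).app x) := by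
      rw [← SS.Map.comp_app, Seq.inc_up]
    rw [e1]
    congr 1
    exact ContinuousMap.ext fun t => QT_subsingleton T K r' _ _
  ne K _ _ p := ⟨(FT.inc T K 0).app (ofC (ContinuousMap.const _ (QT.const T K 0)))⟩

end pt

section cmpQ

/-- the comparison with `Gam.Q` : the identity on every stage -/
noncomputable def Gam.qToQT : Gam.Hom Gam.Q (Gam.QT TSeq.zero) where
  app K _ := Seq.cmap (A := QSeq (Dsc K)) (B := TSq TSeq.zero K) (fun _ => SS.Map.id _)
    fun _ => rfl
  nat {K L} _ _ f p x := by
    obtain ⟨r, x, rfl⟩ := FQ.exists_inc x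
    show (FT.inc TSeq.zero L r).app ((singMap (pushB r (lbl f))).app x) =
      (FT.inc TSeq.zero L r).app ((singMap (pushT TSeq.zero r f)).app x)
    exact congrArg (FT.inc TSeq.zero L r).app (ContinuousMap.ext fun t => pushB_lbl r f _)

/-- the comparison with `Gam.Q`, inverse -/
noncomputable def Gam.qtToQ : Gam.Hom (Gam.QT TSeq.zero) Gam.Q where
  app K _ := Seq.cmap (A := TSq TSeq.zero K) (B := QSeq (Dsc K)) (fun _ => SS.Map.id _)
    fun _ => rfl
  nat {K L} _ _ f p x := by
    obtain ⟨r, x, rfl⟩ := FT.exists_inc TSeq.zero K x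
    show (FQ.inc (Dsc L) r).app ((singMap (pushT TSeq.zero r f)).app x) =
      (FQ.inc (Dsc L) r).app ((singMap (pushB r (lbl f))).app x)
    exact congrArg (FQ.inc (Dsc L) r).app (ContinuousMap.ext fun t => (pushB_lbl r f _).symm)

end cmpQ

end Vale.Agent.P263.GB
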