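import Vale.Agent.P263.GB.QZigN

/-!
# P263, block G2 (H4 + H5): the range of `B^N Q(1₊)`

* `IsUnion.hz` : vanishing of homology of an increasing union;
* `stageHomeo N r : QT (TSeq.iter N) Unit r ≃ₜ BMap (Fin r → ℝ) (Fin (N + r) → ℝ)`;
* `Gam.hz_QT_iter`, **`Gam.hz_BN_of_stages`** : if `H_j(Ω^r S^(N+r)) = 0` for all `r` then
  `H_j(B^N Q(1₊)) = 0`.
-/

open OnePoint Topology Vale.Agent.P251.G Vale.Agent.P263.TOP
open Vale.Agent.P263.S Vale.Agent.P263.E Vale.Agent.P263.G2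

set_option linter.unusedSectionVars false

namespace Vale.Agent.P263.GB

variable {R : Type} [CommRing R]

/-- vanishing of homology of an increasing union -/
theorem IsUnion.hz {U : SS} {X : ℕ → SS} (hU : IsUnion U X) (n : ℕ)
    (h : ∀ N, ∃ r, N ≤ r ∧ (free R (X r)).cx.HZ n) : (free R U).cx.HZ n := by
  intro (z : (free R U).obj n) hz
  obtain ⟨r₁, _, z₁, hz₁⟩ := hU.exists_stage z 0
  obtain ⟨r, hr, hr'⟩ := h r₁
  obtain ⟨z₂, hz₂⟩ := hU.exists_chain_up hr z₁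
  rw [hz₁] at hz₂
  obtain ⟨(y : (free R (X r)).obj (n + 1)), hy⟩ := hr' z₂ (cyc_of_inj (hU.inj r) (by
    rw [hz₂]; exact hz))
  replace hy : (free R (X r)).d n y = z₂ := hy
  refine ⟨(freeMap R (hU.i r)).app (n + 1) y, ?_⟩
  show (free R U).d n ((freeMap R (hU.i r)).app (n + 1) y) = z
  rw [← (freeMap R (hU.i r)).app_d, hy, hz₂]

/-- homeomorphic spaces have the same singular homology -/
theorem hz_sing_congr {X Y : Type} [TopologicalSpace X] [TopologicalSpace Y] (e : X ≃ₜ Y) (n : ℕ) :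
    (free R (sing X)).cx.HZ n ↔ (free R (sing Y)).cx.HZ n :=
  hz_iff_of_rz0 (rz0_sing e.toHomotopyEquiv n) (rz0_sing e.toHomotopyEquiv (n + 1))

/-- one label -/
def dscUnit (Y : Type) [TopologicalSpace Y] : Dsc Unit × Y ≃ₜ Y where
  toFun p := p.2
  invFun y := ((), y)
  left_inv _ := rfl
  right_inv _ := rfl
  continuous_toFun := continuous_snd
  continuous_invFun := by
    have h : Continuous fun _ : Y => (() : Dsc Unit) := continuous_const
    exact h.prodMk continuous_id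

/-- the stages of `Q(S^N)` are the iterated loop spaces of spheres -/
theorem stageHomeo (N r : ℕ) :
    Nonempty (QT (TSeq.iter N) Unit r ≃ₜ BMap (Fin r → ℝ) (Fin (N + r) → ℝ)) := by
  obtain ⟨h⟩ := TSeq.iter_homeo N r
  exact ⟨BMap.conj (Homeomorph.refl (Fin r → ℝ)) ((dscUnit _).trans h)⟩

theorem Gam.hz_QT_iter (N n : ℕ)
    (h : ∀ m, ∃ r, m ≤ r ∧ (free R (sing (BMap (Fin r → ℝ) (Fin (N + r) → ℝ)))).cx.HZ n) :
    (free R ((Gam.QT (TSeq.iter N)).obj Unit)).cx.HZ n := by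
  refine (FT.isUnion (TSeq.iter N) Unit).hz n fun m => ?_
  obtain ⟨r, hr, hz⟩ := h m
  obtain ⟨e⟩ := stageHomeo N r
  exact ⟨r, hr, (hz_sing_congr e n).2 hz⟩

/-- **The range of `B^N Q(1₊)`** from the literal loop spaces of spheres. -/
theorem Gam.hz_BN_of_stages (N n : ℕ)
    (h : ∀ m, ∃ r, m ≤ r ∧ (free R (sing (BMap (Fin r → ℝ) (Fin (N + r) → ℝ)))).cx.HZ n) :
    (free R (((Gam.QT TSeq.zero).BN N).obj Unit)).cx.HZ n :=
  (Gam.hz_BN_iff N Unit n).2 (Gam.hz_QT_iter N n h)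

end Vale.Agent.P263.GB
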