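import Vale.Agent.P251.G.Gen1
import Vale.Agent.P263.TOP.Sus

/-!
# P263, block G2-9: connectivity of the spaces of based maps between spheres (and wedges)

For a discrete set `K` and `dim E < dim F`, the space `BMap E (K × F)` of based maps from
the sphere `E⁺` to the wedge `(K × F)⁺` of `K` copies of the sphere `F⁺` is path connected
(compact-open topology), in every stage.

The approximation of `P251.G.Gen1` is repeated with homotopies which never change a value `∞`;
such homotopies can be assembled leaf by leaf.
-/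

set_option linter.unusedSectionVars false

open Set Topology Filter OnePoint Vale.Agent.P251.G Vale.Agent.P251.G.Gen Vale.Agent.P263.TOP

namespace Vale.Agent.P263.GB

section approx

variable {E F : Type*} [NormedAddCommGroup E] [NormedSpace ℝ E] [FiniteDimensional ℝ E]
  [NormedAddCommGroup F] [NormedSpace ℝ F] [FiniteDimensional ℝ F]

/-- **Approximation** by homotopies which fix the value `∞`. -/
theorem exists_approx' (f : C(OnePoint E, OnePoint F)) (hf : f ∞ = ∞) :
    ∃ g : E → F, ContDiff ℝ ((⊤ : ℕ∞) : WithTop ℕ∞) g ∧ ∀ v : F, ‖v‖ < 1 / 4 →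
      ∃ h : C(OnePoint E, OnePoint F), f.HomotopicRel h (f ⁻¹' {∞}) ∧
        (∀ x, f x = ∞ → h x = ∞) ∧
        ∃ U : Set E, IsOpen U ∧ (∀ x ∈ U, h x = ((g x - v : F) : OnePoint F)) ∧
          ∀ x : E, h x = ((0 : F) : OnePoint F) → x ∈ U := by
  have : ProperSpace F := FiniteDimensional.proper_real F
  set K : Set E := ((↑) : E → OnePoint E) ⁻¹' {x | f x ≠ ∞ ∧ ‖val (f x)‖ ≤ 2} with hKdef
  have hKc : IsCompact K := by
    have h1 : IsClosed {x | f x ≠ ∞ ∧ ‖val (f x)‖ ≤ 2} := isClosed_le f.continuous 2
    have h2 : (∞ : OnePoint E) ∉ {x | f x ≠ ∞ ∧ ‖val (f x)‖ ≤ 2} := fun h => h.1 hf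
    exact ((isClosed_iff_of_notMem h2).1 h1).2
  have hcK : ContinuousOn (fun x : E => val (f x)) K := by
    have h1 := continuousOn_val_comp f.continuous
    exact h1.comp continuous_coe.continuousOn fun x hx => hx.1
  obtain ⟨g, hg, hgf⟩ := exists_smooth_approx hKc hcK (ε := 1 / 4) (by norm_num)
  refine ⟨g, hg, fun v hv => ?_⟩
  set g' : E → F := fun x => g x - v with hg'
  have hg'c : Continuous g' := hg.continuous.sub continuous_const
  have hgf' : ∀ x ∈ K, ‖g' x - val (f x)‖ < 1 / 2 := by
    intro x hx
    calc ‖g' x - val (f x)‖ = ‖(g x - val (f x)) - v‖ := by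
          rw [hg', sub_right_comm]
      _ ≤ ‖g x - val (f x)‖ + ‖v‖ := norm_sub_le _ _
      _ < 1 / 4 + 1 / 4 := add_lt_add (hgf x hx) hv
      _ = 1 / 2 := by norm_num
  have hwc := continuous_pert0 f.continuous hf hg'c
  obtain ⟨M, hM⟩ := bounded_of_compact hwc
  refine ⟨⟨addw f (pert0 f g'), continuous_addw f.continuous hwc hM⟩, ?_, ?_, ?_⟩
  · exact homotopic_addw hwc (fun x => rfl) (fun x hx => hx)
  · exact fun x hx => addw_infty hx
  · refine ⟨((↑) : E → OnePoint E) ⁻¹' ({x | f x ≠ ∞} ∩ (fun x => ‖val (f x)‖) ⁻¹' Iio 1),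
      ?_, ?_, ?_⟩
    · exact ((continuousOn_val_comp f.continuous).norm.isOpen_inter_preimage
        (isOpen_ne_infty f.continuous) isOpen_Iio).preimage continuous_coe
    · rintro x ⟨hx1, hx2⟩
      have hx3 : ‖val (f x)‖ ≤ 1 := le_of_lt hx2
      change addw f (pert0 f g') x = _
      rw [addw_coe (coe_val hx1).symm, pert0, if_neg hx1, pert, cut_one hx3, one_smul, val_coe,
        add_sub_cancel]
    · intro x hx
      change addw f (pert0 f g') x = _ at hx
      have hx1 : f x ≠ ∞ := by
        intro h
        rw [addw_infty h] at hx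
        exact infty_ne_coe _ hx
      rw [addw_coe (coe_val hx1).symm, coe_eq_coe, pert0, if_neg hx1, pert, val_coe] at hx
      refine ⟨hx1, ?_⟩
      change ‖val (f x)‖ < 1
      by_contra h1
      push Not at h1
      by_cases h2 : ‖val (f x)‖ ≤ 2
      · have h3 := hgf' x ⟨hx1, h2⟩
        have h4 : val (f x) = - (cut ‖val (f x)‖ • (g' x - val (f x))) :=
          eq_neg_of_add_eq_zero_left hx
        have h5 : ‖val (f x)‖ ≤ ‖g' x - val (f x)‖ := by
          calc ‖val (f x)‖ = ‖cut ‖val (f x)‖ • (g' x - val (f x))‖ := by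
                conv_lhs => rw [h4]
                rw [norm_neg]
            _ ≤ 1 * ‖g' x - val (f x)‖ := by
                rw [norm_smul, Real.norm_eq_abs, abs_of_nonneg (cut_nonneg _)]
                exact mul_le_mul_of_nonneg_right (cut_le_one _) (norm_nonneg _)
            _ = _ := one_mul _
        linarith
      · push Not at h2
        rw [cut_zero h2.le, zero_smul, add_zero] at hx
        rw [hx, norm_zero] at h2
        linarith

/-- **Connectivity of spheres**, by a homotopy which fixes the value `∞`. -/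
theorem homotopic_const' (h : Module.finrank ℝ E < Module.finrank ℝ F)
    (f : C(OnePoint E, OnePoint F)) (hf : f ∞ = ∞) :
    f.HomotopicRel (ContinuousMap.const _ ∞) (f ⁻¹' {∞}) := by
  have : ProperSpace F := FiniteDimensional.proper_real F
  obtain ⟨g, hg, hgf⟩ := exists_approx' f hf
  have hd : Dense (range g)ᶜ :=
    (hg.of_le (by exact_mod_cast le_top : (1 : WithTop ℕ∞) ≤
      ((⊤ : ℕ∞) : WithTop ℕ∞))).dense_compl_range_of_finrank_lt_finrank h
  obtain ⟨v, hv1, hv2⟩ := hd.exists_mem_open (Metric.isOpen_ball (x := (0 : F)) (ε := 1 / 4))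
    (Metric.nonempty_ball.2 (by norm_num))
  rw [mem_ball_zero_iff] at hv2
  obtain ⟨k, hk, hk0, U, -, hU1, hU2⟩ := hgf v hv2
  refine hk.trans (homotopic_const (fun x => ?_) (fun x hx => hk0 x hx))
  intro h0
  induction x using OnePoint.rec with
  | infty => rw [hk0 _ hf] at h0; exact infty_ne_coe _ h0
  | coe x =>
    have h1 := hU2 x h0
    rw [hU1 x h1, coe_eq_coe, sub_eq_zero] at h0
    exact hv1 ⟨x, h0⟩

end approx

/-! ### the wedge as a subspace of the product -/

section wedge

variable {K F : Type} [TopologicalSpace K] [DiscreteTopology K] [TopologicalSpace F]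
  [T2Space F] [LocallyCompactSpace F]

omit [T2Space F] [LocallyCompactSpace F] in
theorem isOpenEmbedding_leaf (k : K) : IsOpenEmbedding (fun v : F => (k, v)) := by
  refine IsOpenEmbedding.of_continuous_injective_isOpenMap (by fun_prop)
    (fun y y' h => (Prod.ext_iff.1 h).2) ?_
  intro V hV
  have : (fun v : F => (k, v)) '' V = ({k} : Set K) ×ˢ V := by
    ext ⟨i', y⟩
    simp only [mem_image, Prod.mk.injEq, mem_prod, mem_singleton_iff]
    constructor
    · rintro ⟨y', h1, rfl, rfl⟩; exact ⟨rfl, h1⟩
    · rintro ⟨rfl, h1⟩; exact ⟨y, h1, rfl, rfl⟩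
  rw [this]
  exact (isOpen_discrete _).prod hV

/-- the projection of the wedge onto a leaf -/
noncomputable def leaf (k : K) : OnePoint (K × F) → OnePoint F :=
  LC.collapseFun (X := LC.of (K × F)) (Y := LC.of F) fun v : F => (k, v)

@[simp] theorem leaf_infty (k : K) : leaf k (∞ : OnePoint (K × F)) = ∞ :=
  LC.collapseFun_infty (X := LC.of (K × F)) (Y := LC.of F) _

@[simp] theorem leaf_self (k : K) (v : F) :
    leaf k (((k, v) : K × F) : OnePoint (K × F)) = (v : OnePoint F) :=
  LC.collapseFun_coe_of_injective (X := LC.of (K × F)) (Y := LC.of F)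
    (isOpenEmbedding_leaf k).injective v

theorem leaf_of_ne {k l : K} (h : l ≠ k) (v : F) :
    leaf k (((l, v) : K × F) : OnePoint (K × F)) = ∞ := by
  refine LC.collapseFun_of_notMem (X := LC.of (K × F)) (Y := LC.of F) ?_
  rintro ⟨w, hw⟩
  exact h (Prod.ext_iff.1 hw).1.symm

theorem continuous_leaf (k : K) : Continuous (leaf k : OnePoint (K × F) → OnePoint F) :=
  LC.continuous_collapseFun (X := LC.of (K × F)) (Y := LC.of F) (isOpenEmbedding_leaf k)

/-- the wedge in the product -/
noncomputable def leaves (y : OnePoint (K × F)) : K → OnePoint F := fun k => leaf k y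

theorem leaves_injective : Function.Injective (leaves : OnePoint (K × F) → K → OnePoint F) := by
  intro y z h
  have key : ∀ y z : OnePoint (K × F), leaves y = leaves z → y ≠ ∞ → y = z := by
    intro y z h hy
    obtain ⟨⟨k, v⟩, rfl⟩ := ne_infty_iff_exists.1 hy
    have h1 : leaf k (((k, v) : K × F) : OnePoint (K × F)) = leaf k z := congrFun h k
    rw [leaf_self] at h1
    induction z using OnePoint.rec with
    | infty => rw [leaf_infty] at h1; exact absurd h1 (coe_ne_infty v)
    | coe z =>
      obtain ⟨l, w⟩ := z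
      by_cases hl : l = k
      · subst hl
        rw [leaf_self, coe_eq_coe] at h1
        rw [h1]
      · rw [leaf_of_ne hl] at h1
        exact absurd h1 (coe_ne_infty v)
  by_cases hy : y = ∞
  · by_cases hz : z = ∞
    · rw [hy, hz]
    · exact (key z y h.symm hz).symm
  · exact key y z h hy

theorem mem_range_leaves {y : K → OnePoint F}
    (h : ∀ k l, k ≠ l → y k = ∞ ∨ y l = ∞) : y ∈ range (leaves : OnePoint (K × F) → _) := by
  by_cases h0 : ∃ k, y k ≠ ∞
  · obtain ⟨k, hk⟩ := h0
    obtain ⟨v, hv⟩ := ne_infty_iff_exists.1 hk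
    refine ⟨((k, v) : K × F), funext fun l => ?_⟩
    change leaf l (((k, v) : K × F) : OnePoint (K × F)) = y l
    by_cases hl : k = l
    · subst hl
      rw [leaf_self, hv]
    · rw [leaf_of_ne hl]
      exact ((h k l hl).resolve_left hk).symm
  · push Not at h0
    exact ⟨∞, funext fun l => by change leaf l ∞ = y l; rw [leaf_infty, h0]⟩

theorem isClosedEmbedding_leaves :
    IsClosedEmbedding (leaves : OnePoint (K × F) → K → OnePoint F) :=
  (continuous_pi fun k => continuous_leaf k).isClosedEmbedding leaves_injective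

/-- **Assembly**: homotopies of the leaves which fix the value `∞` give a homotopy of the map to the
wedge. -/
theorem homotopic_of_leaves {X : Type*} [TopologicalSpace X] (f g : C(X, OnePoint (K × F)))
    (h : ∀ k, (⟨leaf k ∘ f, (continuous_leaf k).comp f.continuous⟩ : C(X, OnePoint F)).HomotopicRel
      ⟨leaf k ∘ g, (continuous_leaf k).comp g.continuous⟩ ((leaf k ∘ f) ⁻¹' {∞})) :
    f.HomotopicRel g (f ⁻¹' {∞}) := by
  obtain ⟨H⟩ := Classical.nonempty_pi.2 h
  have hS : ∀ k t x, leaf k (f x) = ∞ → H k (t, x) = ∞ := fun k t x hx =>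
    ((H k).prop' t x hx).trans hx
  have hr : ∀ p : unitInterval × X, (fun k => H k p) ∈
      range (leaves : OnePoint (K × F) → _) := by
    intro p
    refine mem_range_leaves fun k l hkl => ?_
    have h1 : leaf k (f p.2) = ∞ ∨ leaf l (f p.2) = ∞ := by
      by_cases hf : f p.2 = ∞
      · left; rw [hf, leaf_infty]
      · obtain ⟨⟨i, v⟩, hv⟩ := ne_infty_iff_exists.1 hf
        rw [← hv]
        by_cases hk : i = k
        · subst hk
          right; exact leaf_of_ne hkl v
        · left; exact leaf_of_ne hk v
    exact h1.imp (hS k p.1 p.2) (hS l p.1 p.2)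
  choose G hG using hr
  have hGc : Continuous G := by
    rw [isClosedEmbedding_leaves.isInducing.continuous_iff]
    refine continuous_pi fun k => ?_
    have : (fun p => leaves (G p) k) = fun p => H k p := by
      funext p
      exact congrFun (hG p) k
    change Continuous fun p => leaves (G p) k
    rw [this]
    exact (H k).continuous
  refine ⟨⟨⟨⟨G, hGc⟩, ?_, ?_⟩, ?_⟩⟩
  · intro x
    apply leaves_injective
    change leaves (G (0, x)) = _
    rw [hG]
    funext k
    exact (H k).map_zero_left x
  · intro x
    apply leaves_injective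
    change leaves (G (1, x)) = _
    rw [hG]
    funext k
    exact (H k).map_one_left x
  · intro t x hx
    apply leaves_injective
    rw [mem_preimage, mem_singleton_iff] at hx
    change leaves (G (t, x)) = _
    rw [hG]
    funext k
    exact (H k).prop' t x (by simp [hx])

end wedge

/-! ### path connectedness -/

section main

variable {E F : Type} [NormedAddCommGroup E] [NormedSpace ℝ E] [FiniteDimensional ℝ E]
  [ProperSpace E] [NormedAddCommGroup F] [NormedSpace ℝ F] [FiniteDimensional ℝ F] [ProperSpace F]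
  {K : Type} [TopologicalSpace K] [DiscreteTopology K]

/-- A based map of a sphere to a wedge of spheres of larger dimension is null homotopic, by a
homotopy which fixes the value `∞`. -/
theorem wedge_null (h : Module.finrank ℝ E < Module.finrank ℝ F)
    (f : C(OnePoint E, OnePoint (K × F))) (hf : f ∞ = ∞) :
    f.HomotopicRel (ContinuousMap.const _ ∞) (f ⁻¹' {∞}) := by
  refine homotopic_of_leaves f _ fun k => ?_
  have h1 := homotopic_const' h
    (⟨leaf k ∘ f, (continuous_leaf k).comp f.continuous⟩ : C(OnePoint E, OnePoint F))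
    (by simp [hf])
  have e : (⟨leaf k ∘ ContinuousMap.const (OnePoint E) (∞ : OnePoint (K × F)),
      (continuous_leaf k).comp (ContinuousMap.continuous _)⟩ : C(OnePoint E, OnePoint F)) =
      ContinuousMap.const _ ∞ := by
    ext x
    simp
  rw [e]
  exact h1

/-- The space of based maps of a sphere to a wedge of spheres of larger dimension is path
connected. -/
theorem pathConnected_bmap_wedge (h : Module.finrank ℝ E < Module.finrank ℝ F) :
    PathConnectedSpace (BMap E (K × F)) := by
  have key : ∀ f : BMap E (K × F), Joined f ⟨ContinuousMap.const _ ∞, rfl⟩ := by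
    intro f
    obtain ⟨H⟩ := wedge_null h f.1 f.2
    have hH : ∀ t, H (t, ∞) = ∞ := fun t => (H.prop' t ∞ f.2).trans f.2
    let c : C(unitInterval, C(OnePoint E, OnePoint (K × F))) := H.toContinuousMap.curry
    refine ⟨⟨⟨fun t => ⟨c t, hH t⟩, c.continuous.subtype_mk _⟩, ?_, ?_⟩⟩
    · apply Subtype.ext
      ext x
      exact H.map_zero_left x
    · apply Subtype.ext
      ext x
      exact H.map_one_left x
  exact ⟨⟨⟨ContinuousMap.const _ ∞, rfl⟩⟩, fun f g => (key f).trans (key g).symm⟩

/-- The space of based maps of a sphere to a sphere of larger dimension is path connected. -/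
theorem pathConnected_bmap (h : Module.finrank ℝ E < Module.finrank ℝ F) :
    PathConnectedSpace (BMap E F) := by
  have key : ∀ f : BMap E F, Joined f ⟨ContinuousMap.const _ ∞, rfl⟩ := by
    intro f
    obtain ⟨H⟩ := homotopic_const' h f.1 f.2
    have hH : ∀ t, H (t, ∞) = ∞ := fun t => (H.prop' t ∞ f.2).trans f.2
    let c : C(unitInterval, C(OnePoint E, OnePoint F)) := H.toContinuousMap.curry
    refine ⟨⟨⟨fun t => ⟨c t, hH t⟩, c.continuous.subtype_mk _⟩, ?_, ?_⟩⟩
    · apply Subtype.ext
      ext x
      exact H.map_zero_left x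
    · apply Subtype.ext
      ext x
      exact H.map_one_left x
  exact ⟨⟨⟨ContinuousMap.const _ ∞, rfl⟩⟩, fun f g => (key f).trans (key g).symm⟩

/-- the form used in the stages: `Ω^r (S^m ∧ K₊)` is path connected for `r < m` -/
theorem pathConnected_stage (K : Type) [TopologicalSpace K] [DiscreteTopology K]
    {r m : ℕ} (h : r < m) : PathConnectedSpace (BMap (Fin r → ℝ) (K × (Fin m → ℝ))) :=
  pathConnected_bmap_wedge (by simpa using h)

end main

end Vale.Agent.P263.GB
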