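import Vale.Agent.P263.GB.QZig
import Vale.Agent.P263.GB.Conn

/-!
# P263, block G2 (H5): `B^N Q(K₊) → Q(Σ^N K₊)`

* `TSeq.conn_iter` : the stages of the deloopings are path connected;
* `Gam.thetaN N : Gam.Hom ((Gam.QT TSeq.zero).BN N) (Gam.QT (TSeq.iter N))`;
* **`Gam.thetaN_rz0`** : its relative homology vanishes in all degrees, over any ring;
* `Gam.hz_BN_iff` : the homology of the two functors vanishes in the same degrees.
-/

open OnePoint Topology Vale.Agent.P251.G Vale.Agent.P263.TOP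
open Vale.Agent.P263.S Vale.Agent.P263.E Vale.Agent.P263.G2

set_option linter.unusedSectionVars false

namespace Vale.Agent.P263.GB

variable {R : Type} [CommRing R]

/-- the target spaces of the iterated deloopings -/
theorem TSeq.iter_homeo (n r : ℕ) : Nonempty ((TSeq.iter n).Y r ≃ₜ (Fin (n + r) → ℝ)) := by
  induction n with
  | zero =>
    have e : (Fin r → ℝ) ≃L[ℝ] (Fin (0 + r) → ℝ) := ContinuousLinearEquiv.ofFinrankEq (by simp)
    exact ⟨e.toHomeomorph⟩
  | succ n ih =>
    obtain ⟨h⟩ := ih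
    have e : (ℝ × (Fin (n + r) → ℝ)) ≃L[ℝ] (Fin (n + 1 + r) → ℝ) :=
      ContinuousLinearEquiv.ofFinrankEq (by simp; omega)
    exact ⟨((Homeomorph.refl ℝ).prodCongr h).trans e.toHomeomorph⟩

/-- the stages of the deloopings are path connected -/
theorem TSeq.conn_iter (n : ℕ) : (TSeq.iter (n + 1)).Conn := by
  intro K _ r
  obtain ⟨h⟩ := TSeq.iter_homeo (n + 1) r
  have := pathConnected_stage (Dsc K) (r := r) (m := n + 1 + r) (by omega)
  have c := BMap.conj (Homeomorph.refl (Fin r → ℝ)) ((Homeomorph.refl (Dsc K)).prodCongr h.symm)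
  exact c.surjective.pathConnectedSpace c.continuous

namespace Gam

/-- the iterated comparison map -/
noncomputable def thetaN : (N : ℕ) → Gam.Hom ((Gam.QT TSeq.zero).BN N) (Gam.QT (TSeq.iter N))
  | 0 => Hom.id _
  | N + 1 => (Gam.theta (TSeq.iter N)).comp (thetaN N).B

theorem Hom.rz0_comp {G H J : Gam} (b : Hom H J) (a : Hom G H) (K : Type) [Finite K] (n : ℕ)
    (hb : RZ0 (freeMap R (b.app K)).cx n) (ha : RZ0 (freeMap R (a.app K)).cx n) :
    RZ0 (freeMap R ((b.comp a).app K)).cx n := by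
  have h := rz0W_comp hb ha
  have e : ((freeMap R (b.app K)).cx.comp (freeMap R (a.app K)).cx) =
      (freeMap R ((b.comp a).app K)).cx := by
    refine Cx.Hom.ext ?_
    funext m
    refine LinearMap.ext fun x => ?_
    exact (freeMap_comp_app (b.app K) (a.app K) x).symm
  rwa [e] at h

/-- **`B^N Q(K₊) → Q(Σ^N K₊)` has vanishing relative homology** in all degrees. -/
theorem thetaN_rz0 : ∀ (N : ℕ) (K : Type) [Finite K] (n : ℕ),
    RZ0 (freeMap R ((Gam.thetaN N).app K)).cx n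
  | 0 => fun _ _ n => rz0_of_htp _ (SS.Map.id _) (HtpRel.refl _) (HtpRel.refl _) n
  | N + 1 => fun K _ n => Hom.rz0_comp _ _ K n (Gam.theta_rz0 (TSeq.iter N) K
      (TSeq.conn_iter N) n) ((thetaN N).rz0_B (n + 1) (fun K _ t _ => thetaN_rz0 N K t) K n
        (Nat.lt_succ_self n))

end Gam

/-- a chain map with vanishing relative homology in degrees `n` and `n + 1` identifies the
vanishing of `H_n` -/
theorem hz_iff_of_rz0 {A B : Cx R} {f : Cx.Hom A B} {n : ℕ} (h : RZ0 f n) (h' : RZ0 f (n + 1)) :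
    A.HZ n ↔ B.HZ n := by
  constructor
  · intro hA b hb
    obtain ⟨a, y, ha, rfl⟩ := Cx.Hom.surj_of_rz0 h b hb
    obtain ⟨z, rfl⟩ := hA a ha
    exact ⟨y + f.app (n + 1) z, by rw [map_add, ← f.comm]⟩
  · intro hB a ha
    exact Cx.Hom.inj_of_rz0 h' a ha (hB _ (f.cyc ha))

namespace Gam

theorem hz_BN_iff (N : ℕ) (K : Type) [Finite K] (n : ℕ) :
    (free R (((Gam.QT TSeq.zero).BN N).obj K)).cx.HZ n ↔
      (free R ((Gam.QT (TSeq.iter N)).obj K)).cx.HZ n :=
  hz_iff_of_rz0 (Gam.thetaN_rz0 N K n) (Gam.thetaN_rz0 N K (n + 1))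

end Gam

end Vale.Agent.P263.GB
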