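import Vale.Agent.P263.GB.Van
import Vale.Agent.P263.T0.SphHZ

/-!
# P263, block G2, (V) mod 2

`hz_loops_two` : `H_j(Ω^r S^(N+r); 𝔽₂) = 0` for `N ≥ 1`, `0 < j < 2 N`, `j ≠ N`, all `r`.
-/

namespace Vale.Agent.P263.GB

open Vale.Agent.P263.S Vale.Agent.P263.E Vale.Agent.P263.G2 Vale.Agent.P263.TOP
open Vale.Agent.P251.G

/-- **(V)** `H_j(Ω^r S^(N+r); 𝔽₂) = 0` for `0 < j < 2 N`, `j ≠ N`. -/
theorem hz_loops_two (N r : ℕ) (hN : 0 < N) (j : ℕ) (h0 : 0 < j) (h2 : j < 2 * N) (hj : j ≠ N) :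
    (free (ZMod 2) (sing (BMap (Fin r → ℝ) (Fin (N + r) → ℝ)))).cx.HZ j :=
  Van.hz_loops (ZMod 2) (fun m _ h h' => T0.SphH.hz_sph m h h') r (N + r) (by omega) j h0
    (by omega) (by omega)

end Vale.Agent.P263.GB
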