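import Vale.Agent.P263.GB.Comp
import Vale.Agent.P263.G2.Hopf

/-!
# P263: the path components of `QS⁰` are the fibres of the degree `QS⁰ → ℤ`

`deg : QS0 → ℤ`, with no hypotheses left.
-/

open CategoryTheory Limits Topology TopCat

namespace Vale.Agent.P263.GB

open T0 (Om omSeq QS0 toQ base Q0S0 toQ_surj toQ_map toQ_const)

open TOP (SH)

/-- the degree of a point of `QS⁰` -/
noncomputable def deg (x : QS0) : ℤ := degQ (fun _ => G2.degOm) x

theorem deg_toQ (r : ℕ) (x : Om r) : deg (toQ r x) = G2.degOm x :=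
  degQ_toQ (fun _ => G2.degOm) (fun _ => G2.degOm_stab) r x

theorem continuous_deg : Continuous deg :=
  continuous_degQ (fun _ => G2.degOm) (fun _ => G2.continuous_degOm) (fun _ => G2.degOm_stab)

theorem joined_later {r : ℕ} (x y : Om r) (h : G2.degOm x = G2.degOm y) :
    ∃ (s : ℕ) (h : r ≤ s),
      Joined ((omSeq.map (homOfLE h)).hom x) ((omSeq.map (homOfLE h)).hom y) := by
  obtain ⟨s, hs⟩ := G2.exists_joined_of_degOm x y h
  refine ⟨r + s, Nat.le_add_right r s, ?_⟩
  rw [← G2.omSeq_map_stabN s x, ← G2.omSeq_map_stabN s y] at hs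
  exact hs

/-- **The path components of `QS⁰` are the fibres of the degree.** -/
theorem joined_iff (x y : QS0) : Joined x y ↔ deg x = deg y :=
  joined_iff_degQ (fun _ => G2.degOm) (fun _ => G2.continuous_degOm) (fun _ => G2.degOm_stab)
    (fun _ => joined_later) x y

theorem deg_base : deg base = 0 := by
  rw [← toQ_const 0, deg_toQ, G2.degOm_const]

/-- **`Q₀S⁰` is the degree `0` part of `QS⁰`.** -/
theorem pathComponent_base : pathComponent base = {x : QS0 | deg x = 0} :=
  pathComponent_base_eq (fun _ => G2.degOm) (fun _ => G2.continuous_degOm)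
    (fun _ => G2.degOm_stab) (fun _ => joined_later) (G2.degOm_const 0)

theorem pathComponent_eq (x : QS0) : pathComponent x = {y : QS0 | deg y = deg x} := by
  ext y
  show Joined x y ↔ deg y = deg x
  rw [joined_iff, eq_comm]

theorem deg_surjective : Function.Surjective deg := by
  intro m
  obtain ⟨f, hf⟩ := G2.exists_degOm (le_refl 2) m
  exact ⟨toQ 2 f, by rw [deg_toQ, hf]⟩

/-- the map from a component of `QS⁰` given by a point to the fibre of the degree -/
noncomputable def compHomeo (x : QS0) : TopCat.of (pathComponent x) ≅ Fib (X := QS0) deg (deg x) where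
  hom := TopCat.ofHom ⟨fun y => ⟨y.1, ((joined_iff _ _).1 y.2).symm⟩,
    Continuous.subtype_mk continuous_subtype_val _⟩
  inv := TopCat.ofHom ⟨fun y => ⟨y.1, (joined_iff _ _).2 y.2.symm⟩,
    Continuous.subtype_mk continuous_subtype_val _⟩
  hom_inv_id := rfl
  inv_hom_id := rfl

theorem deg_Q0S0 (y : Q0S0) : deg y.1 = 0 := by
  have h : Joined base y.1 := y.2
  rw [← (joined_iff _ _).1 h, deg_base]

/-- `Q₀S⁰` and the fibre of the degree over `0` -/
noncomputable def Q0Homeo : Q0S0 ≅ Fib (X := QS0) deg 0 where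
  hom := TopCat.ofHom ⟨fun y => ⟨y.1, deg_Q0S0 y⟩,
    Continuous.subtype_mk continuous_subtype_val _⟩
  inv := TopCat.ofHom ⟨fun y => ⟨y.1, (joined_iff _ _).2 (deg_base.trans y.2.symm)⟩,
    Continuous.subtype_mk continuous_subtype_val _⟩
  hom_inv_id := rfl
  inv_hom_id := rfl

/-- the inclusion `Q₀S⁰ → QS⁰` -/
noncomputable def Q0incl : Q0S0 ⟶ QS0 := TopCat.ofHom ⟨Subtype.val, continuous_subtype_val⟩

theorem Q0Homeo_incl : Q0Homeo.hom ≫ Fib.incl (X := QS0) deg 0 = Q0incl := rfl

variable {k : Type} [CommRing k] (A : ModuleCat.{0} k)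

/-- `H_d(Q₀S⁰) → H_d(QS⁰)` is injective -/
theorem SH_Q0incl_injective (d : ℕ) : Function.Injective ((SH A d).map Q0incl) := by
  rw [← Q0Homeo_incl, Functor.map_comp]
  have h1 : Function.Injective ((SH A d).map (Fib.incl (X := QS0) deg 0)) :=
    SH_incl_injective A continuous_deg d 0
  have h2 : Function.Injective ((SH A d).map Q0Homeo.hom) :=
    (ModuleCat.mono_iff_injective _).1 inferInstance
  exact h1.comp h2

/-- the homology of `QS⁰` is the direct sum of the homologies of its components -/
theorem SHsum_QS0_bijective (d : ℕ) : Function.Bijective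
    (HSsum A (fun i => TopCat.toSSet.map (Fib.incl (X := QS0) deg i)) d) :=
  SHsum_bijective A continuous_deg d

end Vale.Agent.P263.GB
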