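import Vale.Agent.P263.TOP.HQ
import Vale.Agent.P263.GB.HSplit

/-!
# P263, [G2-9] (d): path components of a sequential colimit, locally constant functions on it

`F : ℕ ⥤ TopCat`, closed embeddings, `T1`, `c` a colimit cocone.

* `joined_leg_iff`: two points of the colimit are joined iff they are joined at some stage;
* `pathConnectedSpace_colim`;
* `D n : F.obj n → ι` compatible locally constant functions: `colimD : c.pt → ι` (continuous),
  `isColimitSingFib : Sing (fibre of colimD) = colim Sing (fibre of D n)`, `exists_SH_fib`,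
  `exists_SH_fib_zero`;
* the case of `QS⁰` : `joined_toQ_iff`, `degQ`, `joined_iff_degQ`, `fib_degQ_zero`.
-/

open CategoryTheory Limits Topology TopCat

namespace Vale.Agent.P263.GB

open TOP (SH leg_map exists_leg exists_eq_of_leg_eq leg_injective exists_factor toSSetObjEquiv_map)

section tel

variable {F : ℕ ⥤ TopCat.{0}} (hF : ∀ n : ℕ, IsClosedEmbedding (F.map (homOfLE (Nat.le_succ n))))
  (hT : ∀ n, T1Space (F.obj n)) {c : Cocone F} (hc : IsColimit c)

theorem map_map {i j l : ℕ} (h : i ≤ j) (h' : j ≤ l) (x : F.obj i) :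
    F.map (homOfLE h') (F.map (homOfLE h) x) = F.map (homOfLE (h.trans h')) x := by
  have h1 : F.map (homOfLE (h.trans h')) = F.map (homOfLE h) ≫ F.map (homOfLE h') := by
    rw [← F.map_comp]; rfl
  rw [h1]
  rfl

theorem joined_map {i j : ℕ} (h : i ≤ j) {x y : F.obj i} (hxy : Joined x y) :
    Joined (F.map (homOfLE h) x) (F.map (homOfLE h) y) := by
  obtain ⟨γ⟩ := hxy
  exact ⟨γ.map (F.map (homOfLE h)).hom.continuous⟩

theorem joined_leg {i : ℕ} {x y : F.obj i} (hxy : Joined x y) :
    Joined (c.ι.app i x) (c.ι.app i y) := by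
  obtain ⟨γ⟩ := hxy
  exact ⟨γ.map (c.ι.app i).hom.continuous⟩

include hF hT hc in
/-- **Two points of the colimit are joined iff they are joined at some stage.** -/
theorem joined_leg_iff {i j : ℕ} (x : F.obj i) (y : F.obj j) :
    Joined (c.ι.app i x) (c.ι.app j y) ↔ ∃ (m : ℕ) (hi : i ≤ m) (hj : j ≤ m),
      Joined (F.map (homOfLE hi) x) (F.map (homOfLE hj) y) := by
  constructor
  · rintro ⟨γ⟩
    obtain ⟨n, f, hf⟩ := exists_factor hF hc hT (g := γ) γ.continuous
    let m := max n (max i j)
    have hn : n ≤ m := le_max_left _ _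
    have hi : i ≤ m := (le_max_left i j).trans (le_max_right _ _)
    have hj : j ≤ m := (le_max_right i j).trans (le_max_right _ _)
    refine ⟨m, hi, hj, ⟨⟨⟨fun t => F.map (homOfLE hn) (f t), ?_⟩, ?_, ?_⟩⟩⟩
    · exact (F.map (homOfLE hn)).hom.continuous.comp f.continuous
    · apply leg_injective hF hc m
      show c.ι.app m (F.map (homOfLE hn) (f 0)) = _
      rw [leg_map, leg_map, hf]
      exact γ.source
    · apply leg_injective hF hc m
      show c.ι.app m (F.map (homOfLE hn) (f 1)) = _
      rw [leg_map, leg_map, hf]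
      exact γ.target
  · rintro ⟨m, hi, hj, h⟩
    have h1 := joined_leg (c := c) h
    rwa [leg_map, leg_map] at h1

include hc in
/-- The colimit is path connected if the stages are path connected from some point on. -/
theorem pathConnectedSpace_colim (N : ℕ) (h : ∀ n, N ≤ n → PathConnectedSpace (F.obj n)) :
    PathConnectedSpace c.pt := by
  have h0 := h N le_rfl
  refine ⟨⟨c.ι.app N h0.nonempty.some⟩, fun x y => ?_⟩
  obtain ⟨i, x, rfl⟩ := exists_leg hc x
  obtain ⟨j, y, rfl⟩ := exists_leg hc y
  let m := max N (max i j)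
  have hi : i ≤ m := (le_max_left i j).trans (le_max_right _ _)
  have hj : j ≤ m := (le_max_right i j).trans (le_max_right _ _)
  have hm := h m (le_max_left _ _)
  have h1 := joined_leg (c := c) (PathConnectedSpace.joined (F.map (homOfLE hi) x)
    (F.map (homOfLE hj) y))
  rwa [leg_map, leg_map] at h1

/-! ### Locally constant functions -/

variable {ι : Type} (D : ∀ n, F.obj n → ι)
  (hs : ∀ n x, D (n + 1) (F.map (homOfLE (Nat.le_succ n)) x) = D n x)

include hs in
theorem D_map {i j : ℕ} (h : i ≤ j) (x : F.obj i) : D j (F.map (homOfLE h) x) = D i x := by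
  induction j, h using Nat.le_induction with
  | base =>
    have h1 : F.map (homOfLE (le_refl i)) = 𝟙 _ := F.map_id i
    rw [h1]
    rfl
  | succ j h ih =>
    rw [← ih, ← hs j, map_map]

/-- the function on the colimit -/
noncomputable def colimD (x : c.pt) : ι := D (exists_leg hc x).choose
  (exists_leg hc x).choose_spec.choose

include hs in
theorem colimD_leg (n : ℕ) (x : F.obj n) : colimD hc D (c.ι.app n x) = D n x := by
  have h := (exists_leg hc (c.ι.app n x)).choose_spec.choose_spec
  obtain ⟨m, hi, hj, hm⟩ := exists_eq_of_leg_eq hc h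
  rw [colimD, ← D_map D hs hi, ← D_map D hs hj, hm]

include hs in
theorem continuous_colimD [TopologicalSpace ι] (hD : ∀ n, Continuous (D n)) :
    Continuous (colimD hc D) := by
  rw [continuous_def]
  intro U hU
  rw [TopCat.isOpen_iff_of_isColimit c hc]
  intro n
  have h1 : c.ι.app n ⁻¹' (colimD hc D ⁻¹' U) = D n ⁻¹' U := by
    ext x
    show colimD hc D (c.ι.app n x) ∈ U ↔ _
    rw [colimD_leg hc D hs]
    rfl
  exact h1 ▸ hU.preimage (hD n)

include hs in
/-- stage maps of the fibres -/
def fibMap (a : ι) {i j : ℕ} (h : i ≤ j) : Fib (D i) a ⟶ Fib (D j) a :=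
  TopCat.ofHom ⟨fun x => ⟨F.map (homOfLE h) x.1, (D_map D hs h x.1).trans x.2⟩,
    Continuous.subtype_mk ((F.map (homOfLE h)).hom.continuous.comp continuous_subtype_val) _⟩

theorem fibMap_coe (a : ι) {i j : ℕ} (h : i ≤ j) (x : Fib (D i) a) :
    (fibMap D hs a h x).1 = F.map (homOfLE h) x.1 := rfl

/-- the sequence of the fibres -/
def fibSeq (a : ι) : ℕ ⥤ TopCat.{0} where
  obj n := Fib (D n) a
  map f := fibMap D hs a (leOfHom f)
  map_id n := by
    ext x
    apply Subtype.ext
    show F.map (homOfLE (le_refl n)) x.1 = x.1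
    have h1 : F.map (homOfLE (le_refl n)) = 𝟙 _ := F.map_id n
    rw [h1]
    rfl
  map_comp f g := by
    ext x
    apply Subtype.ext
    exact (map_map (leOfHom f) (leOfHom g) x.1).symm

/-- the map from a fibre to the fibre of the colimit -/
noncomputable def fibLeg (a : ι) (n : ℕ) : Fib (D n) a ⟶ Fib (colimD hc D) a :=
  TopCat.ofHom ⟨fun x => ⟨c.ι.app n x.1, (colimD_leg hc D hs n x.1).trans x.2⟩,
    Continuous.subtype_mk ((c.ι.app n).hom.continuous.comp continuous_subtype_val) _⟩

theorem fibLeg_coe (a : ι) (n : ℕ) (x : Fib (D n) a) :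
    (fibLeg hc D hs a n x).1 = c.ι.app n x.1 := rfl

/-- the cocone of the fibres -/
noncomputable def fibCocone (a : ι) : Cocone (fibSeq D hs a) where
  pt := Fib (colimD hc D) a
  ι := { app := fun n => fibLeg hc D hs a n
         naturality := fun i j f => by
          ext x
          apply Subtype.ext
          exact leg_map (leOfHom f) x.1 }

include hF in
theorem fibLeg_injective (a : ι) (n : ℕ) : Function.Injective (fibLeg hc D hs a n) := by
  intro x y h
  apply Subtype.ext
  exact leg_injective hF hc n (congrArg Subtype.val h)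

include hF hT in
/-- maps from compact spaces to the fibre of the colimit factor through a fibre -/
theorem exists_factor_fib (a : ι) {K : Type*} [TopologicalSpace K] [CompactSpace K]
    (g : C(K, Fib (colimD hc D) a)) (N : ℕ) :
    ∃ (n : ℕ) (_ : N ≤ n) (f : C(K, Fib (D n) a)), ∀ x, fibLeg hc D hs a n (f x) = g x := by
  obtain ⟨m, f, hf⟩ := exists_factor hF hc hT (g := fun x => (g x).1)
    (continuous_subtype_val.comp g.continuous)
  have hm : ∀ x, D m (f x) = a := fun x => by
    rw [← colimD_leg hc D hs, hf]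
    exact (g x).2
  let n := max N m
  have hn : m ≤ n := le_max_right _ _
  refine ⟨n, le_max_left _ _, ⟨fun x => fibMap D hs a hn ⟨f x, hm x⟩, ?_⟩, fun x => ?_⟩
  · exact (fibMap D hs a hn).hom.continuous.comp (Continuous.subtype_mk f.continuous _)
  · apply Subtype.ext
    show c.ι.app n (F.map (homOfLE hn) (f x)) = _
    rw [leg_map, hf]

include hF hT in
theorem exists_simplex_fib (a : ι) (q : SimplexCategoryᵒᵖ)
    (x : (TopCat.toSSet.obj (Fib (colimD hc D) a)).obj q) :
    ∃ (n : ℕ) (y : (TopCat.toSSet.obj (Fib (D n) a)).obj q),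
      x = (TopCat.toSSet.map (fibLeg hc D hs a n)).app q y := by
  obtain ⟨n, -, g, hg⟩ := exists_factor_fib hF hT hc D hs a (TopCat.toSSetObjEquiv _ q x) 0
  refine ⟨n, (TopCat.toSSetObjEquiv (Fib (D n) a) q).symm g, ?_⟩
  apply (TopCat.toSSetObjEquiv _ q).injective
  rw [toSSetObjEquiv_map, Equiv.apply_symm_apply]
  exact ContinuousMap.ext fun y => (hg y).symm

include hF in
theorem simplex_fib_injective (a : ι) (n : ℕ) (q : SimplexCategoryᵒᵖ) :
    Function.Injective ((TopCat.toSSet.map (fibLeg hc D hs a n)).app q) := by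
  intro x y h
  apply (TopCat.toSSetObjEquiv (Fib (D n) a) q).injective
  have h1 := congrArg (TopCat.toSSetObjEquiv (Fib (colimD hc D) a) q) h
  rw [toSSetObjEquiv_map, toSSetObjEquiv_map] at h1
  exact ContinuousMap.ext fun z => fibLeg_injective hF hc D hs a n (DFunLike.congr_fun h1 z)

/-- **`Sing` of the fibre of the colimit is the colimit of `Sing` of the fibres.** -/
noncomputable def isColimitSingFib (a : ι) :
    IsColimit (TopCat.toSSet.mapCocone (fibCocone hc D hs a)) :=
  evaluationJointlyReflectsColimits _ fun q =>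
    Types.FilteredColimit.isColimitOf' _ _ (fun x => exists_simplex_fib hF hT hc D hs a q x)
      fun n x y h => ⟨n, 𝟙 n, by rw [simplex_fib_injective hF hc D hs a n q h]⟩

variable {k : Type} [CommRing k] (A : ModuleCat.{0} k)

include hF hT in
/-- homology classes of the fibre of the colimit come from a stage -/
theorem exists_SH_fib (a : ι) (d : ℕ) (x : (SH A d).obj (Fib (colimD hc D) a)) :
    ∃ (n : ℕ) (y : (SH A d).obj (Fib (D n) a)), (SH A d).map (fibLeg hc D hs a n) y = x :=
  TOP.exists_class A (isColimitSingFib hF hT hc D hs a) d x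

include hF hT in
/-- homology classes of a stage that die in the fibre of the colimit die at a later stage -/
theorem exists_SH_fib_zero (a : ι) (d : ℕ) {n : ℕ} (x : (SH A d).obj (Fib (D n) a))
    (hx : (SH A d).map (fibLeg hc D hs a n) x = 0) :
    ∃ (m : ℕ) (h : n ≤ m), (SH A d).map (fibMap D hs a h) x = 0 :=
  TOP.exists_stage_zero A (isColimitSingFib hF hT hc D hs a) d x hx

end tel

/-! ### The case of `QS⁰` -/

section QS0

open T0 (Om omSeq QS0 toQ base Q0S0 toQ_surj toQ_map toQ_const)

/-- **(d1)** two points of `QS⁰` are joined iff they are joined at some stage -/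
theorem joined_toQ_iff {r s : ℕ} (x : Om r) (y : Om s) :
    Joined (toQ r x) (toQ s y) ↔ ∃ (t : ℕ) (hr : r ≤ t) (hs : s ≤ t),
      Joined ((omSeq.map (homOfLE hr)).hom x) ((omSeq.map (homOfLE hs)).hom y) :=
  joined_leg_iff (F := omSeq) TOP.isClosedEmbedding_omSeq
    (fun _ => inferInstanceAs (T1Space (Om _))) (colimit.isColimit omSeq) x y

variable (deg : ∀ r, Om r → ℤ) (hd : ∀ r, Continuous (deg r))
  (hs : ∀ r f, deg (r + 1) (T0.stab r f) = deg r f)

include hs in
theorem deg_map_succ (r : ℕ) (x : omSeq.obj r) :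
    (fun r => (deg r : omSeq.obj r → ℤ)) (r + 1) (omSeq.map (homOfLE (Nat.le_succ r)) x) =
      (fun r => (deg r : omSeq.obj r → ℤ)) r x := by
  rw [T0.omSeq_map_succ]
  exact hs r x

/-- the degree on `QS⁰` -/
noncomputable def degQ (x : QS0) : ℤ :=
  colimD (c := colimit.cocone omSeq) (colimit.isColimit omSeq) (fun r => deg r) x

include hs in
theorem degQ_toQ (r : ℕ) (x : Om r) : degQ deg (toQ r x) = deg r x :=
  colimD_leg (c := colimit.cocone omSeq) (colimit.isColimit omSeq) (fun r => deg r)
    (deg_map_succ deg hs) r x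

include hs in
theorem deg_map {r s : ℕ} (h : r ≤ s) (x : Om r) :
    deg s ((omSeq.map (homOfLE h)).hom x) = deg r x :=
  D_map (F := omSeq) (fun r => deg r) (deg_map_succ deg hs) h x

include hd hs in
theorem continuous_degQ : Continuous (degQ deg) :=
  continuous_colimD (c := colimit.cocone omSeq) (colimit.isColimit omSeq) (fun r => deg r)
    (deg_map_succ deg hs) hd

include hd hs in
theorem degQ_eq_of_joined {x y : QS0} (h : Joined x y) : degQ deg x = degQ deg y := by
  obtain ⟨γ⟩ := h
  have h1 := const_on_simplex (X := QS0) (D := degQ deg) (continuous_degQ deg hd hs)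
    γ.continuous 0 1
  rwa [γ.source, γ.target] at h1

variable (hJ : ∀ r (x y : Om r), deg r x = deg r y → ∃ (s : ℕ) (h : r ≤ s),
  Joined ((omSeq.map (homOfLE h)).hom x) ((omSeq.map (homOfLE h)).hom y))

include hd hs hJ in
/-- **(d2)** the path components of `QS⁰` are the fibres of the degree -/
theorem joined_iff_degQ (x y : QS0) : Joined x y ↔ degQ deg x = degQ deg y := by
  refine ⟨degQ_eq_of_joined deg hd hs, fun h => ?_⟩
  obtain ⟨r, x, rfl⟩ := toQ_surj x
  obtain ⟨s, y, rfl⟩ := toQ_surj y
  rw [degQ_toQ deg hs, degQ_toQ deg hs] at h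
  have hr : r ≤ max r s := le_max_left _ _
  have hs' : s ≤ max r s := le_max_right _ _
  obtain ⟨t, ht, h1⟩ := hJ (max r s) ((omSeq.map (homOfLE hr)).hom x)
    ((omSeq.map (homOfLE hs')).hom y) (by rw [deg_map deg hs, deg_map deg hs, h])
  rw [joined_toQ_iff]
  refine ⟨t, hr.trans ht, hs'.trans ht, ?_⟩
  have e1 := map_map (F := omSeq) hr ht x
  have e2 := map_map (F := omSeq) hs' ht y
  have h2 : Joined (omSeq.map (homOfLE ht) (omSeq.map (homOfLE hr) x))
    (omSeq.map (homOfLE ht) (omSeq.map (homOfLE hs') y)) := h1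
  rw [e1, e2] at h2
  exact h2

include hd hs hJ in
/-- `Q₀S⁰` is the fibre of the degree over `0` -/
theorem pathComponent_base_eq (h0 : deg 0 (Om.const 0) = 0) :
    pathComponent base = {x : QS0 | degQ deg x = 0} := by
  ext x
  have hb : degQ deg base = 0 := by
    rw [← toQ_const 0, degQ_toQ deg hs, h0]
  show Joined base x ↔ degQ deg x = 0
  rw [joined_iff_degQ deg hd hs hJ, hb, eq_comm]

end QS0

end Vale.Agent.P263.GB
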