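import Vale.Agent.P263.GB.Conn

/-!
# P263, block G2-9: connectivity of the spaces of based maps, arbitrary compact label space

For a compact Hausdorff space `T` and `dim E < dim F` the space `BMap E (T × F)` of based maps
`E⁺ → T₊ ∧ F⁺` is path connected (at every stage).  Shape of the stages of `Q`:
`BMap (ℝ^r) (K × (T × ℝ^m))`, `r < m`, `K` finite.
-/

set_option linter.unusedSectionVars false

open Set Topology Filter OnePoint Vale.Agent.P251.G Vale.Agent.P251.G.Gen Vale.Agent.P263.TOP

namespace Vale.Agent.P263.GB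

section proj

variable {T F : Type} [TopologicalSpace T] [CompactSpace T] [T2Space T]
  [NormedAddCommGroup F] [ProperSpace F]

/-- the projection `T₊ ∧ F⁺ → F⁺` -/
def prjF (y : OnePoint (T × F)) : OnePoint F := y.elim ∞ fun p => (p.2 : OnePoint F)

@[simp] theorem prjF_infty : prjF (∞ : OnePoint (T × F)) = ∞ := rfl

@[simp] theorem prjF_coe (t : T) (v : F) :
    prjF (((t, v) : T × F) : OnePoint (T × F)) = (v : OnePoint F) := rfl

theorem prjF_eq_infty {y : OnePoint (T × F)} : prjF y = ∞ ↔ y = ∞ := by
  constructor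
  · intro h
    induction y using OnePoint.rec with
    | infty => rfl
    | coe p => exact absurd h (coe_ne_infty p.2)
  · rintro rfl; rfl

theorem continuous_prjF : Continuous (prjF : OnePoint (T × F) → OnePoint F) := by
  have e : (prjF : OnePoint (T × F) → OnePoint F) = OnePoint.map Prod.snd := by
    funext y
    induction y using OnePoint.rec with
    | infty => rfl
    | coe p => rfl
  rw [e]
  refine OnePoint.continuous_map continuous_snd ?_
  rw [coclosedCompact_eq_cocompact, coclosedCompact_eq_cocompact]
  intro s hs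
  obtain ⟨K, hK, hKs⟩ := mem_cocompact.1 hs
  rw [Filter.mem_map, mem_cocompact]
  exact ⟨univ ×ˢ K, isCompact_univ.prod hK, fun p hp => hKs fun h => hp ⟨mem_univ _, h⟩⟩

/-- the label of a finite point -/
def labT (t₀ : T) (y : OnePoint (T × F)) : T := y.elim t₀ Prod.fst

theorem continuousOn_lab (t₀ : T) :
    ContinuousOn (labT t₀ : OnePoint (T × F) → T) {∞}ᶜ := by
  intro y hy
  obtain ⟨z, rfl⟩ := ne_infty_iff_exists.1 hy
  refine ContinuousAt.continuousWithinAt ?_
  rw [continuousAt_coe]
  exact continuous_fst.continuousAt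

/-- **Lifting of null homotopies** along the projection `T₊ ∧ F⁺ → F⁺`. -/
theorem null_of_prjF {X : Type*} [TopologicalSpace X] (f : C(X, OnePoint (T × F)))
    (h : (⟨prjF ∘ f, continuous_prjF.comp f.continuous⟩ : C(X, OnePoint F)).HomotopicRel
      (ContinuousMap.const _ ∞) ((prjF ∘ f) ⁻¹' {∞})) :
    f.HomotopicRel (ContinuousMap.const _ ∞) (f ⁻¹' {∞}) := by
  obtain ⟨H⟩ := h
  have hS : ∀ t x, f x = ∞ → H (t, x) = ∞ := fun t x hx => by
    have h1 : prjF (f x) = ∞ := by rw [hx]; rfl
    exact (H.prop' t x h1).trans h1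
  by_cases hT : Nonempty T
  swap
  · have : ∀ y : OnePoint (T × F), y = ∞ := by
      intro y
      induction y using OnePoint.rec with
      | infty => rfl
      | coe p => exact absurd ⟨p.1⟩ hT
    have e : f = ContinuousMap.const _ ∞ := ContinuousMap.ext fun x => this _
    rw [← e]
    exact ContinuousMap.HomotopicRel.refl _
  obtain ⟨t₀⟩ := hT
  have hU : IsOpen {p : unitInterval × X | H p ≠ ∞} := isOpen_ne_infty H.continuous
  have hUf : ∀ p : unitInterval × X, H p ≠ ∞ → f p.2 ≠ ∞ := fun p hp h0 => hp (hS p.1 p.2 h0)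
  have hv := continuousOn_val_comp H.continuous
  have hl : ContinuousOn (fun p : unitInterval × X => labT t₀ (f p.2)) {p | H p ≠ ∞} :=
    (continuousOn_lab t₀).comp (f.continuous.comp continuous_snd).continuousOn
      fun p hp => hUf p hp
  set G : unitInterval × X → OnePoint (T × F) := extI {p : unitInterval × X | H p ≠ ∞}
    fun p => (labT t₀ (f p.2), val (H p)) with hGdef
  have hG : Continuous G := by
    refine continuous_extI hU (hl.prodMk hv) fun K hK => ?_
    obtain ⟨R, hR⟩ := (hK.image continuous_snd).isBounded.subset_closedBall (0 : F)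
    refine ⟨_, isClosed_le H.continuous R, isClosed_le_subset R, fun p hp hpK => ⟨hp, ?_⟩⟩
    have := hR ⟨_, hpK, rfl⟩
    rwa [mem_closedBall_zero_iff] at this
  refine ⟨⟨⟨⟨G, hG⟩, ?_, ?_⟩, ?_⟩⟩
  · intro x
    change G ((0 : unitInterval), x) = f x
    have h0 : H (0, x) = prjF (f x) := H.map_zero_left x
    by_cases hx : f x = ∞
    · rw [hGdef, extI_of_notMem (by simp [h0, hx]), hx]
    · obtain ⟨⟨t, v⟩, hz⟩ := ne_infty_iff_exists.1 hx
      have hne : H (0, x) ≠ ∞ := by
        rw [h0, Ne, prjF_eq_infty]; exact hx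
      rw [hGdef, extI_of_mem (show ((0 : unitInterval), x) ∈ {p : unitInterval × X | H p ≠ ∞}
        from hne)]
      change (((labT t₀ (f x), val (H (0, x))) : T × F) : OnePoint (T × F)) = f x
      rw [h0, ← hz]
      rfl
  · intro x
    change G ((1 : unitInterval), x) = ∞
    refine extI_of_notMem ?_
    have h1 : H (1, x) = ∞ := H.map_one_left x
    simp [h1]
  · intro t x hx
    rw [mem_preimage, mem_singleton_iff] at hx
    change G (t, x) = f x
    rw [hx]
    exact extI_of_notMem (by simp [hS t x hx])

end proj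

section main

variable {E F T : Type} [NormedAddCommGroup E] [NormedSpace ℝ E] [FiniteDimensional ℝ E]
  [ProperSpace E] [NormedAddCommGroup F] [NormedSpace ℝ F] [FiniteDimensional ℝ F] [ProperSpace F]
  [TopologicalSpace T] [CompactSpace T] [T2Space T]

/-- A based map `E⁺ → T₊ ∧ F⁺`, `dim E < dim F`, is null homotopic by a homotopy which fixes the
value `∞`. -/
theorem label_null (h : Module.finrank ℝ E < Module.finrank ℝ F)
    (f : C(OnePoint E, OnePoint (T × F))) (hf : f ∞ = ∞) :
    f.HomotopicRel (ContinuousMap.const _ ∞) (f ⁻¹' {∞}) :=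
  null_of_prjF f (homotopic_const' h
    (⟨prjF ∘ f, continuous_prjF.comp f.continuous⟩ : C(OnePoint E, OnePoint F)) (by simp [hf]))

/-- a null homotopy gives a path in the space of based maps -/
theorem joined_of_null {X Y : Type} [TopologicalSpace X] [TopologicalSpace Y]
    (f : BMap X Y) (H : f.1.HomotopicRel (ContinuousMap.const _ ∞) (f.1 ⁻¹' {∞})) :
    Joined f ⟨ContinuousMap.const _ ∞, rfl⟩ := by
  obtain ⟨H⟩ := H
  have hH : ∀ t, H (t, ∞) = ∞ := fun t => (H.prop' t ∞ f.2).trans f.2
  let c : C(unitInterval, C(OnePoint X, OnePoint Y)) := H.toContinuousMap.curry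
  refine ⟨⟨⟨fun t => ⟨c t, hH t⟩, c.continuous.subtype_mk _⟩, ?_, ?_⟩⟩
  · apply Subtype.ext
    ext x
    exact H.map_zero_left x
  · apply Subtype.ext
    ext x
    exact H.map_one_left x

/-- The space of based maps `E⁺ → T₊ ∧ F⁺`, `dim E < dim F`, is path connected. -/
theorem pathConnected_bmap_label (h : Module.finrank ℝ E < Module.finrank ℝ F) :
    PathConnectedSpace (BMap E (T × F)) := by
  have key : ∀ f : BMap E (T × F), Joined f ⟨ContinuousMap.const _ ∞, rfl⟩ := fun f =>
    joined_of_null f (label_null h f.1 f.2)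
  exact ⟨⟨⟨ContinuousMap.const _ ∞, rfl⟩⟩, fun f g => (key f).trans (key g).symm⟩

/-- path connectedness is invariant under homeomorphisms of the two variables -/
theorem pathConnected_bmap_congr {X X' Y Y' : Type} [TopologicalSpace X] [TopologicalSpace X']
    [TopologicalSpace Y] [TopologicalSpace Y'] (e : X ≃ₜ X') (e' : Y ≃ₜ Y')
    [PathConnectedSpace (BMap X Y)] : PathConnectedSpace (BMap X' Y') := by
  let φ : BMap X Y → BMap X' Y' := fun f =>
    ⟨(⟨e'.onePointCongr, e'.onePointCongr.continuous⟩ : C(OnePoint Y, OnePoint Y')).comp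
      (f.1.comp ⟨e.symm.onePointCongr, e.symm.onePointCongr.continuous⟩), by
        change e'.onePointCongr (f.1 ∞) = ∞
        rw [f.2]; rfl⟩
  have hc : Continuous φ := by
    refine Continuous.subtype_mk ?_ _
    exact (ContinuousMap.continuous_postcomp _).comp
      ((ContinuousMap.continuous_precomp _).comp continuous_subtype_val)
  have hs : Function.Surjective φ := by
    intro g
    refine ⟨⟨(⟨e'.symm.onePointCongr, e'.symm.onePointCongr.continuous⟩ :
      C(OnePoint Y', OnePoint Y)).comp
      (g.1.comp ⟨e.onePointCongr, e.onePointCongr.continuous⟩), by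
        change e'.symm.onePointCongr (g.1 ∞) = ∞
        rw [g.2]; rfl⟩, ?_⟩
    apply Subtype.ext
    ext x
    change e'.onePointCongr (e'.symm.onePointCongr (g.1 (e.onePointCongr
      (e.symm.onePointCongr x)))) = g.1 x
    have h1 : ∀ x : OnePoint X', e.onePointCongr (e.symm.onePointCongr x) = x := by
      intro x
      induction x using OnePoint.rec with
      | infty => rfl
      | coe x => exact congrArg _ (e.apply_symm_apply x)
    have h2 : ∀ y : OnePoint Y', e'.onePointCongr (e'.symm.onePointCongr y) = y := by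
      intro y
      induction y using OnePoint.rec with
      | infty => rfl
      | coe y => exact congrArg _ (e'.apply_symm_apply y)
    rw [h1, h2]
  exact hs.pathConnectedSpace hc

/-- the stages of `Q` with labels in a compact space `T`: `Ω^r ((K × T)₊ ∧ S^m)`, `r < m` -/
theorem pathConnected_stage_label (K T : Type) [Finite K] [TopologicalSpace K]
    [DiscreteTopology K] [TopologicalSpace T] [CompactSpace T] [T2Space T] {r m : ℕ} (h : r < m) :
    PathConnectedSpace (BMap (Fin r → ℝ) (K × (T × (Fin m → ℝ)))) := by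
  have : CompactSpace K := Finite.compactSpace
  have : PathConnectedSpace (BMap (Fin r → ℝ) ((K × T) × (Fin m → ℝ))) :=
    pathConnected_bmap_label (by simpa using h)
  exact pathConnected_bmap_congr (Homeomorph.refl _) (Homeomorph.prodAssoc K T (Fin m → ℝ))

end main

end Vale.Agent.P263.GB
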