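import Vale.Agent.P263.GB.QStage
import Vale.Agent.P263.G2.CollDeg

/-!
# P263, GB: the degrees of the components of a based map `S^E → K₊ ∧ S^E`

* `dK k q : ℤ`, the degree of the `k`-th component of `q : BMap E (K × E)`; `continuous_dK`,
  `dK_joined`;
* `dK_push` : `dK l (push f q) = ∑ dK k q` over the `k` with `f k = l`;
* `dK_stK` : the stage maps preserve `dK`;
* `dK_bsC` : the degrees of the loop sum in the new coordinate;
* `dK_alpha` : the collapse of a configuration of boxes: the number of boxes with label `k`;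
* `dK_unit` : comparison with `degOm`.
-/

open OnePoint Topology Vale.Agent.P251.G Vale.Agent.P263.TOP Vale.Agent.P263.G2
open CategoryTheory MonoidalCategory

namespace Vale.Agent.P263.GB

section

variable {E F : Type} [NormedAddCommGroup E] [NormedSpace ℝ E] [FiniteDimensional ℝ E]
  [NormedAddCommGroup F] [NormedSpace ℝ F] [FiniteDimensional ℝ F]

/-- the degree of a suspension -/
theorem degB_stC (L : (E × ℝ) ≃L[ℝ] F) (f : BMap E E) :
    degB (stC L.toHomeomorph L.toHomeomorph f) = degB f := by
  have hb : bhom (stC L.toHomeomorph L.toHomeomorph f) =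
      (LC.ofHomeo (X := LC.of (E × ℝ)) (Y := LC.of F) L.toHomeomorph).inv ≫
      (bhom f ▷ LC.of ℝ) ≫
      (LC.ofHomeo (X := LC.of (E × ℝ)) (Y := LC.of F) L.toHomeomorph).hom := by
    rw [Iso.eq_inv_comp]
    refine LC.tensor_ext (X := LC.of E) (Y := LC.of ℝ) fun v t => ?_
    rw [LC.app_comp, LC.app_comp, LC.app_whiskerRight_smash]
    exact stC_smash L.toHomeomorph L.toHomeomorph f v t
  have h1 : LC.deg (bhom (stC L.toHomeomorph L.toHomeomorph f)) = LC.deg (bhom f) := by
    rw [hb]
    refine (LC.deg_conj (E := E × ℝ) (F := F) L _).trans ?_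
    exact LC.deg_whiskerRight (E := E) (F := ℝ) _
  have h2 := degB_cast (stC L.toHomeomorph L.toHomeomorph f)
  have h3 := degB_cast f
  rw [h1, ← h3] at h2
  exact_mod_cast h2

variable {K L : Type} [TopologicalSpace K] [DiscreteTopology K] [Finite K]
  [TopologicalSpace L] [DiscreteTopology L] [Finite L]

/-- the degree of the `k`-th component -/
noncomputable def dK (k : K) (q : BMap E (K × E)) : ℤ := degB (prA K E E q k)

theorem continuous_dK (k : K) : Continuous (dK k : BMap E (K × E) → ℤ) :=
  continuous_degB.comp ((continuous_apply k).comp (prA K E E).continuous)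

theorem dK_joined (k : K) {q q' : BMap E (K × E)} (h : Joined q q') : dK k q = dK k q' :=
  degB_joined (h.map ((continuous_apply k).comp (prA K E E).continuous))

/-- **The degrees after relabelling.** -/
theorem dK_push [Fintype K] [DecidableEq L] (f : K → Option L) (l : L) (q : BMap E (K × E)) :
    dK l (push f q) = ∑ k with f k = Option.some l, dK k q := by
  classical
  refine degB_eq_of_cast ?_
  push_cast
  have h1 : ∀ k : K, ((dK k q : ℤ) : ℝ) = degV (E := E) (fun x => prK k (q.1 x)) := fun k =>
    degB_cast _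
  simp only [h1]
  refine degV_sum (E := E) (Finset.univ.filter fun k => f k = Option.some l)
    (f := fun x => prK l (pushPt f (q.1 x))) (g := fun k x => prK k (q.1 x))
    ((continuous_prK l).comp ((continuous_pushPt f).comp q.1.continuous)) ?_
    (fun k _ => (continuous_prK k).comp q.1.continuous) (fun k _ => ?_)
    (U := fun k => {x : E | prK k (q.1 (x : OnePoint E)) ≠ ∞}) ?_ ?_ ?_ ?_
  · show prK l (pushPt f (q.1 ∞)) = ∞
    rw [q.2]; rfl
  · show prK k (q.1 ∞) = ∞
    rw [q.2]; rfl
  · intro k _ k' _ hkk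
    refine Set.disjoint_left.2 fun x hx hx' => hkk (prK_unique hx hx')
  · intro k hk x hx
    have hk' : f k = Option.some l := (Finset.mem_filter.1 hk).2
    have hx' : prK k (q.1 (x : OnePoint E)) ≠ ∞ := hx
    show prK l (pushPt f (q.1 x)) = prK k (q.1 x)
    generalize q.1 (x : OnePoint E) = z at hx'
    induction z using OnePoint.rec with
    | infty => exact absurd rfl hx'
    | coe p =>
      obtain ⟨k', y⟩ := p
      by_cases hkk : k' = k
      · subst hkk
        rw [pushPt_coe, hk', prK_self]
        exact prK_self l y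
      · rw [prK_of_ne hkk] at hx'
        exact absurd rfl hx'
  · intro k _ x hx
    exact not_not.1 hx
  · intro x hx
    show prK l (pushPt f (q.1 x)) = ∞
    have hx' : ∀ k, f k = Option.some l → prK k (q.1 (x : OnePoint E)) = ∞ := fun k hk =>
      not_not.1 (hx k (Finset.mem_filter.2 ⟨Finset.mem_univ k, hk⟩))
    generalize q.1 (x : OnePoint E) = z at hx'
    induction z using OnePoint.rec with
    | infty => rfl
    | coe p =>
      obtain ⟨k', y⟩ := p
      rw [pushPt_coe]
      rcases hf : f k' with _ | l'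
      · rfl
      · by_cases hll : l' = l
        · subst hll
          have := hx' k' hf
          rw [prK_self] at this
          exact absurd this (OnePoint.coe_ne_infty _)
        · exact prK_of_ne hll y

end

/-! ### The stages -/

section stages

variable {K : Type} [TopologicalSpace K] [DiscreteTopology K] [Finite K]

theorem snocL_toHomeomorph (r : ℕ) : (snocL r).toHomeomorph = snocH r := rfl

theorem dK_stK (r : ℕ) (k : K) (q : BMap (Fin r → ℝ) (K × (Fin r → ℝ))) :
    dK (E := Fin (r + 1) → ℝ) k (stK K (snocH r) (snocH r) q) = dK (E := Fin r → ℝ) k q := by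
  unfold dK
  rw [prA_stK]
  exact degB_stC (E := Fin r → ℝ) (F := Fin (r + 1) → ℝ) (snocL r) _

theorem dK_bsC (r : ℕ) (k : K) (q : K → BMap (Fin r → ℝ) (Fin r → ℝ)) :
    dK (E := Fin (r + 1) → ℝ) k (bsC K (snocH r) (snocH r) q) = degB (E := Fin r → ℝ) (q k) := by
  have h := homotopic_prA_bsC (K := K) (snocH r) (snocH r)
  obtain ⟨H⟩ := h
  have h1 : Joined (prA K (Fin (r + 1) → ℝ) (Fin (r + 1) → ℝ) (bsC K (snocH r) (snocH r) q) k)
      (stC (snocH r) (snocH r) (q k)) := by
    refine ⟨⟨⟨fun t => H (t, q) k, ?_⟩, ?_, ?_⟩⟩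
    · exact (continuous_apply k).comp (H.continuous.comp (Continuous.prodMk_left q))
    · show H (0, q) k = _
      rw [H.apply_zero]; rfl
    · show H (1, q) k = _
      rw [H.apply_one]; rfl
  refine (degB_joined (E := Fin (r + 1) → ℝ) h1).trans ?_
  exact degB_stC (E := Fin r → ℝ) (F := Fin (r + 1) → ℝ) (snocL r) _

/-- one label -/
theorem dK_unit (r : ℕ) (q : BMap (Fin r → ℝ) (Unit × (Fin r → ℝ))) :
    dK (E := Fin r → ℝ) () q = degOm (omH r q) := by
  have h : prA Unit (Fin r → ℝ) (Fin r → ℝ) q () = omH r q := by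
    refine Subtype.ext (ContinuousMap.ext fun x => ?_)
    refine Eq.trans ?_ (omH_apply r q x).symm
    show prK () (q.1 x) = _
    generalize q.1 x = z
    induction z using OnePoint.rec with
    | infty => rfl
    | coe p =>
      obtain ⟨k, y⟩ := p
      exact prK_self () y
  unfold dK
  rw [h]
  rfl

/-- **The collapse of a configuration**: the degree of the `k`-th component is the number of
boxes with label `k`. -/
theorem dK_alpha [DecidableEq K] {T : Type} [TopologicalSpace T] (r : ℕ) (S : Conf K T)
    (hS : S.IsSt r) (t : T) (k : K) :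
    dK (E := Fin r → ℝ) k (alpha r S hS t) =
      (S.pts.filter fun p : C(T, Bx) × K => p.2 = k).card := by
  refine degB_eq_card (ι := Fin r) (S.pts.filter fun p : C(T, Bx) × K => p.2 = k) _
    (fun p i => (p.1 t i).lo)
    (fun p i => (p.1 t i).hi) (fun p _ i => (p.1 t i).lo_nonneg) (fun p _ i => (p.1 t i).lo_lt_hi)
    (fun p _ i => (p.1 t i).hi_le_one) (fun p hp q hq hpq => ?_) (fun x => ?_)
  · have hp' := (Finset.mem_filter.1 hp).1
    have hq' := (Finset.mem_filter.1 hq).1
    obtain ⟨i, hi, h⟩ := (S.disj p hp' q hq' hpq t).exists_lt (hS p hp' t) (hS q hq' t)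
    exact ⟨⟨i, hi⟩, h⟩
  · show prK k (alphaFun r S t x) = _
    rw [alphaFun, ← join_image (sub_vals hS t x) (prK k) rfl]
    have hsub : G2.Sub (prK k '' vals r S t x) := by
      rintro _ ⟨a, ha, rfl⟩ _ ⟨b, hb, rfl⟩ h1 h2
      have ha' : a ≠ ∞ := fun h => h1 (by rw [h]; rfl)
      have hb' : b ≠ ∞ := fun h => h2 (by rw [h]; rfl)
      rw [sub_vals hS t x a ha b hb ha' hb']
    have hl : ∀ (l : K) (y : OnePoint (Fin r → ℝ)), l = k → prK k (lab l y) = y := by
      rintro l y rfl
      induction y using OnePoint.rec with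
      | infty => rfl
      | coe y => exact prK_self l y
    have hl' : ∀ (l : K) (y : OnePoint (Fin r → ℝ)), l ≠ k → prK k (lab l y) = ∞ := by
      intro l y hlk
      induction y using OnePoint.rec with
      | infty => rfl
      | coe y => exact prK_of_ne hlk y
    refine join_congr hsub fun y => ?_
    constructor
    · rintro ⟨_, ⟨p, hp, rfl⟩, h⟩
      by_cases hk : p.2 = k
      · refine ⟨p, Finset.mem_coe.2 (Finset.mem_filter.2 ⟨hp, hk⟩), ?_⟩
        rw [hl _ _ hk] at h
        exact h
      · rw [hl' _ _ hk] at h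
        exact absurd h.symm (OnePoint.coe_ne_infty _)
    · rintro ⟨p, hp, h⟩
      have hp' := Finset.mem_filter.1 (Finset.mem_coe.1 hp)
      refine ⟨_, ⟨p, hp'.1, rfl⟩, ?_⟩
      rw [hl _ _ hp'.2]
      exact h

end stages

end Vale.Agent.P263.GB
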