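import Vale.Agent.P263.G2.Ladder

/-!
# P263, block G2 (H4): iterated loop spaces as spaces of based maps

* `adjH X T : BMap (ℝ × X) T ≃ₜ Lo (bzero X T)`;
* `stH r T : BMap (Fin (r + 1) → ℝ) T ≃ₜ Lo (bzero (Fin r → ℝ) T)`;
* `bm0 T : BMap (Fin 0 → ℝ) T ≃ₜ OnePoint T`.
-/

open OnePoint Topology Vale.Agent.P251.G Vale.Agent.P263.TOP
open Vale.Agent.P263.G2

set_option linter.unusedSectionVars false

namespace Vale.Agent.P263.GB

section

variable (X T : Type) [TopologicalSpace X] [T2Space X] [LocallyCompactSpace X]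
  [TopologicalSpace T] [T2Space T] [LocallyCompactSpace T]

/-- maps out of `ℝ × X` are loops in the space of maps out of `X` -/
noncomputable def adjH : BMap (ℝ × X) T ≃ₜ Lo (bzero X T) where
  toFun := adjL
  invFun := adjR
  left_inv := adjR_adjL
  right_inv := adjL_adjR
  continuous_toFun := adjL.continuous
  continuous_invFun := adjR.continuous

/-- `ℝ × ℝ^r = ℝ^(r + 1)` -/
noncomputable def cnsH (r : ℕ) : (Fin (r + 1) → ℝ) ≃ₜ ℝ × (Fin r → ℝ) :=
  (ContinuousLinearEquiv.ofFinrankEq (𝕜 := ℝ) (by simp; omega)).toHomeomorph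

/-- `Ω^(r + 1) = Ω Ω^r` -/
noncomputable def stH (r : ℕ) : BMap (Fin (r + 1) → ℝ) T ≃ₜ Lo (bzero (Fin r → ℝ) T) :=
  (BMap.conj (cnsH r) (Homeomorph.refl T)).trans (adjH (Fin r → ℝ) T)

/-- the based map with a given value at the point -/
noncomputable def ptB (y : OnePoint T) : BMap (Fin 0 → ℝ) T :=
  ⟨⟨fun x => x.elim ∞ fun _ => y, by
    have : Finite (OnePoint (Fin 0 → ℝ)) := inferInstanceAs (Finite (Option (Fin 0 → ℝ)))
    exact continuous_of_discreteTopology⟩, rfl⟩

theorem ptB_coe (y : OnePoint T) (x : Fin 0 → ℝ) :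
    (ptB T y).1 (x : OnePoint (Fin 0 → ℝ)) = y := rfl

/-- based maps out of `S^0` -/
noncomputable def bm0 : BMap (Fin 0 → ℝ) T ≃ₜ OnePoint T where
  toFun f := f.1 ((0 : Fin 0 → ℝ) : OnePoint (Fin 0 → ℝ))
  invFun := ptB T
  left_inv f := bext fun x => by
    rw [ptB_coe, Subsingleton.elim x 0]
  right_inv y := rfl
  continuous_toFun := continuous_bmap continuous_id continuous_const
  continuous_invFun := by
    refine continuous_bmk _ ?_
    have : Finite (OnePoint (Fin 0 → ℝ)) := inferInstanceAs (Finite (Option (Fin 0 → ℝ)))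
    rw [continuous_prod_of_discrete_right]
    intro x
    induction x using OnePoint.rec with
    | infty => exact continuous_const
    | coe x => exact continuous_id

end

end Vale.Agent.P263.GB
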