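import Vale.Agent.P263.GB.PiOne
import Vale.Agent.P263.GB.QGam
import Vale.Agent.P263.GB.DegFold
import Vale.Agent.P263.GB.IdG
import Vale.Agent.P263.G2.Hopf

/-!
# P263, block G2, (PI1) for the functor `Q`

* `degQK k : SS.Map (FQ (Dsc K)) (dscSS ℤ)` : the degree of the component with label `k`;
* `Gam.Qdeg : Gam.Q.Deg`, `Gam.Qdeg_conn : Gam.Qdeg.Conn`, `Gam.Q_pt : Gam.Q.Pt`;
* `Gam.Q_span`, `Gam.Q_eu_ne` : the first homology of `B Q (1₊)`.
-/

open OnePoint Topology Vale.Agent.P251.G Vale.Agent.P263.TOP CategoryTheory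
open Vale.Agent.P263.S Vale.Agent.P263.E Vale.Agent.P263.G2

namespace Vale.Agent.P263.GB

/-- the discrete simplicial set -/
def dscSS (T : Type) : SS where
  obj _ := T
  map _ x := x
  map_id _ := rfl
  map_comp _ _ _ := rfl

/-! ### the degrees on `FQ (Dsc K)` -/

section deg

variable {K : Type} [Finite K] (k : Dsc K)

theorem dK_const {r p : ℕ} (σ : C(Dl p, QS (Dsc K) r)) (a b : Dl p) :
    dK (E := Fin r → ℝ) k (σ a) = dK (E := Fin r → ℝ) k (σ b) :=
  PreconnectedSpace.constant inferInstance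
    ((continuous_dK (E := Fin r → ℝ) k).comp σ.continuous)

/-- a point of the simplex -/
noncomputable def pt0 (p : ℕ) : Dl p := Classical.arbitrary _

/-- the degree on a stage -/
noncomputable def degSt (r : ℕ) : SS.Map (sing (QS (Dsc K) r)) (dscSS ℤ) where
  app {p} σ := dK (E := Fin r → ℝ) k (toC σ (pt0 p))
  nat {p q} f σ := dK_const k (toC σ) (dmap f (pt0 p)) (pt0 q)

theorem degSt_eq (r : ℕ) {p : ℕ} (σ : (sing (QS (Dsc K) r)).obj p) (a : Dl p) :
    (degSt k r).app σ = dK (E := Fin r → ℝ) k (toC σ a) := dK_const k (toC σ) _ _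

theorem stB_eq_stK (r : ℕ) : stB (Dsc K) r = stK (Dsc K) (snocH r) (snocH r) := rfl

/-- the degree of the component with label `k` -/
noncomputable def degQK : SS.Map (FQ (Dsc K)) (dscSS ℤ) :=
  Seq.desc (A := QSeq (Dsc K)) (fun r => degSt k r) fun r => by
    apply SS.Map.ext
    intro p σ
    show dK (E := Fin (r + 1) → ℝ) k (stB (Dsc K) r (toC (X := QS (Dsc K) r) σ (pt0 p))) = _
    rw [stB_eq_stK]
    exact dK_stK r k _

theorem degQK_inc (r : ℕ) {p : ℕ} (σ : (sing (QS (Dsc K) r)).obj p) (a : Dl p) :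
    (degQK k).app ((FQ.inc (Dsc K) r).app σ) = dK (E := Fin r → ℝ) k (toC σ a) :=
  degSt_eq k r σ a

/-- the degree of the component with label `k`, as an integer -/
noncomputable def dgK {p : ℕ} (x : (FQ (Dsc K)).obj p) : ℤ := (degQK k).app x

theorem dgK_inc (r : ℕ) {p : ℕ} (σ : (sing (QS (Dsc K) r)).obj p) (a : Dl p) :
    dgK k ((FQ.inc (Dsc K) r).app σ) = dK (E := Fin r → ℝ) k (toC σ a) :=
  degSt_eq k r σ a

theorem dgK_map' {p q : ℕ} (θ : Op p q) (x : (FQ (Dsc K)).obj q) :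
    dgK k ((FQ (Dsc K)).map θ x) = dgK k x := (degQK k).nat θ x

/-- a label as an element of the discrete space -/
def dmk {K : Type} (k : K) : Dsc K := k

open Classical in
/-- the degrees after relabelling -/
theorem dgK_map {L : Type} [Finite L] [Fintype K] (f : K → Option L) (l : L) {p : ℕ}
    (x : (Gam.Q.obj K).obj p) : dgK (dmk l) ((Gam.Q.map f).app x) =
      ∑ k' : K, if f k' = Option.some l then dgK (dmk k') x else 0 := by
  obtain ⟨r, σ, rfl⟩ := FQ.exists_inc (B := Dsc K) x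
  have h2 : ∀ k' : K, dgK (dmk k') ((FQ.inc (Dsc K) r).app σ) =
      dK (E := Fin r → ℝ) (dmk k') (toC σ (pt0 p)) := fun k' => dgK_inc (dmk k') r σ _
  have h3 := dgK_inc (dmk l) r ((singMap (pushB r (lbl f))).app σ) (pt0 p)
  refine Eq.trans h3 ?_
  simp only [h2]
  rw [toC_singMap, ContinuousMap.comp_apply, pushB_lbl]
  have : Fintype (Dsc K) := (inferInstance : Fintype K)
  have h4 := dK_push (E := Fin r → ℝ) (K := Dsc K) (L := Dsc L) f l (toC σ (pt0 p))
  refine Eq.trans h4 ?_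
  rw [Finset.sum_filter]
  have h5 : ∀ F : Dsc K → ℤ, ∑ k' : Dsc K, F k' = ∑ k' : K, F (dmk k') := by
    intro F
    let e : Dsc K ≃ K := ⟨fun k => k, fun k => k, fun _ => rfl, fun _ => rfl⟩
    exact Fintype.sum_equiv e F (fun k' => F (dmk k')) fun _ => rfl
  rw [h5]
  refine Finset.sum_congr rfl fun k' _ => ?_
  by_cases h : f k' = Option.some l
  · rw [if_pos h]
    exact if_pos h
  · rw [if_neg h]
    exact if_neg h

end deg

/-! ### one label -/

section one

/-- `Y = Unit × Y` -/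
def unH (Y : Type) [TopologicalSpace Y] : Y ≃ₜ Dsc Unit × Y where
  toFun y := (dmk (), y)
  invFun p := p.2
  left_inv _ := rfl
  right_inv _ := rfl
  continuous_toFun := continuous_const.prodMk continuous_id
  continuous_invFun := continuous_snd

/-- the component of a point of `Q_r (1₊)` -/
noncomputable def cp (r : ℕ) : C(QS (Dsc Unit) r, BMap (Fin r → ℝ) (Fin r → ℝ)) :=
  ⟨fun q => prA (Dsc Unit) (Fin r → ℝ) (Fin r → ℝ) q (dmk ()),
    (continuous_apply (A := fun _ : Dsc Unit => BMap (Fin r → ℝ) (Fin r → ℝ)) (dmk ())).comp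
      (prA (Dsc Unit) (Fin r → ℝ) (Fin r → ℝ)).continuous⟩

/-- a based self map of the sphere as a point of `Q_r (1₊)` -/
noncomputable def ub (r : ℕ) : C(BMap (Fin r → ℝ) (Fin r → ℝ), QS (Dsc Unit) r) :=
  postB (homB (unH (Fin r → ℝ)))

theorem ub_cp (r : ℕ) (q : QS (Dsc Unit) r) : ub r (cp r q) = q := by
  refine BMap.ext' fun x => ?_
  show opH (unH (Fin r → ℝ)) (prK (dmk ()) (q.1 x)) = q.1 x
  generalize q.1 x = z
  induction z using OnePoint.rec with
  | infty => rfl
  | coe z =>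
    obtain ⟨k, y⟩ := z
    have hk : k = dmk () := rfl
    rw [hk, prK_self]
    rfl

theorem cp_ub (r : ℕ) (f : BMap (Fin r → ℝ) (Fin r → ℝ)) : cp r (ub r f) = f := by
  refine BMap.ext' fun x => ?_
  show prK (dmk ()) (opH (unH (Fin r → ℝ)) (f.1 x)) = f.1 x
  generalize f.1 x = z
  induction z using OnePoint.rec with
  | infty => rfl
  | coe z => exact prK_self (dmk ()) z

theorem cp_stB (r : ℕ) (q : QS (Dsc Unit) r) :
    cp (r + 1) (stB (Dsc Unit) r q) = T0.stab r (cp r q) := by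
  have h0 : cp (r + 1) (stB (Dsc Unit) r q) = stC (snocH r) (snocH r) (cp r q) := by
    rw [stB_eq_stK]
    exact prA_stK (K := Dsc Unit) (snocH r) (snocH r) q (dmk ())
  rw [h0]
  refine BMap.ext' fun z => ?_
  obtain ⟨⟨x, u⟩, rfl⟩ := T0.toSmash_surjective r z
  have h1 : T0.toSmash r (x, u) = opH (snocH r) (LC.smash x u) := by
    change (T0.snocHomeo r).onePointCongr (LC.smash x u) = opH (snocH r) (LC.smash x u)
    generalize LC.smash x u = w
    induction w using OnePoint.rec with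
    | infty => rfl
    | coe w => rfl
  have h2 : (T0.stab r (cp r q)) (T0.toSmash r (x, u)) = T0.toSmash r ((cp r q).1 x, u) :=
    T0.stabFun_toSmash _ (cp r q).2 (x, u)
  have h3 : (stC (snocH r) (snocH r) (cp r q)).1 (T0.toSmash r (x, u)) =
      T0.toSmash r ((cp r q).1 x, u) := by
    rw [h1, stC_smash]
    change opH (snocH r) (LC.smash ((cp r q).1 x) u) =
      (T0.snocHomeo r).onePointCongr (LC.smash ((cp r q).1 x) u)
    generalize LC.smash ((cp r q).1 x) u = w
    induction w using OnePoint.rec with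
    | infty => rfl
    | coe w => rfl
  exact h3.trans h2.symm

/-- a point as a vertex -/
noncomputable def vxQ {X : Type} [TopologicalSpace X] (x : X) : (sing X).obj 0 :=
  ofC (ContinuousMap.const _ x)

theorem exists_vxQ {X : Type} [TopologicalSpace X] (σ : (sing X).obj 0) : ∃ x, vxQ x = σ := by
  refine ⟨toC σ (pt0 0), ?_⟩
  apply ContinuousMap.ext
  intro t
  have : Subsingleton (Dl 0) := by
    constructor
    intro a b
    apply Subtype.ext
    funext i
    have h1 := stdSimplex.sum_eq_one a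
    have h2 := stdSimplex.sum_eq_one b
    rw [Fin.sum_univ_one] at h1 h2
    have hi : i = 0 := Fin.ext (by have := i.2; omega)
    rw [hi]
    exact h1.trans h2.symm
  show toC σ (pt0 0) = toC σ t
  rw [Subsingleton.elim t (pt0 0)]

/-- a path as an edge -/
theorem exists_edge {X : Type} [TopologicalSpace X] {x y : X} (h : Joined x y) :
    ∃ w : (sing X).obj 1, (sing X).map (cst 0 1) w = vxQ x ∧ (sing X).map (inc 0) w = vxQ y := by
  obtain ⟨γ⟩ := h
  refine ⟨ofC (γ.toContinuousMap.comp (chiI (OrderHom.id : Op 1 1))), ?_, ?_⟩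
  · rw [map_ofC, ContinuousMap.comp_assoc, ← chiI_comp]
    apply ContinuousMap.ext
    intro t
    have e : (OrderHom.id : Op 1 1).comp (cst 0 1) = c0 0 := eq_c0 fun x => rfl
    show γ (chiI ((OrderHom.id : Op 1 1).comp (cst 0 1)) t) = x
    rw [e, chiI_c0, γ.source]
  · rw [map_ofC, ContinuousMap.comp_assoc, ← chiI_comp]
    apply ContinuousMap.ext
    intro t
    have e : (OrderHom.id : Op 1 1).comp (inc 0) = c1 0 := eq_c1 fun x => by
      apply Fin.ext
      show (inc 0 x).1 = 1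
      rw [inc_val]
      have := x.2
      omega
    show γ (chiI ((OrderHom.id : Op 1 1).comp (inc 0)) t) = y
    rw [e, chiI_c1, γ.target]

/-- a vertex of `FQ` from a point of a stage -/
noncomputable def vQ {K : Type} [Finite K] (r : ℕ) (q : QS (Dsc K) r) : (Gam.Q.obj K).obj 0 :=
  (FQ.inc (Dsc K) r).app (vxQ q)

theorem vQ_stB {K : Type} [Finite K] (r : ℕ) (q : QS (Dsc K) r) :
    vQ (r + 1) (stB (Dsc K) r q) = vQ r q :=
  congrArg (fun f : SS.Map (sing (QS (Dsc K) r)) (FQ (Dsc K)) => f.app (vxQ q))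
    (FQ.inc_stB (B := Dsc K) r)

theorem exists_vQ {K : Type} [Finite K] (x : (Gam.Q.obj K).obj 0) (N : ℕ) :
    ∃ r, N ≤ r ∧ ∃ q : QS (Dsc K) r, vQ r q = x := by
  obtain ⟨r, hr, σ, rfl⟩ := (QSeq (Dsc K)).exists_inc_ge x N
  obtain ⟨q, rfl⟩ := exists_vxQ (X := QS (Dsc K) r) σ
  exact ⟨r, hr, q, rfl⟩

/-- two vertices come from the same stage -/
theorem exists_vQ_two {K : Type} [Finite K] (x y : (Gam.Q.obj K).obj 0) :
    ∃ (r : ℕ) (q q' : QS (Dsc K) r), vQ r q = x ∧ vQ r q' = y := by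
  obtain ⟨r, -, q, hq⟩ := exists_vQ x 0
  obtain ⟨r', hr', q', hq'⟩ := exists_vQ y r
  have h : ∀ m, r ≤ m → ∃ q : QS (Dsc K) m, vQ m q = x := by
    intro m hm
    induction m, hm using Nat.le_induction with
    | base => exact ⟨q, hq⟩
    | succ m _ ih =>
      obtain ⟨q, hq⟩ := ih
      exact ⟨stB (Dsc K) m q, by rw [vQ_stB, hq]⟩
  obtain ⟨q'', h''⟩ := h r' hr'
  exact ⟨r', q'', q', h'', hq'⟩

theorem dgK_vQ {K : Type} [Finite K] (k : Dsc K) (r : ℕ) (q : QS (Dsc K) r) :
    dgK k (vQ r q) = dK (E := Fin r → ℝ) k q := dgK_inc k r (vxQ q) (pt0 0)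

theorem exists_stabN (r : ℕ) (q : QS (Dsc Unit) r) (s : ℕ) :
    ∃ q' : QS (Dsc Unit) (r + s), vQ (r + s) q' = vQ r q ∧ cp (r + s) q' = stabN s (cp r q) := by
  induction s with
  | zero => exact ⟨q, rfl, rfl⟩
  | succ s ih =>
    obtain ⟨q', h1, h2⟩ := ih
    refine ⟨stB (Dsc Unit) (r + s) q', ?_, ?_⟩
    · rw [← h1]; exact vQ_stB (r + s) q'
    · refine (cp_stB (r + s) q').trans ?_
      rw [h2]
      rfl

/-- vertices of the same degree are joined by an edge -/
theorem exists_edge_Q (x y : (Gam.Q.obj Unit).obj 0)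
    (h : dgK (dmk ()) x = dgK (dmk ()) y) : ∃ w : (Gam.Q.obj Unit).obj 1,
      (Gam.Q.obj Unit).map (cst 0 1) w = x ∧ (Gam.Q.obj Unit).map (inc 0) w = y := by
  obtain ⟨r, q, q', rfl, rfl⟩ := exists_vQ_two x y
  rw [dgK_vQ, dgK_vQ] at h
  have h1 : degOm (r := r) (cp r q) = degOm (r := r) (cp r q') := h
  obtain ⟨s, hs⟩ := exists_joined_of_degOm (r := r) (cp r q) (cp r q') h1
  obtain ⟨a, ha, ha'⟩ := exists_stabN r q s
  obtain ⟨b, hb, hb'⟩ := exists_stabN r q' s
  have hj : Joined a b := by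
    have h2 : Joined (cp (r + s) a) (cp (r + s) b) := by
      rw [ha', hb']; exact hs
    have h3 := h2.map (ub (r + s)).continuous
    rwa [ub_cp, ub_cp] at h3
  obtain ⟨w, hw, hw'⟩ := exists_edge hj
  refine ⟨(FQ.inc (Dsc Unit) (r + s)).app w, ?_, ?_⟩
  · rw [← ha]
    exact ((FQ.inc (Dsc Unit) (r + s)).nat _ w).symm.trans (congrArg _ hw)
  · rw [← hb]
    exact ((FQ.inc (Dsc Unit) (r + s)).nat _ w).symm.trans (congrArg _ hw')

/-- sums of vertices exist, for any number of labels -/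
theorem exists_sum_Q {K : Type} [Finite K] (x : K → (Gam.Q.obj Unit).obj 0) (N : ℕ)
    (hN : ∀ k, ∃ q : QS (Dsc Unit) N, vQ N q = x k) :
    ∃ t : (Gam.Q.obj K).obj 0, ∀ k : K, dgK (dmk k) t = dgK (dmk ()) (x k) := by
  choose q hq using hN
  refine ⟨vQ (N + 1) (bsC (Dsc K) (snocH N) (snocH N) (fun k => cp N (q k))), fun k => ?_⟩
  rw [dgK_vQ, ← hq k, dgK_vQ]
  exact dK_bsC (K := Dsc K) N (dmk k) (fun k => cp N (q k))

end one

/-! ### the degree of `Gam.Q` -/

namespace Gam

theorem Q_pt : Gam.Q.Pt where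
  sub K _ hK p := by
    constructor
    intro x y
    obtain ⟨r, σ, rfl⟩ := FQ.exists_inc (B := Dsc K) x
    obtain ⟨r', τ, rfl⟩ := FQ.exists_inc (B := Dsc K) y
    have hs : ∀ m, Subsingleton (QS (Dsc K) m) := fun m => by
      constructor
      intro a b
      refine BMap.ext' fun z => ?_
      have hz : ∀ w : OnePoint (Dsc K × (Fin m → ℝ)), w = ∞ := by
        intro w
        induction w using OnePoint.rec with
        | infty => rfl
        | coe w => exact (hK.false w.1).elim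
      rw [hz (a.1 z), hz (b.1 z)]
    refine (QSeq (Dsc K)).inc_eq_iff.2 ⟨max r r', le_max_left _ _, le_max_right _ _, ?_⟩
    apply ContinuousMap.ext
    intro t
    have := hs (max r r')
    exact Subsingleton.elim _ _
  ne K _ hK p := ⟨(FQ.inc (Dsc K) 0).app (ofC (ContinuousMap.const _
    ⟨ContinuousMap.const _ ∞, rfl⟩))⟩

/-- the degree -/
noncomputable def Qdeg : Gam.Q.Deg where
  D x := dgK (dmk ()) x
  map θ x := dgK_map' (dmk ()) θ x
  add x := by
    rw [dgK_map, dgK_map, dgK_map]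
    rw [Fintype.sum_prod_type, Fintype.sum_prod_type, Fintype.sum_prod_type]
    simp [foldL, prL, Fin.sum_univ_two]

/-- vertices of `Q (1₊)` of the same degree are joined, sums exist -/
theorem Qdeg_conn : Qdeg.Conn where
  edge x y h := exists_edge_Q x y h
  sum x y := by
    obtain ⟨r, q, q', rfl, rfl⟩ := exists_vQ_two x y
    obtain ⟨t, ht⟩ := exists_sum_Q (K := Fin 2 × Unit)
      (fun k => if k.1 = 0 then vQ r q else vQ r q') r (fun k => by
        by_cases h : k.1 = 0
        · exact ⟨q, by rw [if_pos h]⟩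
        · exact ⟨q', by rw [if_neg h]⟩)
    have h0 := ht (0, ())
    have h1 := ht (1, ())
    refine ⟨t, ?_, ?_⟩
    · refine Eq.trans ?_ h0
      show dgK (dmk ()) ((Gam.Q.map (prL (0 : Fin 2))).app t) = _
      rw [dgK_map, Fintype.sum_prod_type]
      simp [prL]
    · refine Eq.trans ?_ h1
      show dgK (dmk ()) ((Gam.Q.map (prL (1 : Fin 2))).app t) = _
      rw [dgK_map, Fintype.sum_prod_type]
      simp [prL]

variable {R : Type} [CommRing R]

/-- **(PI1) (a) for `Q`** -/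
theorem Q_span {u : (Gam.Q.obj Unit).obj 0} (hu : Qdeg.D u = 1)
    (z : (free R (Gam.Q.B.obj Unit)).obj 1) :
    ∃ (r : R) (v : (free R (Gam.Q.B.obj Unit)).obj 2),
      z = r • fs R (Gam.Q.B.obj Unit) (Gam.Q.eu u) + (free R (Gam.Q.B.obj Unit)).d 1 v :=
  Qdeg_conn.span Q_pt hu z

/-- **(PI1) (b) for `Q`** -/
theorem Q_eu_ne [Nontrivial R] {u : (Gam.Q.obj Unit).obj 0} (hu : Qdeg.D u = 1) :
    ¬ ∃ v, (free R (Gam.Q.B.obj Unit)).d 1 v = fs R (Gam.Q.B.obj Unit) (Gam.Q.eu u) :=
  Qdeg.eu_ne R hu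

/-- the degree of a vertex given by a based self map of a sphere -/
theorem Qdeg_ub (r : ℕ) (f : T0.Om r) : Qdeg.D (vQ (K := Unit) r (ub r f)) = degOm f := by
  show dgK (dmk ()) (vQ (K := Unit) r (ub r f)) = degOm f
  rw [dgK_vQ]
  show degOm (r := r) (cp r (ub r f)) = degOm f
  have h := cp_ub r f
  exact congrArg (degOm (r := r)) h

/-- a vertex of degree `1`: the identity of `S⁰` -/
noncomputable def Qone : (Gam.Q.obj Unit).obj 0 := vQ (K := Unit) 0 (ub 0 (omId 0))

theorem Qdeg_one : Qdeg.D Qone = 1 := (Qdeg_ub 0 (omId 0)).trans (degOm_id 0)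

end Gam

end Vale.Agent.P263.GB
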