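import Vale.Agent.P263.G2.Coll
import Vale.Agent.P263.T0.Based

/-!
# P263: the loop sum in the first coordinate on `Ω^{r+1} S^{r+1}`

* `act ρ : Sph (r+1) → Sph (r+1)`: the map `ρ ∧ 1` for a based map `ρ` of the circle `OnePoint ℝ`
  (coordinate `0`);
* `plus c g f`: `f` on the interval `(0, c)`, `g` on `(c, 1)` of the coordinate `0`
  (in the coordinates `loopE : (0,1) ≅ ℝ`); continuous in `(c, g, f)`;
* `stab_plus`: strict compatibility with the stabilization (last coordinate);
* `plus_plus`: strict associativity, after reparametrization.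
-/

open OnePoint Topology

namespace Vale.Agent.P263.GB

open G2 (tup continuous_tup tup_coe tup_of_eq_infty tup_ne_infty tup_surjective
  isQuotientMap_id_tup coll)
open T0 (Sph Om)

/-! ### Sum of two points -/

section ws

variable {Y Z : Type*}

open scoped Classical in
/-- the sum of two points of `OnePoint Y`, one of which is `∞` -/
noncomputable def ws (y z : OnePoint Y) : OnePoint Y := if y = ∞ then z else y

theorem ws_infty_left (z : OnePoint Y) : ws ∞ z = z := by rw [ws, if_pos rfl]

theorem ws_infty_right (y : OnePoint Y) : ws y ∞ = y := by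
  unfold ws
  split_ifs with h
  · exact h.symm
  · rfl

theorem ws_comm {y z : OnePoint Y} (h : y = ∞ ∨ z = ∞) : ws y z = ws z y := by
  rcases h with rfl | rfl
  · rw [ws_infty_left, ws_infty_right]
  · rw [ws_infty_left, ws_infty_right]

theorem ws_assoc (x y z : OnePoint Y) : ws (ws x y) z = ws x (ws y z) := by
  by_cases hx : x = ∞
  · subst hx; rw [ws_infty_left, ws_infty_left]
  · have h1 : ∀ w, ws x w = x := fun w => by rw [ws, if_neg hx]
    rw [h1, h1, h1]

theorem map_ws {Y' : Type*} (g : OnePoint Y → OnePoint Y') (hg : g ∞ = ∞) {y z : OnePoint Y}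
    (h : y = ∞ ∨ z = ∞) : g (ws y z) = ws (g y) (g z) := by
  rcases h with rfl | rfl
  · rw [ws_infty_left, hg, ws_infty_left]
  · rw [ws_infty_right, hg, ws_infty_right]

theorem continuous_ws [TopologicalSpace Y] [TopologicalSpace Z] {F G : Z → OnePoint Y}
    (hF : Continuous F) (hG : Continuous G) (h : ∀ z, F z = ∞ ∨ G z = ∞) :
    Continuous fun z => ws (F z) (G z) := by
  rw [continuous_def]
  intro U hU
  by_cases hm : (∞ : OnePoint Y) ∈ U
  · have h1 : (fun z => ws (F z) (G z)) ⁻¹' U = F ⁻¹' U ∩ G ⁻¹' U := by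
      ext z
      simp only [Set.mem_preimage, Set.mem_inter_iff]
      rcases h z with hz | hz
      · rw [hz, ws_infty_left]; exact ⟨fun h => ⟨hm, h⟩, fun h => h.2⟩
      · rw [hz, ws_infty_right]; exact ⟨fun h => ⟨h, hm⟩, fun h => h.1⟩
    rw [h1]
    exact (hU.preimage hF).inter (hU.preimage hG)
  · have h1 : (fun z => ws (F z) (G z)) ⁻¹' U = F ⁻¹' U ∪ G ⁻¹' U := by
      ext z
      simp only [Set.mem_preimage, Set.mem_union]
      rcases h z with hz | hz
      · rw [hz, ws_infty_left]
        exact ⟨fun h => Or.inr h, fun h => h.resolve_left hm⟩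
      · rw [hz, ws_infty_right]
        exact ⟨fun h => Or.inl h, fun h => h.resolve_right hm⟩
    rw [h1]
    exact (hU.preimage hF).union (hU.preimage hG)

end ws

/-! ### Based self maps of the circle acting on the coordinate `0` -/

section act

variable {r : ℕ}

/-- the map `ρ ∧ 1` (coordinate `0`) -/
noncomputable def act (ρ : OnePoint ℝ → OnePoint ℝ) (x : Sph (r + 1)) : Sph (r + 1) :=
  x.elim ∞ fun v => tup (Function.update (fun i => (v i : OnePoint ℝ)) 0 (ρ (v 0 : OnePoint ℝ)))

@[simp] theorem act_infty (ρ : OnePoint ℝ → OnePoint ℝ) :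
    act ρ (∞ : Sph (r + 1)) = ∞ := rfl

theorem act_coe (ρ : OnePoint ℝ → OnePoint ℝ) (v : Fin (r + 1) → ℝ) :
    act ρ (v : Sph (r + 1)) =
      tup (Function.update (fun i => (v i : OnePoint ℝ)) 0 (ρ (v 0 : OnePoint ℝ))) := rfl

theorem act_tup {ρ : OnePoint ℝ → OnePoint ℝ} (hρ : ρ ∞ = ∞) (v : Fin (r + 1) → OnePoint ℝ) :
    act ρ (tup v) = tup (Function.update v 0 (ρ (v 0))) := by
  by_cases h : ∀ i, v i ≠ ∞
  · choose x hx using fun i => OnePoint.ne_infty_iff_exists.1 (h i)
    have h1 : v = fun i => (x i : OnePoint ℝ) := funext fun i => (hx i).symm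
    rw [h1, tup_coe, act_coe]
  · push Not at h
    obtain ⟨i, hi⟩ := h
    rw [tup_of_eq_infty hi, act_infty]
    by_cases h0 : i = 0
    · subst h0
      rw [tup_of_eq_infty (i := 0)]
      rw [Function.update_self, hi, hρ]
    · rw [tup_of_eq_infty (i := i)]
      rw [Function.update_of_ne h0, hi]

theorem act_id (x : Sph (r + 1)) : act id x = x := by
  obtain ⟨v, rfl⟩ := tup_surjective x
  rw [act_tup rfl, id, Function.update_eq_self]

theorem act_congr {ρ σ : OnePoint ℝ → OnePoint ℝ} (h : ∀ z, ρ z = σ z) (x : Sph (r + 1)) :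
    act ρ x = act σ x := by rw [funext h]

theorem act_act {ρ σ : OnePoint ℝ → OnePoint ℝ} (hρ : ρ ∞ = ∞) (hσ : σ ∞ = ∞)
    (x : Sph (r + 1)) : act ρ (act σ x) = act (ρ ∘ σ) x := by
  obtain ⟨v, rfl⟩ := tup_surjective x
  rw [act_tup hσ, act_tup hρ, act_tup (by rw [Function.comp, hσ, hρ]), Function.update_self,
    Function.update_idem]
  rfl

theorem act_eq_infty {ρ : OnePoint ℝ → OnePoint ℝ} {v : Fin (r + 1) → ℝ}
    (h : ρ (v 0 : OnePoint ℝ) = ∞) : act ρ (v : Sph (r + 1)) = ∞ := by
  rw [act_coe]
  exact tup_of_eq_infty (i := 0) (by rw [Function.update_self, h])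

/-- disjoint supports -/
def Dj (ρ σ : OnePoint ℝ → OnePoint ℝ) : Prop := ∀ z, ρ z = ∞ ∨ σ z = ∞

theorem Dj.act {ρ σ : OnePoint ℝ → OnePoint ℝ} (h : Dj ρ σ) (x : Sph (r + 1)) :
    GB.act ρ x = ∞ ∨ GB.act σ x = ∞ := by
  induction x using OnePoint.rec with
  | infty => exact Or.inl rfl
  | coe v => exact (h (v 0 : OnePoint ℝ)).imp act_eq_infty act_eq_infty

theorem continuous_act {T : Type*} [TopologicalSpace T] {ρ : T → OnePoint ℝ → OnePoint ℝ}
    (hρ : Continuous fun p : T × OnePoint ℝ => ρ p.1 p.2) (h : ∀ t, ρ t ∞ = ∞) :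
    Continuous fun p : T × Sph (r + 1) => act (ρ p.1) p.2 := by
  rw [(isQuotientMap_id_tup T).continuous_iff]
  have h2 : (fun p : T × Sph (r + 1) => act (ρ p.1) p.2) ∘
      Prod.map (id : T → T) (tup : (Fin (r + 1) → OnePoint ℝ) → OnePoint (Fin (r + 1) → ℝ)) =
      fun p : T × (Fin (r + 1) → OnePoint ℝ) =>
        tup (Function.update p.2 0 (ρ p.1 (p.2 0))) := funext fun p => act_tup (h p.1) p.2
  rw [h2]
  refine continuous_tup.comp ?_
  exact continuous_snd.update 0 (hρ.comp
    (continuous_fst.prodMk ((continuous_apply 0).comp continuous_snd)))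

/-- `act` is the collapse onto a slab -/
theorem act_rho (a b : ℝ) (x : Sph (r + 1)) : act (rho a b) x =
    coll (Function.update (fun _ => 0) 0 a) (Function.update (fun _ => 1) 0 b) x := by
  induction x using OnePoint.rec with
  | infty => rfl
  | coe v =>
    rw [act_coe, G2.coll_coe]
    congr 1
    funext i
    by_cases hi : i = 0
    · subst hi
      rw [Function.update_self, Function.update_self, Function.update_self]
    · rw [Function.update_of_ne hi, Function.update_of_ne hi, Function.update_of_ne hi,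
        rho_zero_one]

/-- `act` and the smash product with the last coordinate -/
theorem act_toSmash (ρ : OnePoint ℝ → OnePoint ℝ) (p : Sph (r + 1) × OnePoint ℝ) :
    act ρ (T0.toSmash (r + 1) p) = T0.toSmash (r + 1) (act ρ p.1, p.2) := by
  obtain ⟨x, t⟩ := p
  induction x using OnePoint.rec with
  | infty => rfl
  | coe v =>
    induction t using OnePoint.rec with
    | infty => rw [T0.toSmash_infty_right, T0.toSmash_infty_right]; rfl
    | coe t =>
      rw [T0.toSmash_coe, act_coe]
      dsimp only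
      have h0 : (Fin.snoc v t : Fin (r + 1 + 1) → ℝ) 0 = v 0 := by
        have : (0 : Fin (r + 1 + 1)) = Fin.castSucc 0 := rfl
        rw [this]; exact Fin.snoc_castSucc (α := fun _ => ℝ) t v 0
      rw [h0]
      by_cases h : ρ (v 0 : OnePoint ℝ) = ∞
      · rw [act_eq_infty h, T0.toSmash_infty_left]
        exact tup_of_eq_infty (i := 0) (by rw [Function.update_self, h])
      · obtain ⟨s, hs⟩ := OnePoint.ne_infty_iff_exists.1 h
        have h1 : act ρ (v : Sph (r + 1)) = (Function.update v 0 s : Fin (r + 1) → ℝ) := by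
          rw [act_coe, ← hs, ← tup_coe]
          congr 1
          funext i
          by_cases hi : i = 0
          · subst hi; rw [Function.update_self, Function.update_self]
          · rw [Function.update_of_ne hi, Function.update_of_ne hi]
        rw [h1, T0.toSmash_coe, ← tup_coe]
        congr 1
        funext i
        rw [← hs]
        by_cases hi : i = 0
        · subst hi
          rw [Function.update_self]
          have : (0 : Fin (r + 1 + 1)) = Fin.castSucc 0 := rfl
          rw [this, Fin.snoc_castSucc (α := fun _ => ℝ), Function.update_self]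
        · rw [Function.update_of_ne hi]
          congr 1
          refine Fin.lastCases (motive := fun i => i ≠ 0 → (Fin.snoc v t : Fin (r + 1 + 1) → ℝ) i =
            (Fin.snoc (Function.update v 0 s) t : Fin (r + 1 + 1) → ℝ) i) ?_ ?_ i hi
          · intro _
            rw [Fin.snoc_last, Fin.snoc_last]
          · intro j hj
            rw [Fin.snoc_castSucc (α := fun _ => ℝ), Fin.snoc_castSucc (α := fun _ => ℝ),
              Function.update_of_ne]
            intro h
            exact hj (by rw [h]; rfl)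

end act

/-! ### Composition of pinch maps -/

section rho

theorem rho_loopE' {a b : ℝ} (ha : 0 ≤ a) (hab : a < b) (hb : b ≤ 1) (w : ℝ) :
    rho a b (loopE w) = loopE ((w - a) / (b - a)) := by
  have hba : 0 < b - a := sub_pos.2 hab
  rcases le_or_gt w 0 with h | h
  · rw [loopE_of_le h, rho_infty, loopE_of_le]
    exact div_nonpos_of_nonpos_of_nonneg (by linarith) hba.le
  · rcases le_or_gt 1 w with h' | h'
    · rw [loopE_of_ge h', rho_infty, loopE_of_ge]
      rw [le_div_iff₀ hba]; linarith
    · exact rho_loopE ha hab hb h.le h'.le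

theorem loopE_surjective (z : OnePoint ℝ) : ∃ u : ℝ, 0 ≤ u ∧ u ≤ 1 ∧ loopE u = z := by
  obtain ⟨u, hu⟩ := loopU_surjective z
  exact ⟨u.1, u.2.1, u.2.2, hu⟩

theorem rho_rho {a b a' b' : ℝ} (ha : 0 ≤ a) (hab : a < b) (hb : b ≤ 1) (ha' : 0 ≤ a')
    (hab' : a' < b') (hb' : b' ≤ 1) (z : OnePoint ℝ) :
    rho a b (rho a' b' z) = rho (a' + (b' - a') * a) (a' + (b' - a') * b) z := by
  obtain ⟨u, -, -, rfl⟩ := loopE_surjective z
  have h1 : 0 < b' - a' := sub_pos.2 hab'
  have h2 : 0 < b - a := sub_pos.2 hab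
  have h3 : 0 ≤ (b' - a') * a := mul_nonneg h1.le ha
  have h4 : (b' - a') * b ≤ (b' - a') * 1 := mul_le_mul_of_nonneg_left hb h1.le
  have h5 : (b' - a') * a < (b' - a') * b := mul_lt_mul_of_pos_left hab h1
  rw [rho_loopE' ha' hab' hb', rho_loopE' ha hab hb, rho_loopE' (by linarith) (by linarith)
    (by linarith)]
  congr 1
  have h6 : a' + (b' - a') * b - (a' + (b' - a') * a) = (b' - a') * (b - a) := by ring
  rw [h6]
  field_simp
  ring

theorem dj_rho {a b a' b' : ℝ} (hab : a < b) (hab' : a' < b') (h : b ≤ a') :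
    Dj (rho a b) (rho a' b') := by
  intro z
  induction z using OnePoint.rec with
  | infty => exact Or.inl rfl
  | coe t =>
    by_contra hc
    push Not at hc
    have h1 := mem_of_rho_ne_infty hab hc.1
    have h2 := mem_of_rho_ne_infty hab' hc.2
    linarith

end rho

/-! ### Reparametrization and sum on `Om (r+1)` -/

section om

variable {r : ℕ} {T : Type*} [TopologicalSpace T]

/-- families of elements of `Om r` -/
theorem continuous_om_iff {F : T → Om r} :
    Continuous F ↔ Continuous fun p : T × Sph r => (F p.1).1 p.2 := by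
  constructor
  · intro h
    exact ContinuousEval.continuous_eval.comp
      ((continuous_subtype_val.comp (h.comp continuous_fst)).prodMk continuous_snd)
  · intro h
    exact Continuous.subtype_mk (ContinuousMap.continuous_of_continuous_uncurry _ h) _

/-- the function `f ∘ (ρ ∧ 1) + g ∘ (σ ∧ 1)` -/
noncomputable def sumFun (ρ σ : OnePoint ℝ → OnePoint ℝ) (f g : Sph (r + 1) → Sph (r + 1))
    (x : Sph (r + 1)) : Sph (r + 1) := ws (f (act ρ x)) (g (act σ x))

theorem continuous_preFun {ρ : T → OnePoint ℝ → OnePoint ℝ}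
    (hρ : Continuous fun p : T × OnePoint ℝ => ρ p.1 p.2) (h : ∀ t, ρ t ∞ = ∞)
    {F : T → Om (r + 1)} (hF : Continuous F) :
    Continuous fun p : T × Sph (r + 1) => (F p.1).1 (act (ρ p.1) p.2) :=
  (continuous_om_iff.1 hF).comp (continuous_fst.prodMk (continuous_act hρ h))

theorem continuous_sumFun {ρ σ : T → OnePoint ℝ → OnePoint ℝ}
    (hρ : Continuous fun p : T × OnePoint ℝ => ρ p.1 p.2) (h : ∀ t, ρ t ∞ = ∞)
    (hσ : Continuous fun p : T × OnePoint ℝ => σ p.1 p.2) (h' : ∀ t, σ t ∞ = ∞)
    (hd : ∀ t, Dj (ρ t) (σ t)) {F G : T → Om (r + 1)} (hF : Continuous F) (hG : Continuous G) :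
    Continuous fun p : T × Sph (r + 1) => sumFun (ρ p.1) (σ p.1) (F p.1).1 (G p.1).1 p.2 := by
  refine continuous_ws (continuous_preFun hρ h hF) (continuous_preFun hσ h' hG) fun p => ?_
  rcases (hd p.1).act p.2 with h1 | h1
  · left; rw [h1]; exact (F p.1).2
  · right; rw [h1]; exact (G p.1).2

/-- the parameter of a division of the interval -/
abbrev Cut : Type := Set.Ioo (0 : ℝ) 1

/-- the middle -/
noncomputable def half : Cut := ⟨1 / 2, by norm_num, by norm_num⟩

theorem continuous_rhoL {c : T → Cut} (hc : Continuous c) :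
    Continuous fun p : T × OnePoint ℝ => rho 0 (c p.1).1 p.2 :=
  continuous_rho continuous_const (continuous_subtype_val.comp hc) (fun _ => le_rfl)
    (fun t => (c t).2.1) (fun t => (c t).2.2.le)

theorem continuous_rhoR {c : T → Cut} (hc : Continuous c) :
    Continuous fun p : T × OnePoint ℝ => rho (c p.1).1 1 p.2 :=
  continuous_rho (continuous_subtype_val.comp hc) continuous_const (fun t => (c t).2.1.le)
    (fun t => (c t).2.2) (fun _ => le_rfl)

theorem dj_cut (c : Cut) : Dj (rho 0 c.1) (rho c.1 1) := dj_rho c.2.1 c.2.2 le_rfl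

/-- **The loop sum in the coordinate `0`**: `f` on `(0, c)`, `g` on `(c, 1)`. -/
noncomputable def plus (c : Cut) (g f : Om (r + 1)) : Om (r + 1) :=
  ⟨⟨sumFun (rho 0 c.1) (rho c.1 1) f.1 g.1, by
    exact (continuous_sumFun (T := Unit) (continuous_rhoL (c := fun _ => c) continuous_const)
      (fun _ => rfl) (continuous_rhoR (c := fun _ => c) continuous_const) (fun _ => rfl)
      (fun _ => dj_cut c) (F := fun _ => f) (G := fun _ => g) continuous_const
      continuous_const).comp (continuous_const.prodMk continuous_id :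
        Continuous fun x => ((), x))⟩, by
    show ws (f.1 ∞) (g.1 ∞) = ∞
    rw [f.2, ws_infty_left, g.2]⟩

theorem plus_apply (c : Cut) (g f : Om (r + 1)) (x : Sph (r + 1)) :
    (plus c g f).1 x = ws (f.1 (act (rho 0 c.1) x)) (g.1 (act (rho c.1 1) x)) := rfl

/-- joint continuity of the loop sum -/
theorem continuous_plus {c : T → Cut} (hc : Continuous c) {F G : T → Om (r + 1)}
    (hF : Continuous F) (hG : Continuous G) : Continuous fun t => plus (c t) (G t) (F t) := by
  rw [continuous_om_iff]
  exact continuous_sumFun (continuous_rhoL hc) (fun _ => rfl) (continuous_rhoR hc) (fun _ => rfl)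
    (fun t => dj_cut (c t)) hF hG

/-- the left endpoint case: only the first summand, squeezed to `(0, c)`, `0 < c ≤ 1` -/
noncomputable def sq (c : Set.Ioc (0 : ℝ) 1) (f : Om (r + 1)) : Om (r + 1) :=
  ⟨⟨fun x => f.1 (act (rho 0 c.1) x), by
    exact (continuous_preFun (T := Unit) (ρ := fun _ => rho 0 c.1) (F := fun _ => f)
      (continuous_rho continuous_const continuous_const (fun _ => le_rfl) (fun _ => c.2.1)
        (fun _ => c.2.2)) (fun _ => rfl) continuous_const).comp
      (continuous_const.prodMk continuous_id : Continuous fun x => ((), x))⟩, f.2⟩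

theorem continuous_sq {c : T → Set.Ioc (0 : ℝ) 1} (hc : Continuous c) {F : T → Om (r + 1)}
    (hF : Continuous F) : Continuous fun t => sq (c t) (F t) := by
  rw [continuous_om_iff]
  exact continuous_preFun (ρ := fun t => rho 0 (c t).1)
    (continuous_rho continuous_const (continuous_subtype_val.comp hc) (fun _ => le_rfl)
      (fun t => (c t).2.1) (fun t => (c t).2.2)) (fun _ => rfl) hF

theorem om_ext {f g : Om r} (h : ∀ x, f.1 x = g.1 x) : f = g :=
  Subtype.ext (ContinuousMap.ext h)

theorem sq_one (f : Om (r + 1)) (h : (1 : ℝ) ∈ Set.Ioc (0 : ℝ) 1) : sq ⟨1, h⟩ f = f := by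
  refine om_ext fun x => ?_
  show f.1 (act (rho 0 1) x) = f.1 x
  rw [act_congr rho_zero_one]
  exact congrArg f.1 (act_id x)

theorem plus_const (c : Cut) (f : Om (r + 1)) :
    plus c (Om.const (r + 1)) f = sq ⟨c.1, c.2.1, c.2.2.le⟩ f := by
  refine om_ext fun x => ?_
  rw [plus_apply]
  show ws (f.1 (act (rho 0 c.1) x)) ∞ = _
  rw [ws_infty_right]
  rfl

/-- compatibility with the stabilization -/
theorem stab_plus (c : Cut) (g f : Om (r + 1)) :
    T0.stab (r + 1) (plus c g f) = plus c (T0.stab (r + 1) g) (T0.stab (r + 1) f) := by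
  refine om_ext fun x => ?_
  obtain ⟨p, rfl⟩ := T0.toSmash_surjective (r + 1) x
  have hst : ∀ (h : Om (r + 1)) (q : Sph (r + 1) × OnePoint ℝ),
      (T0.stab (r + 1) h).1 (T0.toSmash (r + 1) q) = T0.toSmash (r + 1) (h.1 q.1, q.2) :=
    fun h q => T0.stabFun_toSmash h.1 h.2 q
  rw [hst, plus_apply, plus_apply, act_toSmash, act_toSmash, hst, hst]
  have h1 : f.1 (act (rho 0 c.1) p.1) = ∞ ∨ g.1 (act (rho c.1 1) p.1) = ∞ := by
    rcases (dj_cut c).act p.1 with h | h
    · left; rw [h]; exact f.2
    · right; rw [h]; exact g.2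
  exact map_ws (fun y => T0.toSmash (r + 1) (y, p.2)) (T0.toSmash_infty_left (r + 1) p.2) h1

/-- the parameter of the inner sum after reassociation -/
noncomputable def cut2 (c' c : Cut) : Cut :=
  ⟨(c'.1 - c'.1 * c.1) / (1 - c'.1 * c.1), by
    have h1 := c.2.1; have h2 := c.2.2; have h3 := c'.2.1; have h4 := c'.2.2
    have h5 : 0 < 1 - c'.1 * c.1 := by nlinarith
    exact div_pos (by nlinarith) h5, by
    have h1 := c.2.1; have h2 := c.2.2; have h3 := c'.2.1; have h4 := c'.2.2
    have h5 : 0 < 1 - c'.1 * c.1 := by nlinarith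
    rw [div_lt_one h5]
    linarith⟩

/-- the product of two parameters -/
noncomputable def cutM (c' c : Cut) : Cut :=
  ⟨c'.1 * c.1, mul_pos c'.2.1 c.2.1, mul_lt_one_of_nonneg_of_lt_one_left c'.2.1.le c'.2.2
    c.2.2.le⟩

/-- strict associativity -/
theorem plus_plus (c' c : Cut) (g' g f : Om (r + 1)) :
    plus c' g' (plus c g f) = plus (cutM c' c) (plus (cut2 c' c) g' g) f := by
  refine om_ext fun x => ?_
  have h1 := c.2.1
  have h2 := c.2.2
  have h3 := c'.2.1
  have h4 := c'.2.2
  have hm : (cutM c' c).1 = c'.1 * c.1 := rfl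
  have h5 : 0 < 1 - c'.1 * c.1 := sub_pos.2 (cutM c' c).2.2
  have hc2 : (1 - c'.1 * c.1) * (cut2 c' c).1 = c'.1 - c'.1 * c.1 := by
    show (1 - c'.1 * c.1) * ((c'.1 - c'.1 * c.1) / (1 - c'.1 * c.1)) = _
    field_simp
  have k1 := (cut2 c' c).2.1
  have k2 := (cut2 c' c).2.2
  have e1 : act (rho 0 c.1) (act (rho 0 c'.1) x) = act (rho 0 (cutM c' c).1) x := by
    rw [act_act rfl rfl]
    refine act_congr (fun z => ?_) x
    rw [Function.comp, rho_rho le_rfl h1 h2.le le_rfl h3 h4.le, hm]
    congr 1 <;> ring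
  have e2 : act (rho c.1 1) (act (rho 0 c'.1) x) =
      act (rho 0 (cut2 c' c).1) (act (rho (cutM c' c).1 1) x) := by
    rw [act_act rfl rfl, act_act rfl rfl]
    refine act_congr (fun z => ?_) x
    rw [Function.comp, Function.comp, rho_rho h1.le h2 le_rfl le_rfl h3 h4.le,
      rho_rho le_rfl k1 k2.le (by rw [hm]; positivity) (cutM c' c).2.2 le_rfl, hm, hc2]
    congr 1 <;> ring
  have e3 : act (rho c'.1 1) x = act (rho (cut2 c' c).1 1) (act (rho (cutM c' c).1 1) x) := by
    rw [act_act rfl rfl]
    refine act_congr (fun z => ?_) x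
    rw [Function.comp, rho_rho k1.le k2 le_rfl (by rw [hm]; positivity) (cutM c' c).2.2 le_rfl,
      hm, hc2]
    congr 1 <;> ring
  rw [plus_apply, plus_apply, plus_apply, plus_apply, e1, e2, e3, ws_assoc]

end om

end Vale.Agent.P263.GB
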