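import Vale.Agent.P263.GB.Plus

/-!
# P263: the loop sum in the first coordinate is invertible up to homotopy

* `rev g`: `g` with the coordinate `0` reversed; `joined_plus_rev`, `joined_plus_rev'`:
  `plus c (rev g) g` and `plus c g (rev g)` are joined to the constant map, for every `c`;
* `addR c e : C(Om (r+1), Om (r+1))`, `f ↦ plus c e f`;
* `homotopic_addR_addR`: `addR c' e' ∘ addR c e ≃ id` if `e` and `e'` are inverse to each other.
-/

open OnePoint Topology

namespace Vale.Agent.P263.GB

open G2 (tup continuous_tup tup_coe tup_of_eq_infty tup_ne_infty tup_surjective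
  isQuotientMap_id_tup coll)
open T0 (Sph Om)

/-! ### The reversal of the circle -/

section rv

/-- the reversal of the circle -/
noncomputable def rv (z : OnePoint ℝ) : OnePoint ℝ := z.elim ∞ fun t => ((-t : ℝ) : OnePoint ℝ)

@[simp] theorem rv_infty : rv ∞ = ∞ := rfl

theorem rv_coe (t : ℝ) : rv (t : OnePoint ℝ) = ((-t : ℝ) : OnePoint ℝ) := rfl

theorem rv_rv (z : OnePoint ℝ) : rv (rv z) = z := by
  induction z using OnePoint.rec with
  | infty => rfl
  | coe t => rw [rv_coe, rv_coe, neg_neg]

theorem rv_loopE (u : ℝ) : rv (loopE u) = loopE (1 - u) := by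
  rcases le_or_gt u 0 with h | h
  · rw [loopE_of_le h, rv_infty, loopE_of_ge (by linarith)]
  · rcases le_or_gt 1 u with h' | h'
    · rw [loopE_of_ge h', rv_infty, loopE_of_le (by linarith)]
    · rw [loopE, if_pos ⟨h, h'⟩, rv_coe, loopE, if_pos ⟨by linarith, by linarith⟩]
      congr 1
      rw [← Real.tan_neg]
      congr 1
      ring

theorem continuous_rv : Continuous rv := by
  have hq := isQuotientMap_id_loopU Unit
  have h : Continuous fun p : Unit × OnePoint ℝ => rv p.2 := by
    rw [hq.continuous_iff]
    have h1 : (fun p : Unit × OnePoint ℝ => rv p.2) ∘ Prod.map (id : Unit → Unit) loopU =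
        fun p : Unit × unitInterval => loopE (1 - p.2.1) := funext fun p => rv_loopE p.2.1
    rw [h1]
    exact continuous_loopE.comp (continuous_const.sub (continuous_subtype_val.comp continuous_snd))
  exact h.comp (continuous_const.prodMk continuous_id : Continuous fun x => ((), x))

/-- the null homotopy of loop followed by its inverse -/
noncomputable def kap (c s : ℝ) (z : OnePoint ℝ) : OnePoint ℝ :=
  z.elim ∞ fun t => loopE (s * min (loopI t / c) ((1 - loopI t) / (1 - c)))

@[simp] theorem kap_infty (c s : ℝ) : kap c s ∞ = ∞ := rfl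

theorem kap_loopE {c s u : ℝ} (hs : 0 ≤ s) (hu0 : 0 ≤ u)
    (hu1 : u ≤ 1) : kap c s (loopE u) = loopE (s * min (u / c) ((1 - u) / (1 - c))) := by
  rcases hu0.eq_or_lt with h | h
  · subst h
    rw [loopE_zero, kap_infty, loopE_of_le]
    have h1 : min (0 / c) ((1 - 0) / (1 - c)) ≤ 0 := by
      rw [zero_div]; exact min_le_left _ _
    exact mul_nonpos_of_nonneg_of_nonpos hs h1
  · rcases hu1.eq_or_lt with h' | h'
    · subst h'
      rw [loopE_one, kap_infty, loopE_of_le]
      have h1 : min (1 / c) ((1 - 1) / (1 - c)) ≤ 0 := by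
        rw [sub_self, zero_div]; exact min_le_right _ _
      exact mul_nonpos_of_nonneg_of_nonpos hs h1
    · rw [loopE, if_pos ⟨h, h'⟩]
      show loopE _ = _
      rw [loopI_tan h h']

theorem continuous_kap (c : ℝ) :
    Continuous fun p : unitInterval × OnePoint ℝ => kap c p.1.1 p.2 := by
  rw [(isQuotientMap_id_loopU unitInterval).continuous_iff]
  have h1 : (fun p : unitInterval × OnePoint ℝ => kap c p.1.1 p.2) ∘
      Prod.map (id : unitInterval → unitInterval) loopU =
      fun p : unitInterval × unitInterval =>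
        loopE (p.1.1 * min (p.2.1 / c) ((1 - p.2.1) / (1 - c))) :=
    funext fun p => kap_loopE p.1.2.1 p.2.2.1 p.2.2.2
  rw [h1]
  have h2 : Continuous fun p : unitInterval × unitInterval => (p.2.1 : ℝ) :=
    continuous_subtype_val.comp continuous_snd
  exact continuous_loopE.comp ((continuous_subtype_val.comp continuous_fst).mul
    ((h2.div_const _).min ((continuous_const.sub h2).div_const _)))

theorem kap_zero (c : ℝ) (z : OnePoint ℝ) : kap c 0 z = ∞ := by
  induction z using OnePoint.rec with
  | infty => rfl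
  | coe t =>
    show loopE (0 * _) = ∞
    rw [zero_mul, loopE_zero]

/-- at time `1` the homotopy is loop followed by its inverse -/
theorem kap_one {c : ℝ} (hc0 : 0 < c) (hc1 : c < 1) (z : OnePoint ℝ) :
    kap c 1 z = ws (rho 0 c z) (rv (rho c 1 z)) := by
  obtain ⟨u, hu0, hu1, rfl⟩ := loopE_surjective z
  have hc1' : 0 < 1 - c := sub_pos.2 hc1
  rw [kap_loopE zero_le_one hu0 hu1, rho_loopE' le_rfl hc0 hc1.le,
    rho_loopE' hc0.le hc1 le_rfl, rv_loopE, one_mul, sub_zero, sub_zero]
  rcases le_total u c with h | h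
  · have h1 : u / c ≤ 1 := by rw [div_le_one hc0]; exact h
    have h2 : 1 ≤ (1 - u) / (1 - c) := by rw [le_div_iff₀ hc1']; linarith
    have h3 : 1 ≤ 1 - (u - c) / (1 - c) := by
      have : (u - c) / (1 - c) ≤ 0 := div_nonpos_of_nonpos_of_nonneg (by linarith) hc1'.le
      linarith
    rw [min_eq_left (h1.trans h2), loopE_of_ge h3, ws_infty_right]
  · have h1 : 1 ≤ u / c := by rw [le_div_iff₀ hc0]; linarith
    have h2 : (1 - u) / (1 - c) ≤ 1 := by rw [div_le_one hc1']; linarith
    have h3 : 1 - (u - c) / (1 - c) = (1 - u) / (1 - c) := by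
      field_simp; ring
    rw [min_eq_right (h2.trans h1), loopE_of_ge h1, ws_infty_left, h3]

end rv

/-! ### Inverses -/

section rev

variable {r : ℕ}

/-- `g` with the coordinate `0` reversed -/
noncomputable def rev (g : Om (r + 1)) : Om (r + 1) :=
  ⟨⟨fun x => g.1 (act rv x), by
    exact (continuous_preFun (T := Unit) (ρ := fun _ => rv) (F := fun _ => g)
      (continuous_rv.comp continuous_snd) (fun _ => rfl) continuous_const).comp
      (continuous_const.prodMk continuous_id : Continuous fun x => ((), x))⟩, g.2⟩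

theorem rev_rev (g : Om (r + 1)) : rev (rev g) = g := by
  refine om_ext fun x => ?_
  show g.1 (act rv (act rv x)) = g.1 x
  rw [act_act rfl rfl]
  exact congrArg g.1 ((act_congr (σ := id) rv_rv x).trans (act_id x))

theorem continuous_rev : Continuous (rev : Om (r + 1) → Om (r + 1)) := by
  rw [continuous_om_iff]
  exact continuous_preFun (ρ := fun _ => rv) (continuous_rv.comp continuous_snd) (fun _ => rfl)
    continuous_id

theorem stab_rev (g : Om (r + 1)) : T0.stab (r + 1) (rev g) = rev (T0.stab (r + 1) g) := by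
  refine om_ext fun x => ?_
  obtain ⟨p, rfl⟩ := T0.toSmash_surjective (r + 1) x
  have hst : ∀ (h : Om (r + 1)) (q : Sph (r + 1) × OnePoint ℝ),
      (T0.stab (r + 1) h).1 (T0.toSmash (r + 1) q) = T0.toSmash (r + 1) (h.1 q.1, q.2) :=
    fun h q => T0.stabFun_toSmash h.1 h.2 q
  rw [hst]
  show _ = (T0.stab (r + 1) g).1 (act rv _)
  rw [act_toSmash, hst]
  rfl

theorem act_ws {ρ σ : OnePoint ℝ → OnePoint ℝ} (hρ : ρ ∞ = ∞) (hσ : σ ∞ = ∞) (hd : Dj ρ σ)
    (x : Sph (r + 1)) : act (fun z => ws (ρ z) (σ z)) x = ws (act ρ x) (act σ x) := by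
  obtain ⟨v, rfl⟩ := tup_surjective x
  rw [act_tup (by rw [hρ, hσ, ws_infty_left]), act_tup hρ, act_tup hσ]
  rcases hd (v 0) with h | h
  · rw [h, ws_infty_left, tup_of_eq_infty (v := Function.update v 0 ∞) (i := 0)
      (Function.update_self ..), ws_infty_left]
  · rw [h, ws_infty_right, tup_of_eq_infty (v := Function.update v 0 ∞) (i := 0)
      (Function.update_self ..), ws_infty_right]

theorem plus_rev_apply (c : Cut) (g : Om (r + 1)) (x : Sph (r + 1)) :
    (plus c (rev g) g).1 x = g.1 (act (kap c.1 1) x) := by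
  have hd : Dj (rho 0 c.1) (rv ∘ rho c.1 1) := fun z => by
    rcases dj_cut c z with h | h
    · exact Or.inl h
    · right; rw [Function.comp, h, rv_infty]
  rw [act_congr (kap_one c.2.1 c.2.2)]
  have h1 := act_ws (r := r) (rho_infty 0 c.1) (σ := rv ∘ rho c.1 1) rfl hd x
  have h2 : act (fun z => ws (rho 0 c.1 z) (rv (rho c.1 1 z))) x =
      ws (act (rho 0 c.1) x) (act (rv ∘ rho c.1 1) x) := h1
  rw [h2, map_ws g.1 g.2 (hd.act x), plus_apply, ← act_act rfl rfl]
  rfl

/-- `g` followed by its reverse is joined to the constant map -/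
theorem joined_plus_rev (c : Cut) (g : Om (r + 1)) :
    Joined (plus c (rev g) g) (Om.const (r + 1)) := by
  have hk : ∀ s : unitInterval, kap c.1 s.1 ∞ = ∞ := fun s => rfl
  have hc := continuous_preFun (T := unitInterval) (ρ := fun s => kap c.1 s.1)
    (continuous_kap c.1) hk (F := fun _ => g) continuous_const
  let γ : unitInterval → Om (r + 1) := fun s => ⟨⟨fun x => g.1 (act (kap c.1 s.1) x),
    hc.comp (continuous_const.prodMk continuous_id : Continuous fun x => (s, x))⟩, g.2⟩
  have hγ : Continuous γ := continuous_om_iff.2 hc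
  have h0 : γ 0 = Om.const (r + 1) := by
    refine om_ext fun x => ?_
    show g.1 (act (kap c.1 0) x) = ∞
    have : act (kap c.1 0) x = ∞ := by
      obtain ⟨v, rfl⟩ := tup_surjective x
      rw [act_tup rfl, kap_zero]
      exact tup_of_eq_infty (i := 0) (Function.update_self ..)
    rw [this]
    exact g.2
  have h1 : γ 1 = plus c (rev g) g := by
    refine om_ext fun x => ?_
    rw [plus_rev_apply]
    rfl
  exact Joined.symm ⟨⟨⟨γ, hγ⟩, h0, h1⟩⟩

theorem joined_plus_rev' (c : Cut) (g : Om (r + 1)) :
    Joined (plus c g (rev g)) (Om.const (r + 1)) := by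
  have h := joined_plus_rev c (rev g)
  rwa [rev_rev] at h

/-- moving the cut point -/
theorem joined_plus_cut (c c' : Cut) (g f : Om (r + 1)) : Joined (plus c g f) (plus c' g f) := by
  have hmem : ∀ s : unitInterval, (1 - s.1) * c.1 + s.1 * c'.1 ∈ Set.Ioo (0 : ℝ) 1 := by
    intro s
    have h1 := s.2.1
    have h2 := s.2.2
    have h3 := c.2.1
    have h4 := c.2.2
    have h5 := c'.2.1
    have h6 := c'.2.2
    constructor
    · rcases h1.eq_or_lt with h | h
      · rw [← h]; linarith
      · have h7 : 0 < s.1 * c'.1 := mul_pos h h5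
        have h8 : 0 ≤ (1 - s.1) * c.1 := mul_nonneg (by linarith) h3.le
        linarith
    · rcases h1.eq_or_lt with h | h
      · rw [← h]; linarith
      · have h7 : s.1 * c'.1 < s.1 * 1 := mul_lt_mul_of_pos_left h6 h
        have h8 : (1 - s.1) * c.1 ≤ (1 - s.1) * 1 := mul_le_mul_of_nonneg_left h4.le (by linarith)
        linarith
  let κ : unitInterval → Cut := fun s => ⟨_, hmem s⟩
  have hκ : Continuous κ := Continuous.subtype_mk
    (((continuous_const.sub continuous_subtype_val).mul continuous_const).add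
      (continuous_subtype_val.mul continuous_const)) _
  refine ⟨⟨⟨fun s => plus (κ s) g f, continuous_plus hκ continuous_const continuous_const⟩,
    ?_, ?_⟩⟩
  · show plus (κ 0) g f = plus c g f
    congr 1
    exact Subtype.ext (by show (1 - (0 : ℝ)) * c.1 + 0 * c'.1 = c.1; ring)
  · show plus (κ 1) g f = plus c' g f
    congr 1
    exact Subtype.ext (by show (1 - (1 : ℝ)) * c.1 + 1 * c'.1 = c'.1; ring)

theorem joined_plus (c : Cut) {g g' f f' : Om (r + 1)} (hg : Joined g g') (hf : Joined f f') :
    Joined (plus c g f) (plus c g' f') := by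
  obtain ⟨γ⟩ := hg
  obtain ⟨δ⟩ := hf
  exact ⟨⟨⟨fun s => plus c (γ s) (δ s), continuous_plus (c := fun _ => c) continuous_const
    δ.continuous γ.continuous⟩, by
      show plus c (γ 0) (δ 0) = _
      rw [γ.source, δ.source], by
      show plus c (γ 1) (δ 1) = _
      rw [γ.target, δ.target]⟩⟩

end rev

/-! ### Translations -/

section addR

variable {r : ℕ}

/-- the translation `f ↦ f + e` -/
noncomputable def addR (c : Cut) (e : Om (r + 1)) : C(Om (r + 1), Om (r + 1)) :=
  ⟨fun f => plus c e f, continuous_plus (c := fun _ => c) continuous_const continuous_id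
    continuous_const⟩

theorem addR_apply (c : Cut) (e f : Om (r + 1)) : addR c e f = plus c e f := rfl

theorem stab_addR (c : Cut) (e f : Om (r + 1)) :
    T0.stab (r + 1) (addR c e f) = addR c (T0.stab (r + 1) e) (T0.stab (r + 1) f) :=
  stab_plus c e f

/-- translation by the constant map is homotopic to the identity -/
theorem homotopic_addR_const (c : Cut) :
    (addR c (Om.const (r + 1))).Homotopic (ContinuousMap.id (Om (r + 1))) := by
  have hmem : ∀ s : unitInterval, c.1 + s.1 * (1 - c.1) ∈ Set.Ioc (0 : ℝ) 1 := by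
    intro s
    have h1 := s.2.1
    have h2 := s.2.2
    have h3 := c.2.1
    have h4 := c.2.2
    constructor
    · have : 0 ≤ s.1 * (1 - c.1) := mul_nonneg h1 (by linarith)
      linarith
    · have : s.1 * (1 - c.1) ≤ 1 * (1 - c.1) := mul_le_mul_of_nonneg_right h2 (by linarith)
      linarith
  let κ : unitInterval × Om (r + 1) → Set.Ioc (0 : ℝ) 1 := fun p => ⟨_, hmem p.1⟩
  have hκ : Continuous κ := Continuous.subtype_mk
    (continuous_const.add ((continuous_subtype_val.comp continuous_fst).mul continuous_const)) _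
  refine ⟨⟨⟨fun p => sq (κ p) p.2, continuous_sq hκ continuous_snd⟩, ?_, ?_⟩⟩
  · intro f
    show sq (κ (0, f)) f = plus c (Om.const (r + 1)) f
    rw [plus_const]
    congr 1
    exact Subtype.ext (by show c.1 + 0 * (1 - c.1) = c.1; ring)
  · intro f
    show sq (κ (1, f)) f = f
    have h1 : κ (1, f) = ⟨1, by constructor <;> norm_num⟩ :=
      Subtype.ext (by show c.1 + 1 * (1 - c.1) = 1; ring)
    rw [h1]
    exact sq_one f _

/-- translations by joined elements are homotopic -/
theorem homotopic_addR (c : Cut) {e e' : Om (r + 1)} (h : Joined e e') :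
    (addR c e).Homotopic (addR c e') := by
  obtain ⟨γ⟩ := h
  refine ⟨⟨⟨fun p => plus c (γ p.1) p.2, continuous_plus (c := fun _ => c) continuous_const
    continuous_snd (γ.continuous.comp continuous_fst)⟩, ?_, ?_⟩⟩
  · intro f
    show plus c (γ 0) f = _
    rw [γ.source]; rfl
  · intro f
    show plus c (γ 1) f = _
    rw [γ.target]; rfl

theorem addR_comp_addR (c' c : Cut) (e' e : Om (r + 1)) :
    (addR c' e').comp (addR c e) = addR (cutM c' c) (plus (cut2 c' c) e' e) :=
  ContinuousMap.ext fun f => plus_plus c' c e' e f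

/-- **translations by inverse elements are inverse up to homotopy** -/
theorem homotopic_addR_addR (c' c d : Cut) {e' e : Om (r + 1)}
    (h : Joined (plus d e' e) (Om.const (r + 1))) :
    ((addR c' e').comp (addR c e)).Homotopic (ContinuousMap.id (Om (r + 1))) := by
  rw [addR_comp_addR]
  exact (homotopic_addR _ ((joined_plus_cut _ d e' e).trans h)).trans (homotopic_addR_const _)

theorem homotopic_addR_rev (c' c : Cut) (e : Om (r + 1)) :
    ((addR c' (rev e)).comp (addR c e)).Homotopic (ContinuousMap.id (Om (r + 1))) :=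
  homotopic_addR_addR c' c c (joined_plus_rev c e)

theorem homotopic_addR_rev' (c' c : Cut) (e : Om (r + 1)) :
    ((addR c' e).comp (addR c (rev e))).Homotopic (ContinuousMap.id (Om (r + 1))) :=
  homotopic_addR_addR c' c c (joined_plus_rev' c e)

end addR

end Vale.Agent.P263.GB
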