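import Vale.Agent.P263.GB.QT
import Vale.Agent.P263.G2.AlphaSS

/-!
# P263, block G2: `Q(S⁰)` with one label is the singular simplicial set of `QS⁰`

* `omT r : QT TSeq.zero Unit r ≃ₜ T0.Om r` (`= omH r`), `omT_stT` : compatible with the stages;
* `toS : SS.Map (FT TSeq.zero Unit) (sing T0.QS0)`, **`toS_bijective`** : levelwise bijective;
* `toS_rz0`, `toS_inc`.
-/

open OnePoint Topology Vale.Agent.P251.G Vale.Agent.P263.TOP
open Vale.Agent.P263.S Vale.Agent.P263.E Vale.Agent.P263.G2

namespace Vale.Agent.P263.GB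

theorem toSmash_eq (r : ℕ) (x : T0.Sph r) (u : OnePoint ℝ) :
    T0.toSmash r (x, u) = opH (snocH r) (LC.smash x u) := by
  change (T0.snocHomeo r).onePointCongr (LC.smash x u) = opH (snocH r) (LC.smash x u)
  generalize LC.smash x u = w
  induction w using OnePoint.rec with
  | infty => rfl
  | coe w => rfl

/-- compatibility with the stage maps -/
theorem omH_stK (r : ℕ) (q : BMap (Fin r → ℝ) (Unit × (Fin r → ℝ))) :
    omH (r + 1) (stK Unit (snocH r) (snocH r) q) = T0.stab r (omH r q) := by
  apply Subtype.ext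
  refine ContinuousMap.ext fun z => ?_
  obtain ⟨⟨x, u⟩, rfl⟩ := T0.toSmash_surjective r z
  have h2 : (T0.stab r (omH r q)) (T0.toSmash r (x, u)) = T0.toSmash r ((omH r q) x, u) :=
    T0.stabFun_toSmash _ (omH r q).2 (x, u)
  change (omH (r + 1) (stK Unit (snocH r) (snocH r) q)) (T0.toSmash r (x, u)) =
    (T0.stab r (omH r q)) (T0.toSmash r (x, u))
  rw [h2, omH_apply, omH_apply, toSmash_eq, toSmash_eq, stK, stC_smash]
  generalize q.1 x = z
  induction z using OnePoint.rec with
  | infty =>
    rw [LC.smash_infty_left, opH_infty]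
    show (∞ : OnePoint _) = opH (snocH r) (LC.smash ∞ u)
    rw [LC.smash_infty_left]
    rfl
  | coe z =>
    induction u using OnePoint.rec with
    | infty =>
      rw [LC.smash_infty_right, LC.smash_infty_right]
      rfl
    | coe u => rfl

/-- the stages with one label -/
def omT (r : ℕ) : QT TSeq.zero Unit r ≃ₜ T0.Om r := omH r

/-- compatibility with the stage maps -/
theorem omT_stT (r : ℕ) (q : QT TSeq.zero Unit r) :
    omT (r + 1) (stT TSeq.zero Unit r q) = T0.stab r (omT r q) := omH_stK r q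

/-- the map of a stage to `QS⁰` -/
noncomputable def toQS (r : ℕ) : C(QT TSeq.zero Unit r, T0.QS0) :=
  (T0.toQ r).hom.comp (omT r : C(QT TSeq.zero Unit r, T0.Om r))

theorem toQS_apply (r : ℕ) (q : QT TSeq.zero Unit r) : toQS r q = T0.toQ r (omT r q) := rfl

theorem toQS_stT (r : ℕ) : (toQS (r + 1)).comp (stT TSeq.zero Unit r) = toQS r := by
  refine ContinuousMap.ext fun q => ?_
  show T0.toQ (r + 1) (omT (r + 1) (stT TSeq.zero Unit r q)) = T0.toQ r (omT r q)
  rw [omT_stT, T0.toQ_stab]

theorem toQS_injective (r : ℕ) : Function.Injective (toQS r) := fun _ _ h =>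
  (omT r).injective (T0.toQ_injective r h)

/-- **the comparison map** -/
noncomputable def toS : SS.Map (FT TSeq.zero Unit) (sing T0.QS0) :=
  Seq.desc (A := TSq TSeq.zero Unit) (fun r => singMap (toQS r)) fun r => by
    show singMap ((toQS (r + 1)).comp (stT TSeq.zero Unit r)) = singMap (toQS r)
    rw [toQS_stT]

theorem toS_inc (r : ℕ) : toS.comp (FT.inc TSeq.zero Unit r) = singMap (toQS r) := rfl

theorem toS_inc_app (r : ℕ) {p : ℕ} (x : (sing (QT TSeq.zero Unit r)).obj p) :
    toS.app ((FT.inc TSeq.zero Unit r).app x) = ofC ((toQS r).comp (toC x)) := rfl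

/-- **The comparison map is levelwise bijective.** -/
theorem toS_bijective (p : ℕ) : Function.Bijective (toS.app (p := p)) := by
  constructor
  · intro u v h
    obtain ⟨r, x, rfl⟩ := (TSq TSeq.zero Unit).exists_inc u
    obtain ⟨r', hr, y, rfl⟩ := (TSq TSeq.zero Unit).exists_inc_ge v r
    have e1 : ((TSq TSeq.zero Unit).inc r).app x =
        ((TSq TSeq.zero Unit).inc r').app (((TSq TSeq.zero Unit).up hr).app x) := by
      rw [← SS.Map.comp_app, Seq.inc_up]
    rw [e1] at h ⊢
    have h' : (toQS r').comp (toC (((TSq TSeq.zero Unit).up hr).app x)) =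
        (toQS r').comp (toC (X := QT TSeq.zero Unit r') y) := h
    have : toC (X := QT TSeq.zero Unit r') (((TSq TSeq.zero Unit).up hr).app x) = toC y :=
      ContinuousMap.ext fun t => toQS_injective r' (DFunLike.congr_fun h' t)
    exact congrArg ((TSq TSeq.zero Unit).inc r').app this
  · intro g
    obtain ⟨r, h, hh⟩ := T0.exists_factor (K := Dl p) (toC g)
    refine ⟨(FT.inc TSeq.zero Unit r).app (ofC (((omT r).symm : C(T0.Om r,
      QT TSeq.zero Unit r)).comp h)), ?_⟩
    rw [toS_inc_app]
    refine ContinuousMap.ext fun t => ?_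
    show T0.toQ r (omT r ((omT r).symm (h t))) = _
    rw [Homeomorph.apply_symm_apply]
    exact hh t

theorem toS_rz0 {R : Type} [CommRing R] (n : ℕ) : RZ0 (freeMap R toS).cx n := by
  have hg : ∀ p, ∃ g : (sing T0.QS0).obj p → (FT TSeq.zero Unit).obj p,
      Function.LeftInverse g toS.app ∧ Function.RightInverse g toS.app := fun p =>
    Function.bijective_iff_has_inverse.1 (toS_bijective p)
  choose g h1 h2 using hg
  let G : SS.Map (sing T0.QS0) (FT TSeq.zero Unit) :=
    ⟨fun {p} => g p, fun {p q} f x => (toS_bijective p).1 (by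
      rw [h2 p, toS.nat, h2 q])⟩
  refine rz0_of_htp toS G ?_ ?_ n
  · have : G.comp toS = SS.Map.id _ := SS.Map.ext fun p x => h1 p x
    rw [this]
    exact HtpRel.refl _
  · have : toS.comp G = SS.Map.id _ := SS.Map.ext fun p x => h2 p x
    rw [this]
    exact HtpRel.refl _

end Vale.Agent.P263.GB
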