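import Vale.Agent.P263.GB.ThetaT
import Vale.Agent.P263.GB.UnionB
import Vale.Agent.P263.GB.PKSing
import Vale.Agent.P263.GB.GamH

/-!
# P263, block G2 (H5): `B Q(Y) → Q(ΣY)`

* `pkBS T K` : the sequence of the bisimplicial sets of whiskered simplices of the stages
  `QT T K r`, `FPK T K` its colimit;
* `thetaB T K : (k ↦ FT T (Fin k × K)) → FPK T.del K` : a map of bisimplicial sets, on stages
  `thetaT`; `rz0_thetaB_col` : every column has vanishing relative homology;
* `pkU T K : (FPK T K).diag → FT T K`, on stages `pkToSing`; `rz0_pkU`;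
* `Gam.theta T : Gam.Hom (Gam.QT T).B (Gam.QT T.del)`; **`Gam.theta_rz0`** : vanishing relative
  homology in all degrees, over any ring;
* `Gam.thetaN N : Gam.Hom ((Gam.QT TSeq.zero).BN N) (Gam.QT (TSeq.iter N))`,
  **`Gam.thetaN_rz0`**.
-/

open OnePoint Topology Vale.Agent.P251.G Vale.Agent.P263.TOP
open Vale.Agent.P263.S Vale.Agent.P263.E Vale.Agent.P263.G2

set_option linter.unusedSectionVars false

namespace Vale.Agent.P263.GB

variable {R : Type} [CommRing R]

/-! ### whiskered simplices -/

section pkMap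

variable {Y Z W : Type} [TopologicalSpace Y] [TopologicalSpace Z] [TopologicalSpace W] {y₀ : Y}
  {z₀ : Z}

/-- functoriality of `pkB` -/
noncomputable def pkBMap (φ : C(Y, Z)) (h : φ y₀ = z₀) : BSS.Hom (pkB y₀) (pkB z₀) where
  app _ := singMap (PK.map φ h)
  nat _ _ := rfl

theorem pkBMap_diag (φ : C(Y, Z)) (h : φ y₀ = z₀) : (pkBMap φ h).diag = pkDiagMap φ h := rfl

theorem PK.map_injective {ι : Type} [Fintype ι] [DecidableEq ι] (φ : C(Y, Z)) (h : φ y₀ = z₀)
    (hφ : Function.Injective φ) : Function.Injective (PK.map (ι := ι) φ h) := by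
  intro x y hxy
  refine PK.ext (fun t => hφ ?_) fun a s => hφ ?_
  · exact congrArg (fun z : PK ι z₀ => z.1.1 t) hxy
  · exact congrArg (fun z : PK ι z₀ => z.1.2 a s) hxy

end pkMap

/-! ### the bisimplicial set of a functor on finite pointed sets -/

/-- the bisimplicial set `k ↦ G (S¹_k ∧ K₊)` -/
noncomputable def Gam.bss (G : Gam) (K : Type) [Finite K] : BSS where
  obj k := G.obj (Fin k × K)
  map θ := G.map (circK K θ)
  map_id x := by rw [circK_id, G.map_some]
  map_comp f g x := by rw [circK_comp, G.map_bind]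

theorem Gam.bss_diag (G : Gam) (K : Type) [Finite K] : (G.bss K).diag = G.B.obj K := rfl

section main

variable (T : TSeq) (K : Type) [Finite K] {L : Type} [Finite L]

/-- whiskered simplices of the stages -/
noncomputable def pkBS : BSeq where
  X r := pkB (QT.const T K r)
  s r := pkBMap (stT T K r) (stT_const T K r)

theorem pkBS_inj (r k : ℕ) : (((pkBS T K).s r).app k).Inj :=
  singMap_inj (PK.map_injective _ _ (stT_injective T K r))

/-- the union of the bisimplicial sets of whiskered simplices -/
noncomputable def FPK : BSS := (pkBS T K).colim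

/-- the sequence of the columns of the source of `thetaB` -/
noncomputable def thetaCol (k : ℕ) :
    SS.Map (FT T (Fin k × K)) ((FPK T.del K).obj k) :=
  Seq.cmap (A := TSq T (Fin k × K)) (B := (pkBS T.del K).col k)
    (fun r => singMap (thetaT T K k r)) fun r => by
      refine SS.Map.ext fun p x => ContinuousMap.ext fun t => ?_
      exact thetaT_stT T K k r (toC x t)

theorem thetaCol_inc (k r : ℕ) : (thetaCol T K k).comp (FT.inc T (Fin k × K) r) =
    (((pkBS T.del K).col k).inc r).comp (singMap (thetaT T K k r)) := rfl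

/-- the map `θ` of bisimplicial sets -/
noncomputable def thetaB : BSS.Hom ((Gam.QT T).bss K) (FPK T.del K) where
  app k := thetaCol T K k
  nat {k l m} f x := by
    obtain ⟨r, x, rfl⟩ := FT.exists_inc T (Fin l × K) x
    refine congrArg (((pkBS T.del K).col k).inc r).app ?_
    refine ContinuousMap.ext fun t => ?_
    exact (thetaT_circ T K f r (toC x t)).symm

/-- **The columns of `θ`.** -/
theorem rz0_thetaB_col (k n : ℕ) : RZ0 (freeMap R ((thetaB T K).app k)).cx n := by
  refine IsUnion.rz0 (FT.isUnion T (Fin k × K))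
    (((pkBS T.del K).col k).isUnion fun r => pkBS_inj T.del K r k) ((thetaB T K).app k)
    (fun r => singMap (thetaT T K k r)) (fun r => rfl) (fun r => ?_) n
  refine ⟨(FT.inc T (Fin k × K) (r + 2)).comp (singMap (omegaT T K k r)), ?_, ?_⟩
  · have h := ((htpRel_sing (homotopic_theta_omega T K k r)).ch (R := R)).comp
      (((pkBS T.del K).col k).inc (r + 2))
    have e : ((pkBS T.del K).col k).inc r = (((pkBS T.del K).col k).inc (r + 2)).comp
        (singMap (PK.map (st2 T.del K r) (st2_const T.del K r))) := by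
      rw [← ((pkBS T.del K).col k).inc_s r, ← ((pkBS T.del K).col k).inc_s (r + 1)]
      rfl
    show CH R _ (((pkBS T.del K).col k).inc r)
    rw [e]
    exact h
  · have h := ((htpRel_sing (homotopic_omega_theta T K k r)).ch (R := R)).comp
      (FT.inc T (Fin k × K) (r + 2))
    have e : FT.inc T (Fin k × K) r = (FT.inc T (Fin k × K) (r + 2)).comp
        (singMap (st2 T (Fin k × K) r)) := by
      rw [← FT.inc_stT T (Fin k × K) r, ← FT.inc_stT T (Fin k × K) (r + 1)]
      rfl
    show CH R _ (FT.inc T (Fin k × K) r)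
    rw [e]
    exact h

/-- `θ` on diagonals -/
theorem rz0_thetaB (n : ℕ) : RZ0 (freeMap R (thetaB T K).diag).cx n :=
  ((thetaB T K).rz0_diag_iff n).2
    (SSMod.rz0_diag _ (n + 1) (fun k t _ => rz0_thetaB_col T K k t) n (Nat.lt_succ_self n))

/-- the diagonal of the union of the whiskered simplices -/
noncomputable def pkUnion : IsUnion (FPK T K).diag fun r => pkDiag (QT.const T K r) :=
  (pkBS T K).isUnionDiag (pkBS_inj T K)

/-- the map `x ↦ (t ↦ x(t)(t))` on unions -/
noncomputable def pkU : SS.Map (FPK T K).diag (FT T K) :=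
  (pkUnion T K).desc (fun r => (FT.inc T K r).comp (pkToSing (QT.const T K r))) fun r => by
    rw [← FT.inc_stT T K r]
    rfl

theorem pkU_i (r : ℕ) : (pkU T K).comp ((pkUnion T K).i r) =
    (FT.inc T K r).comp (pkToSing (QT.const T K r)) := (pkUnion T K).desc_i _ _ r

/-- all the stages are path connected -/
def TSeq.Conn (T : TSeq) : Prop := ∀ (K : Type) [Finite K] (r : ℕ), PathConnectedSpace (QT T K r)

theorem rz0_pkU (h : T.Conn) (n : ℕ) : RZ0 (freeMap R (pkU T K)).cx n := by
  refine (pkUnion T K).rz0_of_stages (FT.isUnion T K) (pkU T K)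
    (fun r => pkToSing (QT.const T K r)) (fun r => pkU_i T K r) n fun N => ⟨N, le_rfl, ?_⟩
  have := h K N
  exact rz0_pkToSing (QT.const T K N) n

/-- the comparison map at `K` -/
noncomputable def thetaK : SS.Map ((Gam.QT T).B.obj K) ((Gam.QT T.del).obj K) :=
  (pkU T.del K).comp (thetaB T K).diag

/-- the value of the comparison map -/
theorem thetaK_inc (r : ℕ) {p : ℕ} (x : (sing (QT T (Fin p × K) r)).obj p) :
    (thetaK T K).app ((FT.inc T (Fin p × K) r).app x) =
      (FT.inc T.del K r).app
        ((pkToSing (QT.const T.del K r)).app ((thetaT T K p r).comp (toC x))) := by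
  have h := (pkUnion T.del K).desc_i_app
    (fun r => (FT.inc T.del K r).comp (pkToSing (QT.const T.del K r))) (fun r => by
      rw [← FT.inc_stT T.del K r]
      rfl) (r := r) (p := p) ((thetaT T K p r).comp (toC x))
  exact h

theorem rz0_thetaK (h : T.del.Conn) (n : ℕ) : RZ0 (freeMap R (thetaK T K)).cx n := by
  have h1 := rz0W_comp (rz0_pkU (R := R) T.del K h n) (rz0_thetaB (R := R) T K n)
  have e : ((freeMap R (pkU T.del K)).cx.comp (freeMap R (thetaB T K).diag).cx) =
      (freeMap R (thetaK T K)).cx := by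
    refine Cx.Hom.ext ?_
    funext m
    refine LinearMap.ext fun x => ?_
    exact (freeMap_comp_app (pkU T.del K) (thetaB T K).diag x).symm
  rwa [e] at h1

/-- **The comparison map `B Q(Y) → Q(ΣY)`.** -/
noncomputable def Gam.theta : Gam.Hom (Gam.QT T).B (Gam.QT T.del) where
  app K _ := thetaK T K
  nat {K L} _ _ f p x := by
    obtain ⟨r, x, rfl⟩ := FT.exists_inc T (Fin p × K) x
    have e1 : ((Gam.QT T).B.map f).app (p := p) ((FT.inc T (Fin p × K) r).app x) =
      (FT.inc T (Fin p × L) r).app ((singMap (pushT T r (sndK (Fin p) f))).app x) := rfl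
    rw [e1, thetaK_inc]
    refine Eq.trans ?_ (congrArg ((Gam.QT T.del).map f).app (thetaK_inc T K r x).symm)
    refine congrArg (FT.inc T.del L r).app ?_
    refine ContinuousMap.ext fun t => ?_
    exact congrArg (fun z : PK (Fin (p + 1)) (QT.const T.del L r) => z.1.1 t)
      (thetaT_push T f p r (toC x t))

/-- **`B Q(Y) → Q(ΣY)` has vanishing relative homology** in all degrees. -/
theorem Gam.theta_rz0 (h : T.del.Conn) (n : ℕ) : RZ0 (freeMap R ((Gam.theta T).app K)).cx n :=
  rz0_thetaK T K h n

end main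

end Vale.Agent.P263.GB
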