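import Vale.Agent.P263.GB.QT
import Vale.Agent.P263.GB.SGam
import Vale.Agent.P263.G2.BoxGam
import Vale.Agent.P263.G2.BoxSegSS

/-!
# P263, block G2: the Segal condition, product form and sum form

* `Cx.Hom.rz0_of_retract` : a retract of a map with vanishing relative homology has vanishing
  relative homology.
* `Gam.segP G e : G(M) → ∏_K G(L)` for `e : M ≃ K × L`; `Gam.SegP R G`.
* `Gam.segalH_of_segP` : the product form implies the sum form `Gam.SegalH`.
* `Gam.QT_segalH`, `Gam.gamF_segalH` : the Segal condition for `Q` and for the configurations of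
  boxes, over any ring.
-/

open Vale.Agent.P263.S Vale.Agent.P263.E

namespace Vale.Agent.P263.GB

variable {R : Type} [CommRing R]

/-- a retract of a map with vanishing relative homology -/
theorem Cx.Hom.rz0_of_retract {A B A' B' : Cx R} (f : Cx.Hom A B) (f' : Cx.Hom A' B')
    (i : Cx.Hom A A') (p : Cx.Hom A' A) (j : Cx.Hom B B') (q : Cx.Hom B' B)
    (hi : ∀ n (a : A.C n), p.app n (i.app n a) = a) (hj : ∀ n (b : B.C n), q.app n (j.app n b) = b)
    (h1 : ∀ n (a : A.C n), f'.app n (i.app n a) = j.app n (f.app n a))
    (h2 : ∀ n (a : A'.C n), f.app n (p.app n a) = q.app n (f'.app n a)) {n : ℕ}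
    (h : RZ0 f' n) : RZ0 f n := by
  cases n with
  | zero =>
    rw [rz0_zero] at *
    intro b
    obtain ⟨b', a', h'⟩ := h (j.app 0 b)
    refine ⟨q.app 1 b', p.app 0 a', ?_⟩
    rw [← q.comm, h2, ← map_add, h', hj]
  | succ n =>
    rw [rz0_succ] at *
    intro b a ha hba
    obtain ⟨b', a', h3, h4⟩ := h (j.app (n + 1) b) (i.app n a) (i.cyc ha)
      (by rw [← j.comm, h1, ← map_add, hba, map_zero])
    refine ⟨q.app (n + 2) b', p.app (n + 1) a', ?_, ?_⟩
    · rw [← q.comm, h2, ← map_add, h3, hj]
    · rw [← p.comm, ← map_neg, h4, hi]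

/-- the same for maps of simplicial sets -/
theorem rz0_of_retract {A B A' B' : SS} (f : SS.Map A B) (f' : SS.Map A' B')
    (i : SS.Map A A') (p : SS.Map A' A) (j : SS.Map B B') (q : SS.Map B' B)
    (hi : p.comp i = SS.Map.id A) (hj : q.comp j = SS.Map.id B) (h1 : f'.comp i = j.comp f)
    (h2 : f.comp p = q.comp f') {n : ℕ} (h : RZ0 (freeMap R f').cx n) :
    RZ0 (freeMap R f).cx n := by
  refine Cx.Hom.rz0_of_retract (freeMap R f).cx (freeMap R f').cx (freeMap R i).cx (freeMap R p).cx
    (freeMap R j).cx (freeMap R q).cx ?_ ?_ ?_ ?_ h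
  · intro n (a : (free R A).obj n)
    show (freeMap R p).app n ((freeMap R i).app n a) = a
    rw [← freeMap_comp_app, hi, freeMap_id_app]
  · intro n (a : (free R B).obj n)
    show (freeMap R q).app n ((freeMap R j).app n a) = a
    rw [← freeMap_comp_app, hj, freeMap_id_app]
  · intro n (a : (free R A).obj n)
    show (freeMap R f').app n ((freeMap R i).app n a) = (freeMap R j).app n ((freeMap R f).app n a)
    rw [← freeMap_comp_app, h1, freeMap_comp_app]
  · intro n (a : (free R A').obj n)
    show (freeMap R f).app n ((freeMap R p).app n a) = (freeMap R q).app n ((freeMap R f').app n a)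
    rw [← freeMap_comp_app, h2, freeMap_comp_app]

namespace Gam

variable (G : Gam) {K L M : Type} [Finite K] [Finite L] [Finite M]

/-- the Segal map, product form -/
noncomputable def segP (e : M ≃ K × L) : SS.Map (G.obj M) (piS fun _ : K => G.obj L) :=
  toPi fun k => G.map (selK e k)

/-- the Segal condition, product form -/
def SegP (R : Type) [CommRing R] (G : Gam) : Prop :=
  ∀ (K L M : Type) [Finite K] [Finite L] [Finite M] (e : M ≃ K × L) (n : ℕ),
    RZ0 (freeMap R (G.segP e)).cx n

theorem map_comp_map (f : K → Option L) (g : L → Option M) :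
    (G.map g).comp (G.map f) = G.map fun k => (f k).bind g :=
  SS.Map.ext fun _ x => (G.map_bind f g x).symm

theorem map_some_eq : G.map (some : K → Option K) = SS.Map.id (G.obj K) :=
  SS.Map.ext fun _ x => G.map_some x

/-- the labels in `Bool × (K ⊕ L)` -/
def inB {K L : Type} : K ⊕ L → Option (Bool × (K ⊕ L)) :=
  Sum.elim (fun k => some (false, Sum.inl k)) (fun l => some (true, Sum.inr l))

/-- the retraction of `inB` -/
def outB {K L : Type} : Bool × (K ⊕ L) → Option (K ⊕ L)
  | (false, Sum.inl k) => some (Sum.inl k)
  | (true, Sum.inr l) => some (Sum.inr l)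
  | _ => none

/-- **The product form of the Segal condition implies the sum form.** -/
theorem segalH_of_segP {G : Gam} (h : G.SegP R) : G.SegalH R := by
  intro K L _ _ n
  refine rz0_of_retract (G.seg K L) (G.segP (Equiv.refl (Bool × (K ⊕ L)))) (G.map inB)
    (G.map outB)
    (toPi fun b => match b with
      | false => (G.map (fun k => some (Sum.inl k))).comp (SS.fst _ _)
      | true => (G.map (fun l => some (Sum.inr l))).comp (SS.snd _ _))
    (SS.pair ((G.map lftO).comp (prPi _ false)) ((G.map rgtO).comp (prPi _ true)))
    ?_ ?_ ?_ ?_ (h Bool (K ⊕ L) (Bool × (K ⊕ L)) (Equiv.refl _) n)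
  · rw [map_comp_map, ← G.map_some_eq]
    congr 1
    funext x
    rcases x with k | l <;> rfl
  · apply SS.Map.ext
    intro p x
    refine Prod.ext ?_ ?_
    · show ((G.map lftO).comp (G.map fun k => some (Sum.inl k))).app x.1 = x.1
      rw [map_comp_map]
      exact G.map_some x.1
    · show ((G.map rgtO).comp (G.map fun l => some (Sum.inr l))).app x.2 = x.2
      rw [map_comp_map]
      exact G.map_some x.2
  · apply pi_hom_ext
    intro b
    cases b with
    | false =>
      show (G.map (selK (Equiv.refl _) false)).comp (G.map inB) =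
        (G.map fun k => some (Sum.inl k)).comp (G.map lftO)
      rw [map_comp_map, map_comp_map]
      congr 1
      funext x
      rcases x with k | l <;> simp [inB, selK, lftO]
    | true =>
      show (G.map (selK (Equiv.refl _) true)).comp (G.map inB) =
        (G.map fun l => some (Sum.inr l)).comp (G.map rgtO)
      rw [map_comp_map, map_comp_map]
      congr 1
      funext x
      rcases x with k | l <;> simp [inB, selK, rgtO]
  · have e1 : (G.map lftO).comp (G.map outB) =
        (G.map (lftO : K ⊕ L → Option K)).comp (G.map (selK (Equiv.refl _) false)) := by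
      rw [map_comp_map, map_comp_map]
      congr 1
      funext x
      rcases x with ⟨_ | _, k | l⟩ <;> simp [outB, selK, lftO]
    have e2 : (G.map rgtO).comp (G.map outB) =
        (G.map (rgtO : K ⊕ L → Option L)).comp (G.map (selK (Equiv.refl _) true)) := by
      rw [map_comp_map, map_comp_map]
      congr 1
      funext x
      rcases x with ⟨_ | _, k | l⟩ <;> simp [outB, selK, rgtO]
    apply SS.Map.ext
    intro p x
    exact Prod.ext (congrArg (fun m : SS.Map _ (G.obj K) => m.app x) e1)
      (congrArg (fun m : SS.Map _ (G.obj L) => m.app x) e2)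

end Gam

/-- the product form for `Q` -/
theorem Gam.QT_segP (T : TSeq) : (Gam.QT T).SegP R := fun _ _ _ _ _ _ e n => FT.seg_rz0 T e n

/-- **The Segal condition for `Q`.** -/
theorem Gam.QT_segalH (T : TSeq) : (Gam.QT T).SegalH R := Gam.segalH_of_segP (Gam.QT_segP T)

/-- the product form for the configurations of boxes -/
theorem gamF_segP : G2.gamF.SegP R := by
  intro K L M _ _ _ e n
  have := Fintype.ofFinite K
  exact G2.F.rest_rz0 R e n

/-- **The Segal condition for the configurations of boxes.** -/
theorem gamF_segalH : G2.gamF.SegalH R := Gam.segalH_of_segP gamF_segP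

end Vale.Agent.P263.GB
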