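import Vale.Agent.P263.TOP.Stab
import Vale.Agent.P263.GB.Pinch
import Mathlib.Topology.Homotopy.Basic

/-!
# P263: the Segal condition for spaces of based maps into wedges of spheres

`K` a finite discrete type, `X`, `Y` locally compact Hausdorff; `BMap X (K × Y)` is the space of
based maps from `X⁺` to the wedge of copies of `Y⁺` indexed by `K`.

* `prA : C(BMap X (K × Y), K → BMap X Y)` : the projections to the summands;
* `susK : C(BMap X (K × Y), BMap (X × ℝ) (K × (Y × ℝ)))` : the suspension;
* `bsum : C(K → BMap X Y, BMap (X × ℝ) (K × (Y × ℝ)))` : the loop sum in the new coordinate;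
* `homotopic_prA_bsum` : `prA ∘ bsum ≃ (suspension on each factor)`;
* `homotopic_bsum_prA` : `bsum ∘ prA ≃ susK`.
-/

open OnePoint Topology Vale.Agent.P251.G Vale.Agent.P263.TOP Filter

set_option linter.unusedSectionVars false

namespace Vale.Agent.P263.GB

section lift2

variable {X Y Z W : Type} [TopologicalSpace X] [T2Space X] [LocallyCompactSpace X]
  [TopologicalSpace Y] [T2Space Y] [LocallyCompactSpace Y]
  [TopologicalSpace Z] [T2Space Z] [LocallyCompactSpace Z]
  [TopologicalSpace W] [T2Space W] [LocallyCompactSpace W]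

/-- a function on the smash product from a function of two variables -/
def lift2 (G : OnePoint X → OnePoint Z → OnePoint W) (q : OnePoint (X × Z)) : OnePoint W :=
  q.elim ∞ fun p => G (p.1 : OnePoint X) (p.2 : OnePoint Z)

theorem lift2_smash {G : OnePoint X → OnePoint Z → OnePoint W} (h1 : ∀ z, G ∞ z = ∞)
    (h2 : ∀ x, G x ∞ = ∞) (x : OnePoint X) (z : OnePoint Z) :
    lift2 G (LC.smash x z) = G x z := by
  induction x using OnePoint.rec with
  | infty => rw [LC.smash_infty_left, h1]; rfl
  | coe x =>
    induction z using OnePoint.rec with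
    | infty => rw [LC.smash_infty_right, h2]; rfl
    | coe z => rfl

theorem continuous_lift2 {P : Type*} [TopologicalSpace P]
    {G : P → OnePoint X → OnePoint Z → OnePoint W}
    (hG : Continuous fun q : P × OnePoint X × OnePoint Z => G q.1 q.2.1 q.2.2)
    (h1 : ∀ p z, G p ∞ z = ∞) (h2 : ∀ p x, G p x ∞ = ∞) :
    Continuous fun q : P × OnePoint (X × Z) => lift2 (G q.1) q.2 := by
  have hq : IsQuotientMap (Prod.map (id : P → P)
      fun p : OnePoint X × OnePoint Z => LC.smash p.1 p.2) :=
    (isProperMap_id.prodMap isProperMap_smash).isClosedMap.isQuotientMap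
      (continuous_id.prodMap LC.continuous_smash)
      (Function.surjective_id.prodMap smash_surjective)
  rw [hq.continuous_iff]
  refine hG.congr fun q => ?_
  exact (lift2_smash (h1 q.1) (h2 q.1) q.2.1 q.2.2).symm

/-- a based map out of a smash product -/
def mk2 (G : OnePoint X → OnePoint Z → OnePoint W)
    (hG : Continuous fun q : OnePoint X × OnePoint Z => G q.1 q.2)
    (h1 : ∀ z, G ∞ z = ∞) (h2 : ∀ x, G x ∞ = ∞) : BMap (X × Z) W :=
  ⟨⟨lift2 G, (continuous_lift2 (P := Unit) (G := fun _ => G) (hG.comp continuous_snd)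
    (fun _ => h1) (fun _ => h2)).comp
    (Continuous.prodMk continuous_const continuous_id : Continuous fun q => ((), q))⟩, rfl⟩

theorem mk2_smash (G : OnePoint X → OnePoint Z → OnePoint W)
    (hG : Continuous fun q : OnePoint X × OnePoint Z => G q.1 q.2)
    (h1 : ∀ z, G ∞ z = ∞) (h2 : ∀ x, G x ∞ = ∞) (x : OnePoint X) (z : OnePoint Z) :
    (mk2 G hG h1 h2).1 (LC.smash x z) = G x z := lift2_smash h1 h2 x z

/-- two based maps out of a smash product are equal if they agree on all `x ∧ z` -/
theorem ext2 {f g : BMap (X × Z) W}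
    (h : ∀ x z, f.1 (LC.smash x z) = g.1 (LC.smash x z)) : f = g := by
  refine Subtype.ext (ContinuousMap.ext fun q => ?_)
  obtain ⟨p, rfl⟩ := smash_surjective q
  exact h p.1 p.2

theorem continuous_mk2 {P : Type*} [TopologicalSpace P]
    {G : P → OnePoint X → OnePoint Z → OnePoint W}
    (hG : Continuous fun q : P × OnePoint X × OnePoint Z => G q.1 q.2.1 q.2.2)
    (h1 : ∀ p z, G p ∞ z = ∞) (h2 : ∀ p x, G p x ∞ = ∞) :
    Continuous fun p => mk2 (G p) (hG.comp (Continuous.prodMk_right p)) (h1 p) (h2 p) := by
  refine Continuous.subtype_mk ?_ _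
  exact ContinuousMap.continuous_of_continuous_uncurry _ (continuous_lift2 hG h1 h2)

theorem continuous_bmap {P : Type*} [TopologicalSpace P] {F : P → BMap X Y}
    {x : P → OnePoint X} (hF : Continuous F) (hx : Continuous x) :
    Continuous fun p => (F p).1 (x p) :=
  ContinuousEval.continuous_eval.comp ((continuous_subtype_val.comp hF).prodMk hx)

end lift2

section wedge

variable {K : Type} [TopologicalSpace K] [DiscreteTopology K] [Finite K]
  {Y : Type} [TopologicalSpace Y] [T2Space Y] [LocallyCompactSpace Y]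

open scoped Classical in
/-- the projection of the wedge to the `k`-th summand -/
noncomputable def prK (k : K) (z : OnePoint (K × Y)) : OnePoint Y :=
  z.elim ∞ fun p => if p.1 = k then (p.2 : OnePoint Y) else ∞

omit [TopologicalSpace K] [DiscreteTopology K] [Finite K] [TopologicalSpace Y] [T2Space Y]
  [LocallyCompactSpace Y] in
@[simp] theorem prK_infty (k : K) : prK k (∞ : OnePoint (K × Y)) = ∞ := rfl

omit [TopologicalSpace K] [DiscreteTopology K] [Finite K] [TopologicalSpace Y] [T2Space Y]
  [LocallyCompactSpace Y] in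
open scoped Classical in
theorem prK_coe (k : K) (p : K × Y) :
    prK k (p : OnePoint (K × Y)) = if p.1 = k then (p.2 : OnePoint Y) else ∞ := rfl

omit [TopologicalSpace K] [DiscreteTopology K] [Finite K] [TopologicalSpace Y] [T2Space Y]
  [LocallyCompactSpace Y] in
theorem prK_self (k : K) (y : Y) : prK k (((k, y) : K × Y) : OnePoint (K × Y)) = y := by
  rw [prK_coe, if_pos rfl]

omit [TopologicalSpace K] [DiscreteTopology K] [Finite K] [TopologicalSpace Y] [T2Space Y]
  [LocallyCompactSpace Y] in
theorem prK_of_ne {k l : K} (h : l ≠ k) (y : Y) :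
    prK k (((l, y) : K × Y) : OnePoint (K × Y)) = ∞ := by
  rw [prK_coe, if_neg h]

theorem continuous_prK (k : K) : Continuous (prK k : OnePoint (K × Y) → OnePoint Y) := by
  classical
  have h1 : Continuous fun p : K × Y => if p.1 = k then (p.2 : OnePoint Y) else ∞ := by
    rw [continuous_prod_of_discrete_left]
    intro l
    by_cases h : l = k
    · simp only [h, if_true]
      exact OnePoint.continuous_coe
    · simp only [h, if_false]
      exact continuous_const
  have h2 : Tendsto (fun p : K × Y => if p.1 = k then (p.2 : OnePoint Y) else ∞)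
      (coclosedCompact (K × Y)) (𝓝 ∞) := by
    rw [coclosedCompact_eq_cocompact]
    intro U hU
    have h3 : ((↑) : Y → OnePoint Y) ⁻¹' U ∈ cocompact Y := by
      rw [← coclosedCompact_eq_cocompact]
      exact OnePoint.tendsto_coe_infty hU
    obtain ⟨C, hC, hCU⟩ := mem_cocompact.1 h3
    refine mem_cocompact.2 ⟨Set.univ ×ˢ C, isCompact_univ.prod hC, ?_⟩
    rintro ⟨l, y⟩ hly
    have hy : y ∉ C := fun hy => hly ⟨Set.mem_univ _, hy⟩
    by_cases h : l = k
    · show (if l = k then (y : OnePoint Y) else ∞) ∈ U
      rw [if_pos h]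
      exact hCU hy
    · show (if l = k then (y : OnePoint Y) else ∞) ∈ U
      rw [if_neg h]
      exact mem_of_mem_nhds hU
  exact (OnePoint.continuousMapMk ⟨_, h1⟩ ∞ h2).continuous

omit [TopologicalSpace K] [DiscreteTopology K] [Finite K] [TopologicalSpace Y] [T2Space Y]
  [LocallyCompactSpace Y] in
theorem prK_injective :
    Function.Injective fun (z : OnePoint (K × Y)) (k : K) => prK k z := by
  intro z z' h
  induction z using OnePoint.rec with
  | infty =>
    induction z' using OnePoint.rec with
    | infty => rfl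
    | coe p =>
      have := congrFun h p.1
      simp only [prK_infty] at this
      rw [show p = (p.1, p.2) from rfl, prK_self] at this
      exact absurd this (OnePoint.infty_ne_coe _)
  | coe p =>
    have h1 := congrFun h p.1
    simp only at h1
    rw [show p = (p.1, p.2) from rfl, prK_self] at h1
    induction z' using OnePoint.rec with
    | infty => exact absurd h1 (OnePoint.coe_ne_infty _)
    | coe p' =>
      by_cases hp : p'.1 = p.1
      · rw [prK_coe, if_pos hp] at h1
        have h2 : p.2 = p'.2 := OnePoint.coe_injective h1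
        exact congrArg _ (Prod.ext hp.symm h2)
      · rw [prK_coe, if_neg hp] at h1
        exact absurd h1 (OnePoint.coe_ne_infty _)

omit [TopologicalSpace K] [DiscreteTopology K] [Finite K] [TopologicalSpace Y] [T2Space Y]
  [LocallyCompactSpace Y] in
/-- at most one projection is not `∞` -/
theorem prK_unique {z : OnePoint (K × Y)} {k l : K} (hk : prK k z ≠ ∞) (hl : prK l z ≠ ∞) :
    k = l := by
  induction z using OnePoint.rec with
  | infty => exact absurd rfl hk
  | coe p =>
    have h1 : p.1 = k := by
      by_contra h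
      exact hk (by rw [prK_coe, if_neg h])
    have h2 : p.1 = l := by
      by_contra h
      exact hl (by rw [prK_coe, if_neg h])
    rw [← h1, ← h2]

theorem isClosedEmbedding_prK :
    IsClosedEmbedding fun (z : OnePoint (K × Y)) (k : K) => prK k z :=
  (continuous_pi fun k => continuous_prK k).isClosedEmbedding prK_injective

/-- the condition that at most one coordinate is not `∞` -/
def AtMostOne (v : K → OnePoint Y) : Prop := ∀ k l, v k ≠ ∞ → v l ≠ ∞ → k = l

open scoped Classical in
/-- the point of the wedge with given projections -/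
noncomputable def glueK (v : K → OnePoint Y) : OnePoint (K × Y) :=
  if h : ∃ k, v k ≠ ∞ then
    (v h.choose).elim ∞ fun y => (((h.choose, y) : K × Y) : OnePoint (K × Y))
  else ∞

omit [TopologicalSpace K] [DiscreteTopology K] [Finite K] [TopologicalSpace Y] [T2Space Y]
  [LocallyCompactSpace Y] in
theorem prK_glueK {v : K → OnePoint Y} (hv : AtMostOne v) (k : K) : prK k (glueK v) = v k := by
  by_cases h : ∃ k, v k ≠ ∞
  · rw [glueK, dif_pos h]
    have hc := h.choose_spec
    generalize hl : h.choose = l at hc ⊢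
    have hy : ∃ y : Y, v l = (y : OnePoint Y) := by
      obtain ⟨y, hy⟩ := OnePoint.ne_infty_iff_exists.1 hc
      exact ⟨y, hy.symm⟩
    obtain ⟨y, hy⟩ := hy
    rw [hy]
    show prK k (((l, y) : K × Y) : OnePoint (K × Y)) = v k
    by_cases hlk : l = k
    · subst hlk
      rw [prK_self, hy]
    · rw [prK_of_ne hlk]
      by_contra hk
      exact hlk (hv l k hc (Ne.symm hk))
  · rw [glueK, dif_neg h, prK_infty]
    by_contra hk
    exact h ⟨k, Ne.symm hk⟩

omit [TopologicalSpace K] [DiscreteTopology K] [Finite K] [TopologicalSpace Y] [T2Space Y]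
  [LocallyCompactSpace Y] in
theorem glueK_prK (z : OnePoint (K × Y)) : glueK (fun k => prK k z) = z :=
  prK_injective (funext fun k => prK_glueK (fun _ _ => prK_unique) k)

omit [TopologicalSpace K] [DiscreteTopology K] [Finite K] [TopologicalSpace Y] [T2Space Y]
  [LocallyCompactSpace Y] in
theorem glueK_infty : glueK (fun _ : K => (∞ : OnePoint Y)) = ∞ := by
  rw [glueK, dif_neg]
  rintro ⟨k, hk⟩
  exact hk rfl

theorem continuous_glueK {T : Type*} [TopologicalSpace T] {v : T → K → OnePoint Y}
    (hv : ∀ k, Continuous fun t => v t k) (h1 : ∀ t, AtMostOne (v t)) :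
    Continuous fun t => glueK (v t) := by
  rw [isClosedEmbedding_prK.isInducing.continuous_iff]
  refine continuous_pi fun k => ?_
  exact (hv k).congr fun t => (prK_glueK (h1 t) k).symm

end wedge

section segal

variable {K : Type} [TopologicalSpace K] [DiscreteTopology K] [Finite K]
  {X Y : Type} [TopologicalSpace X] [T2Space X] [LocallyCompactSpace X]
  [TopologicalSpace Y] [T2Space Y] [LocallyCompactSpace Y]

/-- projection to the `k`-th summand on based maps -/
noncomputable def prB (k : K) (f : BMap X (K × Y)) : BMap X Y :=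
  ⟨(⟨prK k, continuous_prK k⟩ : C(OnePoint (K × Y), OnePoint Y)).comp f.1, by
    rw [ContinuousMap.comp_apply, f.2]; rfl⟩

theorem prB_apply (k : K) (f : BMap X (K × Y)) (x : OnePoint X) :
    (prB k f).1 x = prK k (f.1 x) := rfl

theorem continuous_prB (k : K) : Continuous (prB k : BMap X (K × Y) → BMap X Y) :=
  Continuous.subtype_mk ((ContinuousMap.continuous_postcomp _).comp continuous_subtype_val) _

variable (K X Y) in
/-- the projections to all summands -/
noncomputable def prA : C(BMap X (K × Y), K → BMap X Y) :=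
  ⟨fun f k => prB k f, continuous_pi fun k => continuous_prB k⟩

theorem prA_apply (f : BMap X (K × Y)) (k : K) (x : OnePoint X) :
    (prA K X Y f k).1 x = prK k (f.1 x) := rfl

/-- the suspension `BMap X (K × Y) → BMap (X × ℝ) (K × (Y × ℝ))` -/
noncomputable def susKFun (f : BMap X (K × Y)) : BMap (X × ℝ) (K × (Y × ℝ)) :=
  BMap.conj (Homeomorph.refl (X × ℝ)) (Homeomorph.prodAssoc K Y ℝ) (BMap.sus ℝ f)

variable (K X Y) in
/-- the suspension `BMap X (K × Y) → BMap (X × ℝ) (K × (Y × ℝ))` -/
noncomputable def susK : C(BMap X (K × Y), BMap (X × ℝ) (K × (Y × ℝ))) :=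
  ⟨susKFun, (BMap.conj (Homeomorph.refl (X × ℝ)) (Homeomorph.prodAssoc K Y ℝ)).continuous.comp
    BMap.continuous_sus⟩

variable (X Y) in
/-- the suspension `BMap X Y → BMap (X × ℝ) (Y × ℝ)` as a continuous map -/
noncomputable def susC : C(BMap X Y, BMap (X × ℝ) (Y × ℝ)) := ⟨BMap.sus ℝ, BMap.continuous_sus⟩

omit [TopologicalSpace K] [DiscreteTopology K] [Finite K] [TopologicalSpace Y] [T2Space Y]
  [LocallyCompactSpace Y] in
/-- projection and smash product with a point -/
theorem prK_smash (k : K) (z : OnePoint (K × Y)) (t : OnePoint ℝ) :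
    prK k ((LC.smash z t).elim (∞ : OnePoint (K × (Y × ℝ)))
      fun p => (((p.1.1, (p.1.2, p.2)) : K × (Y × ℝ)) : OnePoint (K × (Y × ℝ)))) =
      LC.smash (prK k z) t := by
  induction z using OnePoint.rec with
  | infty => rw [LC.smash_infty_left, prK_infty, LC.smash_infty_left]; rfl
  | coe p =>
    induction t using OnePoint.rec with
    | infty => rw [LC.smash_infty_right, LC.smash_infty_right]; rfl
    | coe t =>
      rw [LC.smash_coe_coe]
      show prK k (((p.1, (p.2, t)) : K × (Y × ℝ)) : OnePoint (K × (Y × ℝ))) = _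
      by_cases h : p.1 = k
      · rw [prK_coe, prK_coe, if_pos h, if_pos h]; rfl
      · rw [prK_coe, prK_coe, if_neg h, if_neg h]; rfl

theorem prK_susK (k : K) (f : BMap X (K × Y)) (x : OnePoint X) (t : OnePoint ℝ) :
    prK k ((susK K X Y f).1 (LC.smash x t)) = LC.smash (prK k (f.1 x)) t := by
  rw [← prK_smash]
  have h : (susK K X Y f).1 (LC.smash x t) =
      opH (Homeomorph.prodAssoc K Y ℝ) ((BMap.sus ℝ f).1 (LC.smash x t)) := by
    show (BMap.conj (Homeomorph.refl (X × ℝ)) (Homeomorph.prodAssoc K Y ℝ)
      (BMap.sus ℝ f)).1 (LC.smash x t) = _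
    rw [BMap.conj_apply]
    congr 2
    show (opH (Homeomorph.refl (X × ℝ))).symm (LC.smash x t) = LC.smash x t
    rw [Homeomorph.symm_apply_eq]
    generalize LC.smash x t = q
    induction q using OnePoint.rec with
    | infty => rfl
    | coe q => rfl
  rw [h, BMap.sus_smash]
  congr 1
  generalize LC.smash (f.1 x) t = q
  induction q using OnePoint.rec with
  | infty => rfl
  | coe q => rfl

/-- the projections commute strictly with the suspension -/
theorem prA_susK (f : BMap X (K × Y)) (k : K) :
    prA K (X × ℝ) (Y × ℝ) (susK K X Y f) k = BMap.sus ℝ (prA K X Y f k) := by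
  refine ext2 fun x t => ?_
  rw [prA_apply, prK_susK, BMap.sus_smash, prA_apply]

/-! ### The loop sum -/

section family

variable {P : Type*} [TopologicalSpace P]

/-- a family of functions of two variables: `x, t ↦ ⋁_k v k x ∧ r k t` -/
noncomputable def wsum (v : K → BMap X Y) (r : K → OnePoint ℝ → OnePoint ℝ)
    (x : OnePoint X) (t : OnePoint ℝ) : OnePoint (K × (Y × ℝ)) :=
  glueK fun k => LC.smash ((v k).1 x) (r k t)

omit [TopologicalSpace K] [DiscreteTopology K] [Finite K] in
theorem wsum_infty_left (v : K → BMap X Y) (r : K → OnePoint ℝ → OnePoint ℝ)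
    (t : OnePoint ℝ) : wsum v r ∞ t = ∞ := by
  have : (fun k => LC.smash ((v k).1 ∞) (r k t)) = fun _ : K => (∞ : OnePoint (Y × ℝ)) := by
    funext k
    rw [(v k).2, LC.smash_infty_left]
  rw [wsum, this, glueK_infty]

omit [TopologicalSpace K] [DiscreteTopology K] [Finite K] in
theorem wsum_infty_right (v : K → BMap X Y) {r : K → OnePoint ℝ → OnePoint ℝ}
    (hr : ∀ k, r k ∞ = ∞) (x : OnePoint X) : wsum v r x ∞ = ∞ := by
  have : (fun k => LC.smash ((v k).1 x) (r k ∞)) = fun _ : K => (∞ : OnePoint (Y × ℝ)) := by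
    funext k
    rw [hr, LC.smash_infty_right]
  rw [wsum, this, glueK_infty]

theorem continuous_wsum {v : P → K → BMap X Y} {r : P → K → OnePoint ℝ → OnePoint ℝ}
    (hv : ∀ k, Continuous fun p => v p k)
    (hr : ∀ k, Continuous fun q : P × OnePoint ℝ => r q.1 k q.2)
    (h1 : ∀ p x t, AtMostOne fun k => LC.smash ((v p k).1 x) (r p k t)) :
    Continuous fun q : P × OnePoint X × OnePoint ℝ => wsum (v q.1) (r q.1) q.2.1 q.2.2 := by
  refine continuous_glueK (fun k => ?_) fun q => h1 q.1 q.2.1 q.2.2
  refine LC.continuous_smash.comp (Continuous.prodMk ?_ ?_)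
  · exact continuous_bmap ((hv k).comp continuous_fst) (continuous_fst.comp continuous_snd)
  · exact (hr k).comp (continuous_fst.prodMk (continuous_snd.comp continuous_snd))

/-- the family of based maps `x ∧ t ↦ ⋁_k v k x ∧ r k t` -/
noncomputable def wmap (v : P → K → BMap X Y) (r : P → K → OnePoint ℝ → OnePoint ℝ)
    (hv : ∀ k, Continuous fun p => v p k)
    (hr : ∀ k, Continuous fun q : P × OnePoint ℝ => r q.1 k q.2)
    (hi : ∀ p k, r p k ∞ = ∞)
    (h1 : ∀ p x t, AtMostOne fun k => LC.smash ((v p k).1 x) (r p k t)) :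
    C(P, BMap (X × ℝ) (K × (Y × ℝ))) where
  toFun p := mk2 (wsum (v p) (r p))
    ((continuous_wsum hv hr h1).comp (Continuous.prodMk_right p))
    (wsum_infty_left (v p) (r p)) (wsum_infty_right (v p) (hi p))
  continuous_toFun := continuous_mk2 (G := fun p => wsum (v p) (r p)) (continuous_wsum hv hr h1)
    (fun p => wsum_infty_left (v p) (r p)) (fun p => wsum_infty_right (v p) (hi p))

theorem wmap_smash (v : P → K → BMap X Y) (r : P → K → OnePoint ℝ → OnePoint ℝ)
    (hv : ∀ k, Continuous fun p => v p k)
    (hr : ∀ k, Continuous fun q : P × OnePoint ℝ => r q.1 k q.2)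
    (hi : ∀ p k, r p k ∞ = ∞)
    (h1 : ∀ p x t, AtMostOne fun k => LC.smash ((v p k).1 x) (r p k t)) (p : P)
    (x : OnePoint X) (t : OnePoint ℝ) :
    (wmap v r hv hr hi h1 p).1 (LC.smash x t) =
      glueK fun k => LC.smash ((v p k).1 x) (r p k t) :=
  lift2_smash (wsum_infty_left (v p) (r p)) (wsum_infty_right (v p) (hi p)) x t

theorem prK_wmap (v : P → K → BMap X Y) (r : P → K → OnePoint ℝ → OnePoint ℝ)
    (hv : ∀ k, Continuous fun p => v p k)
    (hr : ∀ k, Continuous fun q : P × OnePoint ℝ => r q.1 k q.2)
    (hi : ∀ p k, r p k ∞ = ∞)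
    (h1 : ∀ p x t, AtMostOne fun k => LC.smash ((v p k).1 x) (r p k t)) (p : P)
    (x : OnePoint X) (t : OnePoint ℝ) (k : K) :
    prK k ((wmap v r hv hr hi h1 p).1 (LC.smash x t)) = LC.smash ((v p k).1 x) (r p k t) := by
  rw [wmap_smash, prK_glueK (h1 p x t)]

end family

omit [TopologicalSpace K] [DiscreteTopology K] [TopologicalSpace Y] [T2Space Y]
  [LocallyCompactSpace Y] in
theorem smash_ne {y : OnePoint Y} {t : OnePoint ℝ} (h : LC.smash y t ≠ ∞) : y ≠ ∞ ∧ t ≠ ∞ :=
  ⟨fun h1 => h (LC.smash_eq_infty.2 (Or.inl h1)), fun h1 => h (LC.smash_eq_infty.2 (Or.inr h1))⟩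

variable (K X Y) in
/-- the loop sum in the new coordinate -/
noncomputable def bsum : C(K → BMap X Y, BMap (X × ℝ) (K × (Y × ℝ))) :=
  wmap (P := K → BMap X Y) (fun q => q) (fun _ k t => rhoK k 0 t)
    (fun k => continuous_apply k)
    (fun k => (continuous_rhoK k).comp (continuous_const.prodMk continuous_snd))
    (fun _ _ => rfl)
    (fun _ _ _ _ _ hk hl => rhoK_zero_unique (smash_ne hk).2 (smash_ne hl).2)

theorem bsum_smash (q : K → BMap X Y) (x : OnePoint X) (t : OnePoint ℝ) (k : K) :
    prK k ((bsum K X Y q).1 (LC.smash x t)) = LC.smash ((q k).1 x) (rhoK k 0 t) :=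
  prK_wmap ..

/-- the map `x ∧ t ↦ f x ∧ (pinch map k at time s) t` -/
noncomputable def pinchSus (k : K) : C(unitInterval × BMap X Y, BMap (X × ℝ) (Y × ℝ)) where
  toFun p := mk2 (fun x t => LC.smash (p.2.1 x) (rhoK k p.1 t))
    (LC.continuous_smash.comp ((p.2.1.continuous.comp continuous_fst).prodMk
      ((continuous_rhoK k).comp (continuous_const.prodMk continuous_snd))))
    (fun t => by rw [p.2.2, LC.smash_infty_left])
    (fun x => by rw [rhoK_infty, LC.smash_infty_right])
  continuous_toFun := by
    refine continuous_mk2 (P := unitInterval × BMap X Y)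
      (G := fun p x t => LC.smash (p.2.1 x) (rhoK k p.1 t)) ?_
      (fun p t => by rw [p.2.2, LC.smash_infty_left])
      (fun p x => by rw [rhoK_infty, LC.smash_infty_right])
    refine LC.continuous_smash.comp (Continuous.prodMk ?_ ?_)
    · exact continuous_bmap (continuous_snd.comp continuous_fst)
        (continuous_fst.comp continuous_snd)
    · exact (continuous_rhoK k).comp ((continuous_fst.comp continuous_fst).prodMk
        (continuous_snd.comp continuous_snd))

theorem pinchSus_smash (k : K) (s : unitInterval) (f : BMap X Y) (x : OnePoint X)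
    (t : OnePoint ℝ) :
    (pinchSus k (s, f)).1 (LC.smash x t) = LC.smash (f.1 x) (rhoK k s t) :=
  lift2_smash (G := fun x t => LC.smash (f.1 x) (rhoK k s t))
    (fun t => by rw [f.2, LC.smash_infty_left])
    (fun x => by rw [rhoK_infty, LC.smash_infty_right]) x t

variable (K X Y) in
/-- the suspension on each factor -/
noncomputable def susP : C(K → BMap X Y, K → BMap (X × ℝ) (Y × ℝ)) :=
  ⟨fun q k => BMap.sus ℝ (q k), continuous_pi fun k =>
    BMap.continuous_sus.comp (continuous_apply k)⟩

/-- **First half of the Segal condition**: `prA ∘ bsum` is homotopic to the suspension. -/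
noncomputable def homotopyPrABsum :
    ((prA K (X × ℝ) (Y × ℝ)).comp (bsum K X Y)).Homotopy (susP K X Y) where
  toFun p := fun k => pinchSus k (p.1, p.2 k)
  continuous_toFun := continuous_pi fun k => (pinchSus k).continuous.comp
    (continuous_fst.prodMk ((continuous_apply k).comp continuous_snd))
  map_zero_left q := by
    funext k
    refine ext2 fun x t => ?_
    rw [pinchSus_smash]
    exact (bsum_smash q x t k).symm
  map_one_left q := by
    funext k
    refine ext2 fun x t => ?_
    rw [pinchSus_smash, rhoK_one]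
    exact (BMap.sus_smash (q k) x t).symm

theorem homotopic_prA_bsum :
    ((prA K (X × ℝ) (Y × ℝ)).comp (bsum K X Y)).Homotopic (susP K X Y) := ⟨homotopyPrABsum⟩

/-- the homotopy from `bsum ∘ prA` to the suspension -/
noncomputable def bsumPrAHtpy : C(unitInterval × BMap X (K × Y), BMap (X × ℝ) (K × (Y × ℝ))) :=
  wmap (P := unitInterval × BMap X (K × Y)) (fun p k => prB k p.2) (fun p k t => rhoK k p.1 t)
    (fun k => (continuous_prB k).comp continuous_snd)
    (fun k => (continuous_rhoK k).comp
      ((continuous_fst.comp continuous_fst).prodMk continuous_snd))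
    (fun _ _ => rfl)
    (fun _ _ _ _ _ hk hl => prK_unique (smash_ne hk).1 (smash_ne hl).1)

/-- **Second half of the Segal condition**: `bsum ∘ prA` is homotopic to the suspension. -/
noncomputable def homotopyBsumPrA :
    ((bsum K X Y).comp (prA K X Y)).Homotopy (susK K X Y) where
  toFun := bsumPrAHtpy
  continuous_toFun := bsumPrAHtpy.continuous
  map_zero_left f := by
    refine ext2 fun x t => prK_injective (funext fun k => ?_)
    exact (prK_wmap ..).trans (bsum_smash (prA K X Y f) x t k).symm
  map_one_left f := by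
    refine ext2 fun x t => prK_injective (funext fun k => ?_)
    refine (prK_wmap ..).trans ?_
    show LC.smash ((prB k f).1 x) (rhoK k 1 t) = prK k ((susK K X Y f).1 (LC.smash x t))
    rw [rhoK_one, prK_susK]
    rfl

theorem homotopic_bsum_prA :
    ((bsum K X Y).comp (prA K X Y)).Homotopic (susK K X Y) := ⟨homotopyBsumPrA⟩

end segal

end Vale.Agent.P263.GB
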