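import Vale.Agent.P263.GB.StabG
import Vale.Agent.P263.G2.BoxBar
import Vale.Agent.P263.GB.ToConn
import Vale.Agent.P263.G2.ConfJuxt

/-!
# P263, block G2: homological stability for families of boxes

* `AddB` : a rule for adding a box, `A.sq` (squeezing) and `A.b0` (the new box); `AddB.half` : the
  rule of the juxtaposition with one full box.
* `rz0_stB` : `RZ0` of `FN n Unit → FN (n + 1) Unit` in the degrees `j` with `2 j ≤ n`.
* `StabDat` : a simplicial set `X` which is levelwise bijective to `F Unit`, with a self map `a` which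
  adds a box; `StabDat.lc` (the number of boxes), `StabDat.stab` : `HInj`, `HSurj` of `X_n → X_{n+1}`;
  `StabDat.conn` : `Conn k D (Gam n) X_n`.
-/

namespace Vale.Agent.P263.GB

open Vale.Agent.P263.S Vale.Agent.P263.E Vale.Agent.P263.G Vale.Agent.P263.G2
open Vale.Agent.P263.TOP.H Equiv Bx

/-- a rule for adding a box -/
structure AddB where
  /-- squeezing the given boxes -/
  sq : C(Bx, Bx)
  /-- the new box -/
  b0 : Bx
  inj : Function.Injective sq
  disj : ∀ b c, Disj b c → Disj (sq b) (sq c)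
  st : ∀ r, ∃ s, ∀ b, St r b → St s (sq b)
  st0 : ∃ r, St r b0
  disj0 : ∀ b, Disj (sq b) b0

namespace AddB

variable (A : AddB) {T T' : Type} [TopologicalSpace T] [TopologicalSpace T']

/-- the constant family -/
def new (T : Type) [TopologicalSpace T] : C(T, Bx) := ContinuousMap.const T A.b0

/-- adding a box to a family -/
def add {n : ℕ} (c : OConf (Fin n) T) : OConf (Fin (n + 1)) T where
  box := Fin.cons (A.new T) fun j => A.sq.comp (c.box j)
  stage := by
    obtain ⟨r, hr⟩ := c.stage
    obtain ⟨s, hs⟩ := A.st r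
    obtain ⟨s0, hs0⟩ := A.st0
    refine ⟨max s s0, fun j t => ?_⟩
    induction j using Fin.cases with
    | zero => exact hs0.mono (le_max_right _ _)
    | succ j => exact (hs _ (hr j t)).mono (le_max_left _ _)
  disj j j' h t := by
    induction j using Fin.cases with
    | zero =>
      induction j' using Fin.cases with
      | zero => exact absurd rfl h
      | succ j' => exact (A.disj0 _).symm
    | succ j =>
      induction j' using Fin.cases with
      | zero => exact A.disj0 _
      | succ j' => exact A.disj _ _ (c.disj j j' (fun e => h (congrArg Fin.succ e)) t)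

@[simp] theorem add_zero {n : ℕ} (c : OConf (Fin n) T) : (A.add c).box 0 = A.new T := rfl

@[simp] theorem add_succ {n : ℕ} (c : OConf (Fin n) T) (j : Fin n) :
    (A.add c).box j.succ = A.sq.comp (c.box j) := rfl

/-- adding a box, as a map of simplicial sets -/
def addO (n : ℕ) : SS.Map (OF (Fin n)) (OF (Fin (n + 1))) :=
  ⟨fun c => A.add c, fun f c => OConf.ext fun j => by
    induction j using Fin.cases with
    | zero => rfl
    | succ j => rfl⟩

theorem addO_act {n : ℕ} {p : ℕ} (g : Perm (Fin n)) (c : (OF (Fin n)).obj p) :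
    (A.addO n).app ((freeBox n).act g c) = (freeBox (n + 1)).act (exP g) ((A.addO n).app c) := by
  apply OConf.ext
  intro j
  show (A.add (OConf.re (g⁻¹).toEmbedding c)).box j = (A.add c).box ((exP g)⁻¹ j)
  induction j using Fin.cases with
  | zero => rw [exP_inv_zero]; rfl
  | succ j => rw [exP_inv_succ]; rfl

/-- the self map `a` adds a box: the members of `a S` are the squeezed members of `S` and the new
box -/
def Is (A : AddB) {p : ℕ} (S S' : Conf Unit (Dl p)) : Prop :=
  ∀ c : C(Dl p, Bx), (c, ()) ∈ S'.pts ↔ c = A.new (Dl p) ∨ ∃ b, (b, ()) ∈ S.pts ∧ A.sq.comp b = c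

theorem Is.ext {p : ℕ} {S S₁ S₂ : Conf Unit (Dl p)} (h1 : A.Is S S₁) (h2 : A.Is S S₂) :
    S₁ = S₂ := by
  rw [Conf.ext_iff']
  rintro ⟨c, ⟨⟩⟩
  rw [h1, h2]

theorem is_add {n p : ℕ} (c : OConf (Fin n) (Dl p)) :
    A.Is (c.toConf fun _ => ()) ((A.add c).toConf fun _ => ()) := by
  intro d
  rw [OConf.mem_toConf]
  constructor
  · rintro ⟨j, hj⟩
    induction j using Fin.cases with
    | zero => exact Or.inl (congrArg Prod.fst hj).symm
    | succ j => exact Or.inr ⟨c.box j, OConf.mem_toConf.2 ⟨j, rfl⟩, congrArg Prod.fst hj⟩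
  · rintro (rfl | ⟨b, hb, rfl⟩)
    · exact ⟨0, rfl⟩
    · obtain ⟨j, hj⟩ := OConf.mem_toConf.1 hb
      exact ⟨j.succ, Prod.ext (congrArg (fun d => A.sq.comp d) (Prod.ext_iff.1 hj).1) rfl⟩

theorem Is.card {p : ℕ} {S S' : Conf Unit (Dl p)} (h : A.Is S S') :
    S'.pts.card = S.pts.card + 1 := by
  obtain ⟨c, x, hc⟩ := OConf.exists_toConf S rfl
  obtain rfl : x = fun _ => () := rfl
  have h2 := A.is_add c
  rw [hc] at h2
  rw [h.ext A h2, OConf.card_toConf, Fintype.card_fin]

/-- the new box and the squeezed old boxes -/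
theorem Is.pull {p q : ℕ} (f : Op p q) {S S' : Conf Unit (Dl q)} (h : A.Is S S') :
    A.Is (S.pull (dmap f)) (S'.pull (dmap f)) := by
  intro c
  rw [Conf.mem_pull]
  constructor
  · rintro ⟨d, hd, rfl⟩
    rcases (h d).1 hd with rfl | ⟨b, hb, rfl⟩
    · exact Or.inl rfl
    · exact Or.inr ⟨b.comp (dmap f), Conf.mem_pull.2 ⟨b, hb, rfl⟩, rfl⟩
  · rintro (rfl | ⟨b, hb, rfl⟩)
    · exact ⟨A.new _, (h _).2 (Or.inl rfl), rfl⟩
    · obtain ⟨d, hd, rfl⟩ := Conf.mem_pull.1 hb
      exact ⟨A.sq.comp d, (h _).2 (Or.inr ⟨d, hd, rfl⟩), rfl⟩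

theorem exists_is {p : ℕ} (S : Conf Unit (Dl p)) : ∃ S', A.Is S S' := by
  obtain ⟨c, x, hc⟩ := OConf.exists_toConf S rfl
  obtain rfl : x = fun _ => () := rfl
  have h2 := A.is_add c
  rw [hc] at h2
  exact ⟨_, h2⟩

/-- adding a box, as a self map of the simplicial set of families of boxes -/
noncomputable def addF : SS.Map (F Unit) (F Unit) where
  app S := (A.exists_is S).choose
  nat f S := Is.ext A ((A.exists_is _).choose_spec) (Is.pull A f (A.exists_is S).choose_spec)

theorem is_addF {p : ℕ} (S : (F Unit).obj p) : A.Is S (A.addF.app S) := (A.exists_is S).choose_spec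

end AddB

/-! ### quotients and bijections -/

/-- replacing the orbit space by an isomorphic one -/
def freeQ_bij {G : Type} [Group G] {W B B' : SS} (Q : FreeQ G W B) (f : SS.Map B B')
    (hf : ∀ p, Function.Bijective (f.app (p := p))) : FreeQ G W B' where
  p := f.comp Q.p
  act := Q.act
  one_act := Q.one_act
  mul_act := Q.mul_act
  map_act := Q.map_act
  free := Q.free
  p_act g w := congrArg f.app (Q.p_act g w)
  surj n b := by
    obtain ⟨c, rfl⟩ := (hf n).2 b
    obtain ⟨w, rfl⟩ := Q.surj n c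
    exact ⟨w, rfl⟩
  orbit w w' h := Q.orbit w w' ((hf _).1 h)

/-- the inverse of a levelwise bijective map -/
noncomputable def invMap {X Y : SS} (e : SS.Map X Y) (he : ∀ p, Function.Bijective (e.app (p := p))) :
    SS.Map Y X where
  app {p} := (Equiv.ofBijective _ (he p)).symm
  nat {p q} f y := by
    apply (he p).1
    have h1 : ∀ {p : ℕ} (y : Y.obj p), e.app ((Equiv.ofBijective _ (he p)).symm y) = y :=
      fun {p} y => (Equiv.ofBijective _ (he p)).apply_symm_apply y
    rw [h1, e.nat, h1]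

theorem e_invMap {X Y : SS} (e : SS.Map X Y) (he : ∀ p, Function.Bijective (e.app (p := p))) {p : ℕ}
    (y : Y.obj p) : e.app ((invMap e he).app y) = y :=
  (Equiv.ofBijective _ (he p)).apply_symm_apply y

/-! ### stability -/

section stab

variable (A : AddB) {X : SS} (e : SS.Map X (F Unit))
  (he : ∀ p, Function.Bijective (e.app (p := p))) (a : SS.Map X X)
  (ha : ∀ {p : ℕ} (x : X.obj p), A.Is (e.app x) (e.app (a.app x)))
  (D : LC X) (hD : ∀ {p : ℕ} (x : X.obj p), D.deg x = ((Conf.pts (e.app x)).card : ℤ))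

include ha hD in
theorem deg_add {p : ℕ} (x : X.obj p) : D.deg (a.app x) = D.deg x + 1 := by
  rw [hD, hD, AddB.Is.card A (ha x)]
  push_cast
  rfl

/-- the families of `n` boxes are the simplices of `X` of degree `n` -/
noncomputable def fnToFib (n : ℕ) : SS.Map (FN n Unit) (D.fib (n : ℤ)).sub where
  app {p} S := (D.fib (n : ℤ)).elt ((invMap e he).app ((FN.toF n Unit).app S)) (by
    show D.deg _ = _
    rw [hD, e_invMap]
    exact congrArg _ S.2)
  nat f S := Subtype.ext ((invMap e he).nat f ((FN.toF n Unit).app S))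

theorem e_fnToFib (n : ℕ) {p : ℕ} (S : (FN n Unit).obj p) :
    e.app ((D.fib (n : ℤ)).inc.app ((fnToFib e he D hD n).app S)) = (FN.toF n Unit).app S :=
  e_invMap e he _

theorem fnToFib_bijective (n p : ℕ) : Function.Bijective ((fnToFib e he D hD n).app (p := p)) := by
  constructor
  · intro S S' h
    apply FN.toF_inj
    rw [← e_fnToFib e he D hD n S, ← e_fnToFib e he D hD n S', h]
  · intro x
    refine ⟨⟨e.app ((D.fib (n : ℤ)).inc.app x), ?_⟩, ?_⟩
    · have h1 : D.deg ((D.fib (n : ℤ)).inc.app x) = n := (D.fib (n : ℤ)).inc_P x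
      rw [hD] at h1
      exact_mod_cast h1
    · apply (D.fib (n : ℤ)).inc_inj
      apply (he p).1
      exact e_fnToFib e he D hD n _

/-- the simplices of degree `n` as an orbit space -/
noncomputable def freeFib (n : ℕ) : FreeQ (Perm (Fin n)) (OF (Fin n)) (D.fib (n : ℤ)).sub :=
  freeQ_bij (freeBox n) (fnToFib e he D hD n) (fnToFib_bijective e he D hD n)

include he ha hD in
/-- **Homological stability** for families of boxes. -/
theorem rz0_fibS {n j : ℕ} (hj : 2 * j ≤ n) :
    RZ0 (freeMap (ZMod 2) (fibS D (deg_add A e a ha D hD) n)).cx j := by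
  refine rz0_stab (freeFib e he D hD n) (freeFib e he D hD (n + 1)) (boxV n) (boxV (n + 1))
    (fun k _ p => acyc_OF k n p) (fun k _ p => acyc_OF k (n + 1) p) _ (A.addO n) ?_
    (fun g w => A.addO_act g w) hj
  intro p w
  apply (D.fib ((n + 1 : ℕ) : ℤ)).inc_inj
  apply (he p).1
  have h1 : A.Is ((FN.toF n Unit).app ((freeBox n).p.app w))
      ((FN.toF (n + 1) Unit).app ((freeBox (n + 1)).p.app ((A.addO n).app w))) := A.is_add w
  have h2 := ha ((D.fib (n : ℤ)).inc.app ((freeFib e he D hD n).p.app w))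
  have h3 : e.app ((D.fib (n : ℤ)).inc.app ((freeFib e he D hD n).p.app w)) =
    (FN.toF n Unit).app ((freeBox n).p.app w) := e_fnToFib e he D hD n _
  rw [h3] at h2
  exact (h2.ext A h1).trans (e_fnToFib e he D hD (n + 1) _).symm

include he ha hD in
theorem hInj_fibS {n j : ℕ} (hj : 2 * (j + 1) ≤ n) :
    HInj (ZMod 2) (fibS D (deg_add A e a ha D hD) n) j :=
  hInj_of_rz0 (rz0_fibS A e he a ha D hD hj)

include he ha hD in
theorem hSurj_fibS {n j : ℕ} (hj : 2 * j ≤ n) :
    HSurj (ZMod 2) (fibS D (deg_add A e a ha D hD) n) j :=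
  hSurj_of_rz0 (rz0_fibS A e he a ha D hD hj)

include he hD in
/-- The simplices of degree `n` are a model of `BΣ_n`. -/
theorem conn_fib (k : Type) [CommRing k] (n E : ℕ) : Conn k E (Gam n) (D.fib (n : ℤ)).sub := by
  obtain ⟨f, hf⟩ := exists_toGam (k := k) (D := E) (freeFib e he D hD n) (boxV n)
    fun p _ => acyc_OF k n p
  exact (Conn.of_map f (hf.some.isoUpTo.mono (Nat.le_succ E))).symm

end stab

/-! ### the juxtaposition with a full box -/

/-- the rule of the juxtaposition with one full box in the coordinate `0`: the given boxes are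
rescaled into `J`, the full box into `J'` -/
noncomputable def AddB.of (J J' : Iv) (hJ : J.Dis J') : AddB where
  sq := ⟨fun b => Bx.upd 0 b (J.comp (b 0)), by
    refine continuous_pi fun i => ?_
    by_cases hi : i = 0
    · subst hi
      simp only [upd_self]
      exact Iv.continuous_comp.comp (continuous_const.prodMk (continuous_apply 0))
    · simp only [upd_ne hi]
      exact continuous_apply i⟩
  b0 := Bx.upd 0 (fun _ => Iv.full) J'
  inj b c h := by
    have h1 : ∀ i, Bx.upd 0 b (J.comp (b 0)) i = Bx.upd 0 c (J.comp (c 0)) i :=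
      fun i => congrFun h i
    funext i
    by_cases hi : i = 0
    · subst hi
      have h2 := h1 0
      rw [upd_self, upd_self] at h2
      have h3 := J.lo_lt_hi
      have hlo : (J.comp (b 0)).lo = (J.comp (c 0)).lo := by rw [h2]
      have hhi : (J.comp (b 0)).hi = (J.comp (c 0)).hi := by rw [h2]
      rw [Iv.comp_lo, Iv.comp_lo] at hlo
      rw [Iv.comp_hi, Iv.comp_hi] at hhi
      have h4 : J.hi - J.lo ≠ 0 := by linarith
      exact Iv.ext (mul_left_cancel₀ h4 (by linarith)) (mul_left_cancel₀ h4 (by linarith))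
    · have h2 := h1 i
      rwa [upd_ne hi, upd_ne hi] at h2
  disj b c h := h.resc 0 J
  st r := ⟨r + 1, fun b hb => (hb.mono r.le_succ).upd' r.succ_pos _⟩
  st0 := ⟨1, fun i hi => by rw [upd_ne (by omega)]⟩
  disj0 b := by
    have h := disj_resc_of_dis 0 b (fun _ => Iv.full) (J := J) (J' := J') hJ
    rwa [Iv.comp_full] at h

theorem AddB.of_sq {J J' : Iv} (hJ : J.Dis J') {p : ℕ} (b : C(Dl p, Bx)) :
    (AddB.of J J' hJ).sq.comp b = rescC 0 (ContinuousMap.const _ J) b := by
  ext1 t
  rw [rescC_apply]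
  rfl

theorem AddB.of_new {J J' : Iv} (hJ : J.Dis J') {p : ℕ} :
    (AddB.of J J' hJ).new (Dl p) =
      rescC 0 (ContinuousMap.const _ J') (ContinuousMap.const (Dl p) fun _ => Iv.full) := by
  ext1 t
  rw [rescC_apply]
  show Bx.upd 0 (fun _ => Iv.full) J' = Bx.upd 0 (fun _ => Iv.full) (J'.comp Iv.full)
  rw [Iv.comp_full]

/-- the juxtaposition of `S` with one full box, in the coordinate `0` -/
theorem AddB.of_is {J J' : Iv} (hJ : J.Dis J') {p : ℕ} (S S' : Conf Unit (Dl p))
    (h : ∀ c : C(Dl p, Bx), (c, ()) ∈ S'.pts ↔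
      (∃ b, (b, ()) ∈ S.pts ∧ rescC 0 (ContinuousMap.const _ J) b = c) ∨
      rescC 0 (ContinuousMap.const _ J') (ContinuousMap.const (Dl p) fun _ => Iv.full) = c) :
    (AddB.of J J' hJ).Is S S' := by
  intro c
  rw [h, AddB.of_new, or_comm]
  refine or_congr ⟨fun h => h.symm, fun h => h.symm⟩ (exists_congr fun b => ?_)
  rw [AddB.of_sq]

end Vale.Agent.P263.GB
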