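import Vale.Agent.P263.GB.Comp
import Mathlib.AlgebraicTopology.SingularHomology.HomotopyInvariance

/-!
# P263: translations of components

* `SH_map_eq_of_homotopic`;
* `Fib.map f h : Fib D i ⟶ Fib E j` and its homotopy invariance;
* `Fib.bijective_of_homotopyInverse` : for `a : X → Y` with a homotopy inverse `b`, and
  `E (a x) = j ↔ D x = i`, the map `H_d(Fib D i) → H_d(Fib E j)` is bijective;
* `shift_bijective` : `a, b : X → X`, `a b ≃ id ≃ b a`, `D (a x) = D x + 1`;
* the same for self maps of a sequential colimit, when the homotopies exist at the stages only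
  (after stabilisation, without compatibility): `colimMap_bijective`, `fibColimMap_bijective`.
-/

open CategoryTheory Limits Topology TopCat

namespace Vale.Agent.P263.GB

open TOP (SH leg_map exists_leg leg_injective)

variable {k : Type} [CommRing k] (A : ModuleCat.{0} k)

/-- homotopic maps agree on singular homology -/
theorem SH_map_eq_of_homotopic {X Y : TopCat.{0}} {f g : X ⟶ Y}
    (h : ContinuousMap.Homotopic f.hom g.hom) (d : ℕ) : (SH A d).map f = (SH A d).map g := by
  obtain ⟨H⟩ := h
  exact TopCat.Homotopy.congr_homologyMap_singularChainComplexFunctor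
    (C := ModuleCat.{0} k) (X := X) (Y := Y) (f := f) (g := g) H A d

theorem SH_map_comp_apply {X Y Z : TopCat.{0}} (f : X ⟶ Y) (g : Y ⟶ Z) (d : ℕ)
    (x : (SH A d).obj X) : (SH A d).map (f ≫ g) x = (SH A d).map g ((SH A d).map f x) := by
  rw [(SH A d).map_comp]
  rfl

theorem SH_map_id_apply {X : TopCat.{0}} (d : ℕ) (x : (SH A d).obj X) :
    (SH A d).map (𝟙 X) x = x := by
  rw [(SH A d).map_id]
  rfl

/-- a homotopy equivalence is bijective on homology -/
theorem SH_map_bijective {X Y : TopCat.{0}} (f : X ⟶ Y) (g : Y ⟶ X)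
    (h1 : ContinuousMap.Homotopic (f ≫ g).hom (𝟙 X : X ⟶ X).hom)
    (h2 : ContinuousMap.Homotopic (g ≫ f).hom (𝟙 Y : Y ⟶ Y).hom) (d : ℕ) :
    Function.Bijective ((SH A d).map f) := by
  refine Function.bijective_iff_has_inverse.2 ⟨(SH A d).map g, fun x => ?_, fun x => ?_⟩
  · rw [← SH_map_comp_apply, SH_map_eq_of_homotopic A h1, SH_map_id_apply]
  · rw [← SH_map_comp_apply, SH_map_eq_of_homotopic A h2, SH_map_id_apply]

section fib

variable {X Y Z : TopCat.{0}} {ι κ τ : Type} {D : X → ι} {E : Y → κ} {G : Z → τ}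

/-- a map restricted to fibres -/
def Fib.map (f : X ⟶ Y) {i : ι} {j : κ} (h : ∀ x, D x = i → E (f x) = j) : Fib D i ⟶ Fib E j :=
  TopCat.ofHom ⟨fun x => ⟨f x.1, h x.1 x.2⟩,
    Continuous.subtype_mk (f.hom.continuous.comp continuous_subtype_val) _⟩

theorem Fib.map_coe (f : X ⟶ Y) {i : ι} {j : κ} (h : ∀ x, D x = i → E (f x) = j)
    (x : Fib D i) : (Fib.map f h x).1 = f x.1 := rfl

theorem Fib.map_incl (f : X ⟶ Y) {i : ι} {j : κ} (h : ∀ x, D x = i → E (f x) = j) :
    Fib.map f h ≫ Fib.incl E j = Fib.incl D i ≫ f := rfl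

theorem Fib.map_id {i : ι} (h : ∀ x, D x = i → D ((𝟙 X : X ⟶ X) x) = i) :
    Fib.map (𝟙 X) h = 𝟙 (Fib D i) := rfl

theorem Fib.map_comp (f : X ⟶ Y) (g : Y ⟶ Z) {i : ι} {j : κ} {l : τ}
    (h : ∀ x, D x = i → E (f x) = j) (h' : ∀ y, E y = j → G (g y) = l) :
    Fib.map f h ≫ Fib.map g h' = Fib.map (D := D) (E := G) (f ≫ g) (fun x hx => h' _ (h x hx)) :=
  rfl

/-- homotopic maps restrict to homotopic maps on the fibres of locally constant functions -/
theorem Fib.map_homotopic [TopologicalSpace κ] [DiscreteTopology κ] (hE : Continuous E)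
    {f g : X ⟶ Y} (H : ContinuousMap.Homotopic f.hom g.hom) {i : ι} {j : κ}
    (h : ∀ x, D x = i → E (f x) = j) (h' : ∀ x, D x = i → E (g x) = j) :
    ContinuousMap.Homotopic (Fib.map f h).hom (Fib.map g h').hom := by
  obtain ⟨H⟩ := H
  have hH : ∀ (t : unitInterval) (x : Fib D i), E (H (t, x.1)) = j := by
    intro t x
    have h1 : Continuous fun t : unitInterval => H (t, x.1) :=
      H.continuous.comp (continuous_id.prodMk continuous_const)
    have h2 := const_on_simplex hE h1 t 0
    rw [H.apply_zero] at h2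
    rw [h2]
    exact h x.1 x.2
  refine ⟨⟨⟨fun p => ⟨H (p.1, p.2.1), hH p.1 p.2⟩, ?_⟩, fun x => ?_, fun x => ?_⟩⟩
  · exact Continuous.subtype_mk (H.continuous.comp
      (continuous_fst.prodMk (continuous_subtype_val.comp continuous_snd))) _
  · exact Subtype.ext (H.apply_zero x.1)
  · exact Subtype.ext (H.apply_one x.1)

/-- **A homotopy equivalence restricts to homology isomorphisms of the fibres.** -/
theorem Fib.bijective_of_homotopyInverse [TopologicalSpace ι] [DiscreteTopology ι]
    [TopologicalSpace κ] [DiscreteTopology κ] (hD : Continuous D) (hE : Continuous E)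
    (a : X ⟶ Y) (b : Y ⟶ X)
    (h1 : ContinuousMap.Homotopic (a ≫ b).hom (𝟙 X : X ⟶ X).hom)
    (h2 : ContinuousMap.Homotopic (b ≫ a).hom (𝟙 Y : Y ⟶ Y).hom)
    {i : ι} {j : κ} (h : ∀ x, D x = i → E (a x) = j) (h' : ∀ x, E (a x) = j → D x = i) (d : ℕ) :
    Function.Bijective ((SH A d).map (Fib.map a h)) := by
  have hb : ∀ y, E y = j → D (b y) = i := by
    intro y hy
    apply h'
    obtain ⟨H⟩ := h2
    have h3 : Continuous fun t : unitInterval => H (t, y) :=
      H.continuous.comp (continuous_id.prodMk continuous_const)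
    have h4 := const_on_simplex hE h3 0 1
    rw [H.apply_zero, H.apply_one] at h4
    exact h4.trans hy
  refine SH_map_bijective A (Fib.map a h) (Fib.map b hb) ?_ ?_ d
  · rw [Fib.map_comp]
    exact Fib.map_homotopic hD h1 _ (fun x hx => hx)
  · rw [Fib.map_comp]
    exact Fib.map_homotopic hE h2 _ (fun x hx => hx)

end fib

/-- **Translation of components**: `a` of degree `1` with a homotopy inverse gives
`H_d(X_n) ≅ H_d(X_{n+1})`. -/
theorem shift_bijective {X : TopCat.{0}} {D : X → ℤ} (hD : Continuous D) (a b : X ⟶ X)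
    (h1 : ContinuousMap.Homotopic (a ≫ b).hom (𝟙 X : X ⟶ X).hom)
    (h2 : ContinuousMap.Homotopic (b ≫ a).hom (𝟙 X : X ⟶ X).hom) {m : ℤ}
    (ha : ∀ x, D (a x) = D x + m) (n : ℤ) (d : ℕ) :
    Function.Bijective ((SH A d).map (Fib.map (D := D) (E := D) (i := n) (j := n + m) a
      (fun x hx => by rw [ha, hx]))) :=
  Fib.bijective_of_homotopyInverse A hD hD a b h1 h2 _
    (fun x hx => by have := ha x; omega) d

/-! ### Sequential colimits, homotopies at the stages -/

section tel

variable {F : ℕ ⥤ TopCat.{0}} (hF : ∀ n : ℕ, IsClosedEmbedding (F.map (homOfLE (Nat.le_succ n))))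
  (hT : ∀ n, T1Space (F.obj n)) {c : Cocone F} (hc : IsColimit c)

/-- a compatible family of self maps -/
structure SelfMap (F : ℕ ⥤ TopCat.{0}) where
  app : ∀ n, F.obj n ⟶ F.obj n
  comm : ∀ n, app n ≫ F.map (homOfLE (Nat.le_succ n)) = F.map (homOfLE (Nat.le_succ n)) ≫ app (n + 1)

theorem SelfMap.comm_apply (a : SelfMap F) (n : ℕ) (x : F.obj n) :
    F.map (homOfLE (Nat.le_succ n)) (a.app n x) =
      a.app (n + 1) (F.map (homOfLE (Nat.le_succ n)) x) :=
  ConcreteCategory.congr_hom (a.comm n) x

theorem SelfMap.map_apply (a : SelfMap F) {i j : ℕ} (h : i ≤ j) (x : F.obj i) :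
    F.map (homOfLE h) (a.app i x) = a.app j (F.map (homOfLE h) x) := by
  induction j, h using Nat.le_induction with
  | base =>
    have h1 : F.map (homOfLE (le_refl i)) = 𝟙 _ := F.map_id i
    rw [h1]
    rfl
  | succ j h ih =>
    rw [← map_map h (Nat.le_succ j), ih, a.comm_apply, map_map]

/-- the natural transformation -/
def SelfMap.nat (a : SelfMap F) : F ⟶ F where
  app := a.app
  naturality i j f := by
    ext x
    have := (a.map_apply (leOfHom f) x).symm
    exact this

/-- the map on the colimit -/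
noncomputable def SelfMap.colim (a : SelfMap F) : c.pt ⟶ c.pt :=
  hc.desc ⟨c.pt, a.nat ≫ c.ι⟩

theorem SelfMap.leg_colim (a : SelfMap F) (n : ℕ) :
    c.ι.app n ≫ a.colim hc = a.app n ≫ c.ι.app n :=
  hc.fac ⟨c.pt, a.nat ≫ c.ι⟩ n

theorem SelfMap.colim_leg (a : SelfMap F) (n : ℕ) (x : F.obj n) :
    a.colim hc (c.ι.app n x) = c.ι.app n (a.app n x) :=
  ConcreteCategory.congr_hom (a.leg_colim hc n) x

/-- `b` is a left inverse of `a` up to homotopies after stabilisation -/
def LeftInv (a b : SelfMap F) : Prop :=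
  ∀ n, ∃ (m : ℕ) (h : n ≤ m), ContinuousMap.Homotopic
    (a.app n ≫ b.app n ≫ F.map (homOfLE h)).hom (F.map (homOfLE h)).hom

include hF hT in
theorem leftInverse_colim {a b : SelfMap F} (hab : LeftInv a b) (d : ℕ) (x : (SH A d).obj c.pt) :
    (SH A d).map (b.colim hc) ((SH A d).map (a.colim hc) x) = x := by
  obtain ⟨n, y, rfl⟩ := TOP.exists_SH A hF hT hc d x
  obtain ⟨m, h, H⟩ := hab n
  have e1 : c.ι.app n ≫ a.colim hc ≫ b.colim hc =
      (a.app n ≫ b.app n ≫ F.map (homOfLE h)) ≫ c.ι.app m := by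
    rw [← Category.assoc, a.leg_colim, Category.assoc, b.leg_colim, Category.assoc,
      Category.assoc, c.w]
  rw [← SH_map_comp_apply, ← SH_map_comp_apply, e1, SH_map_comp_apply,
    SH_map_eq_of_homotopic A H, ← SH_map_comp_apply, c.w]

include hF hT in
/-- **A self map of a sequential colimit which has an inverse up to homotopies at the stages is
bijective on homology.** -/
theorem colimMap_bijective {a b : SelfMap F} (hab : LeftInv a b) (hba : LeftInv b a) (d : ℕ) :
    Function.Bijective ((SH A d).map (a.colim hc)) :=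
  Function.bijective_iff_has_inverse.2 ⟨(SH A d).map (b.colim hc),
    leftInverse_colim A hF hT hc hab d, leftInverse_colim A hF hT hc hba d⟩

/-! fibrewise version -/

variable {D : ∀ n, F.obj n → ℤ} (hD : ∀ n, Continuous (D n))
  (hs : ∀ n x, D (n + 1) (F.map (homOfLE (Nat.le_succ n)) x) = D n x)

include hs in
theorem SelfMap.colimD_colim (a : SelfMap F) {m : ℤ} (ha : ∀ n x, D n (a.app n x) = D n x + m)
    (x : c.pt) : colimD hc D (a.colim hc x) = colimD hc D x + m := by
  obtain ⟨n, x, rfl⟩ := exists_leg hc x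
  rw [a.colim_leg, colimD_leg hc D hs, colimD_leg hc D hs, ha]

include hF hT hs hD in
/-- **Translation of components in a sequential colimit.** -/
theorem fibColimMap_bijective {a b : SelfMap F} (hab : LeftInv a b) (hba : LeftInv b a) {m : ℤ}
    (ha : ∀ n x, D n (a.app n x) = D n x + m) (i : ℤ) (d : ℕ) :
    Function.Bijective ((SH A d).map (Fib.map (D := colimD hc D) (E := colimD hc D) (i := i)
      (j := i + m) (a.colim hc) (fun x hx => by rw [a.colimD_colim hc hs ha, hx]))) := by
  have hDc := continuous_colimD hc D hs hD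
  have hb : ∀ n x, D n (b.app n x) = D n x + (-m) := by
    intro n x
    obtain ⟨l, h, ⟨H⟩⟩ := hba n
    have h1 : Continuous fun t : unitInterval => H (t, x) :=
      H.continuous.comp (continuous_id.prodMk continuous_const)
    have h2 := const_on_simplex (hD l) h1 0 1
    rw [H.apply_zero, H.apply_one] at h2
    have h3 : D l (F.map (homOfLE h) (a.app n (b.app n x))) = D l (F.map (homOfLE h) x) := h2
    rw [D_map D hs h, D_map D hs h, ha] at h3
    omega
  have hbc := b.colimD_colim hc hs hb
  have hac := a.colimD_colim hc hs ha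
  have hba' : ∀ x, colimD hc D x = i + m → colimD hc D (b.colim hc x) = i := by
    intro x hx
    rw [hbc, hx]
    omega
  have hab' : ∀ x, colimD hc D x = i → colimD hc D (a.colim hc x) = i + m := by
    intro x hx
    rw [hac, hx]
  have e1 : Fib.map (a.colim hc) hab' ≫ Fib.map (b.colim hc) hba' ≫ Fib.incl (colimD hc D) i =
    Fib.incl (colimD hc D) i ≫ a.colim hc ≫ b.colim hc := rfl
  have e2 : Fib.map (b.colim hc) hba' ≫ Fib.map (a.colim hc) hab' ≫
    Fib.incl (colimD hc D) (i + m) = Fib.incl (colimD hc D) (i + m) ≫ b.colim hc ≫ a.colim hc := rfl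
  refine Function.bijective_iff_has_inverse.2 ⟨(SH A d).map (Fib.map (b.colim hc) hba'),
    fun x => ?_, fun x => ?_⟩
  · apply SH_incl_injective A hDc d
    rw [← SH_map_comp_apply, ← SH_map_comp_apply, e1, SH_map_comp_apply, SH_map_comp_apply,
      leftInverse_colim A hF hT hc hab]
  · apply SH_incl_injective A hDc d
    rw [← SH_map_comp_apply, ← SH_map_comp_apply, e2, SH_map_comp_apply, SH_map_comp_apply,
      leftInverse_colim A hF hT hc hba]

end tel

end Vale.Agent.P263.GB
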