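import Vale.Agent.P263.GB.QT
import Vale.Agent.P263.G2.LadderW
import Vale.Agent.P263.G2.Theta

/-!
# P263, block G2-2: the maps `θ_k` on the functors `QT`, and their two-stage inverse

* `thetaT T K k r : C(QT T (Fin k × K) r, PK (Fin (k + 1)) (QT.const T.del K r))`;
* `thetaT_circ`, `thetaT_push`, `thetaT_stT` : strictly simplicial (995's `circK`), natural in `K`
  (`sndK`), compatible with the stage maps;
* `omegaT T K k r : C(PK (Fin (k + 1)) (QT.const T.del K r), QT T (Fin k × K) (r + 2))`;
  `homotopic_theta_omega`, `homotopic_omega_theta` : a homotopy inverse up to two stage maps.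
-/

open OnePoint Topology Vale.Agent.P251.G Vale.Agent.P263.TOP
open Vale.Agent.P263.S Vale.Agent.P263.E Vale.Agent.P263.G2 unitInterval

set_option linter.unusedSectionVars false

namespace Vale.Agent.P263.GB

/-- the two versions of the circle operators agree -/
theorem circ_eq_cir {l k : ℕ} (α : Op l k) (i : Fin k) : circ α i = cir α i := by
  refine Option.ext fun j => ?_
  show circ α i = Option.some j ↔ cir α i = Option.some j
  rw [circ_eq_some, cir_eq_some_iff]
  refine forall_congr' fun b => ?_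
  have h1 : (α b).1 ≤ i.1 ↔ ¬ i.1 < (α b).1 := not_lt.symm
  have h2 : b.1 ≤ j.1 ↔ ¬ j.1 < b.1 := not_lt.symm
  rw [h1, h2]
  exact not_iff_not

/-! ### general label sets -/

section thetaL

variable {X Y Y₁ : Type} [TopologicalSpace X] [T2Space X] [LocallyCompactSpace X]
  [TopologicalSpace Y] [T2Space Y] [LocallyCompactSpace Y]
  [TopologicalSpace Y₁] [T2Space Y₁] [LocallyCompactSpace Y₁]
variable {J J' L L' : Type} [TopologicalSpace J] [DiscreteTopology J] [Finite J]
  [TopologicalSpace J'] [DiscreteTopology J'] [Finite J']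
  [TopologicalSpace L] [DiscreteTopology L] [Finite L]
  [TopologicalSpace L'] [DiscreteTopology L'] [Finite L']

/-- the value of `θ_k q` at `t`, for labels `L = S¹_k ∧ J` -/
noncomputable def thvL (c : ℝ × Y ≃ₜ Y₁) {k : ℕ} (ι : L → Fin k × J) (q : BMap X (L × Y))
    (t : Dl k) : BMap X (J × Y₁) :=
  bcomp (act c (fun p => Option.some (ι p).2) fun p => cw k (ι p).1 t) q

theorem continuous_thvL {T : Type*} [TopologicalSpace T] (c : ℝ × Y ≃ₜ Y₁) {k : ℕ}
    (ι : L → Fin k × J) {q : T → BMap X (L × Y)} {t : T → Dl k} (hq : Continuous q)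
    (ht : Continuous t) : Continuous fun x => thvL c ι (q x) (t x) :=
  continuous_bcomp (continuous_act c _ fun p => (continuous_cw k (ι p).1).comp ht) hq

theorem thvL_vertex (c : ℝ × Y ≃ₜ Y₁) {k : ℕ} (ι : L → Fin k × J) (q : BMap X (L × Y))
    (a : Fin (k + 1)) : thvL c ι q (stdSimplex.vertex a) = bzero X (J × Y₁) := by
  have h : ∀ p : L, cw k (ι p).1 (stdSimplex.vertex a) = ∞ := fun p => cw_vertex (ι p).1 a
  rw [thvL, act_infty c _ _ h, zero_bcomp]

/-- **The map `θ_k`**, for labels `L = S¹_k ∧ J`. -/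
noncomputable def thetaL (c : ℝ × Y ≃ₜ Y₁) {k : ℕ} (ι : L → Fin k × J) :
    C(BMap X (L × Y), PK (Fin (k + 1)) (bzero X (J × Y₁))) where
  toFun q := ⟨(⟨fun t => thvL c ι q t, continuous_thvL c ι continuous_const
    continuous_id⟩, fun _ => ContinuousMap.const _ (bzero X (J × Y₁))),
    fun a => ⟨rfl, (thvL_vertex c ι q a).symm⟩⟩
  continuous_toFun := PK.continuous_mk _
    (continuous_thvL c ι continuous_fst continuous_snd) fun _ => continuous_const

/-- `θ` is strictly simplicial -/
theorem thetaL_re (c : ℝ × Y ≃ₜ Y₁) {l k : ℕ} (α : Op l k) (ι : L → Fin k × J)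
    (ι' : L' → Fin l × J) (f : L → Option L') (h : ∀ p, (f p).map ι' = cirJ α (ι p))
    (q : BMap X (L × Y)) : PK.re α (thetaL c ι q) = thetaL c ι' (push f q) := by
  refine PK.ext (fun t => ?_) fun a s => rfl
  show thvL c ι q (dmap α t) = thvL c ι' (push f q) t
  rw [thvL, thvL, bcomp_act_push]
  congr 1
  refine act_congr c _ _ _ _ fun p => ?_
  have h1 := h p
  rw [cw_dmap]
  unfold cirJ at h1
  rcases hf : f p with _ | p'
  · rw [hf] at h1
    right
    rcases hc : cir α (ι p).1 with _ | i'
    · exact ⟨Or.inr rfl, Or.inl rfl⟩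
    · rw [hc] at h1
      exact absurd h1.symm (by simp)
  · rw [hf] at h1
    left
    rcases hc : cir α (ι p).1 with _ | i'
    · rw [hc] at h1
      exact absurd h1 (by simp)
    · rw [hc] at h1
      have h2 : ι' p' = (i', (ι p).2) := Option.some.inj h1
      refine ⟨?_, ?_⟩
      · show Option.some (ι p).2 = Option.some (ι' p').2
        rw [h2]
      · show cw l i' t = cw l (ι' p').1 t
        rw [h2]

/-- `θ` is natural in the labels -/
theorem thetaL_push (c : ℝ × Y ≃ₜ Y₁) {k : ℕ} (ι : L → Fin k × J) (ι' : L' → Fin k × J')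
    (g : L → Option L') (f : J → Option J') (h : ∀ p, (g p).map ι' = cirL k f (ι p))
    (q : BMap X (L × Y)) :
    thetaL c ι' (push g q) = PK.map (push f) (push_bzero f) (thetaL c ι q) := by
  refine PK.ext (fun t => ?_) fun a s => rfl
  show thvL c ι' (push g q) t = push f (thvL c ι q t)
  rw [thvL, thvL, bcomp_act_push, push_bcomp_act]
  congr 1
  refine act_congr c _ _ _ _ fun p => ?_
  have h1 := h p
  unfold cirL at h1
  rcases hg : g p with _ | p'
  · rw [hg] at h1
    right
    rcases hc : f (ι p).2 with _ | j'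
    · exact ⟨Or.inl rfl, Or.inl hc⟩
    · rw [hc] at h1
      exact absurd h1.symm (by simp)
  · rw [hg] at h1
    rcases hc : f (ι p).2 with _ | j'
    · rw [hc] at h1
      exact absurd h1 (by simp)
    · rw [hc] at h1
      left
      have h2 : ι' p' = ((ι p).1, j') := Option.some.inj h1
      refine ⟨?_, ?_⟩
      · show Option.some (ι' p').2 = f (ι p).2
        rw [h2, hc]
      · show cw k (ι' p').1 t = cw k (ι p).1 t
        rw [h2]

/-- `θ_k q` on the `a`-th edge -/
theorem thetaL_edge (c : ℝ × Y ≃ₜ Y₁) {k : ℕ} (ι : L → Fin k × J) (q : BMap X (L × Y))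
    (a : Fin k) (s : I) : (thetaL c ι q).1.1 (edge a s) =
      (th1 c (push (fun p => prLb a (ι p)) q)).1 s := by
  show thvL c ι q (edge a s) =
    bcomp (act c Option.some fun _ => loopE s) (push (fun p => prLb a (ι p)) q)
  rw [thvL, bcomp_act_push]
  congr 1
  refine act_congr c _ _ _ _ fun p => ?_
  rw [cw_edge, prLb]
  by_cases h : (ι p).1 = a
  · left
    rw [if_pos h, if_pos h]
    exact ⟨rfl, rfl⟩
  · right
    rw [if_neg h, if_neg h]
    exact ⟨Or.inr rfl, Or.inl rfl⟩

/-- the loops of `θ_k q` -/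
theorem toLo_thetaL (c : ℝ × Y ≃ₜ Y₁) {k : ℕ} (ι : L → Fin k × J) (q : BMap X (L × Y))
    (a : Fin k) : PK.toLo (thetaL c ι q) a =
      Lo.rep3 1 (th1 c (push (fun p => prLb a (ι p)) q)) :=
  PK.toLo_of_const _ (fun _ _ => rfl) a _ fun s => thetaL_edge c ι q a s

theorem thetaL_stK {X' Y' Y₁' : Type} [TopologicalSpace X'] [T2Space X'] [LocallyCompactSpace X']
    [TopologicalSpace Y'] [T2Space Y'] [LocallyCompactSpace Y']
    [TopologicalSpace Y₁'] [T2Space Y₁'] [LocallyCompactSpace Y₁']
    (e : X × ℝ ≃ₜ X') {e' : Y × ℝ ≃ₜ Y'} {e₁ : Y₁ × ℝ ≃ₜ Y₁'} {c : ℝ × Y ≃ₜ Y₁}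
    {c' : ℝ × Y' ≃ₜ Y₁'} (h : Compat e' e₁ c c') {k : ℕ} (ι : L → Fin k × J)
    (q : BMap X (L × Y)) : thetaL c' ι (stK L e e' q) =
      PK.map (stK J e e₁) (stK_bzero e e₁) (thetaL c ι q) := by
  refine PK.ext (fun t => act_stK e h _ _ q) fun a _ => ?_
  show bzero X' (J × Y₁') = stK J e e₁ (bzero X (J × Y₁))
  rw [stK_bzero]

end thetaL

/-! ### homotopies of maps into powers -/

section pow

variable {A B : Type*} [TopologicalSpace A] [TopologicalSpace B]

/-- the map on powers -/
def powC (k : ℕ) (f : C(A, B)) : C(Fin k → A, Fin k → B) :=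
  ⟨fun x a => f (x a), continuous_pi fun a => f.continuous.comp (continuous_apply a)⟩

theorem powC_apply (k : ℕ) (f : C(A, B)) (x : Fin k → A) (a : Fin k) :
    powC k f x a = f (x a) := rfl

theorem powC_homotopic (k : ℕ) {f g : C(A, B)} (h : f.Homotopic g) :
    (powC k f).Homotopic (powC k g) := by
  obtain ⟨H⟩ := h
  refine ⟨⟨⟨fun p a => H (p.1, p.2 a), continuous_pi fun a => H.continuous.comp
    (continuous_fst.prodMk ((continuous_apply a).comp continuous_snd))⟩, fun x => ?_,
    fun x => ?_⟩⟩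
  · funext a
    exact H.apply_zero _
  · funext a
    exact H.apply_one _

/-- homotopy equivalences can be cancelled -/
theorem homotopic_of_comp {T : Type*} [TopologicalSpace T] (E : ContinuousMap.HomotopyEquiv A B)
    {f g : C(T, A)} (h : (E.toFun.comp f).Homotopic (E.toFun.comp g)) : f.Homotopic g := by
  have h1 : ∀ f : C(T, A), (E.invFun.comp (E.toFun.comp f)).Homotopic f := fun f => by
    have := E.left_inv.comp (ContinuousMap.Homotopic.refl f)
    rw [ContinuousMap.comp_assoc, ContinuousMap.id_comp] at this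
    exact this
  exact (h1 f).symm.trans (((ContinuousMap.Homotopic.refl E.invFun).comp h).trans (h1 g))

end pow

/-! ### the deloopings of `QT` -/

section delT

variable (T : TSeq) (K : Type) [Finite K]

/-- `ℝ × (K × Y) = K × (ℝ × Y)` -/
def wH (K Y : Type) [TopologicalSpace K] [TopologicalSpace Y] : ℝ × (K × Y) ≃ₜ K × (ℝ × Y) where
  toFun p := (p.2.1, (p.1, p.2.2))
  invFun p := (p.2.1, (p.1, p.2.2))
  left_inv _ := rfl
  right_inv _ := rfl
  continuous_toFun := by fun_prop
  continuous_invFun := by fun_prop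

theorem wH_compat (r : ℕ) (x : ℝ) (w : Dsc K × T.Y r) (t : ℝ) :
    wH (Dsc K) (T.Y (r + 1)) (x, kH (Dsc K) (T.e r) (w, t)) =
      kH (Dsc K) (T.del.e r) (wH (Dsc K) (T.Y r) (x, w), t) := rfl

/-- the standard map `QT T K r → Ω (QT T.del K r)` -/
noncomputable def loT (r : ℕ) : C(QT T K r, Lo (QT.const T.del K r)) :=
  lo (X := Fin r → ℝ) (wH (Dsc K) (T.Y r))

/-- the map `Ω (QT T.del K r) → QT T K (r + 1)` -/
noncomputable def ldT (r : ℕ) : C(Lo (QT.const T.del K r), QT T K (r + 1)) :=
  ldW (wH (Dsc K) (T.Y r)) (snocH r) (kH (Dsc K) (T.e r))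

theorem stT_const (r : ℕ) : stT T K r (QT.const T K r) = QT.const T K (r + 1) :=
  stC_bzero (snocH r) (kH (Dsc K) (T.e r))

theorem ldT_loT (r : ℕ) (q : QT T K r) : ldT T K r (loT T K r q) = stT T K r q :=
  ldW_lo _ _ _ q

theorem homotopic_loT_ldT (r : ℕ) : ((loT T K (r + 1)).comp (ldT T K r)).Homotopic
    (Lo.map (stT T.del K r) (stT_const T.del K r)) :=
  homotopic_lo_ldW (wH (Dsc K) (T.Y r)) (snocH r) (kH (Dsc K) (T.e r))
    (kH (Dsc K) (T.del.e r)) (wH (Dsc K) (T.Y (r + 1))) (wH_compat T K r)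

theorem loT_stT (r : ℕ) (q : QT T K r) : loT T K (r + 1) (stT T K r q) =
    Lo.map (stT T.del K r) (stT_const T.del K r) (loT T K r q) :=
  lo_stC (wH (Dsc K) (T.Y r)) (snocH r) (kH (Dsc K) (T.e r))
    (kH (Dsc K) (T.del.e r)) (wH (Dsc K) (T.Y (r + 1))) (wH_compat T K r) q

theorem loT_eq (r : ℕ) (q : QT T K r) :
    loT T K r q = th1 (J := Dsc K) (Homeomorph.refl (ℝ × T.Y r)) q := by
  refine Lo.ext fun s => ?_
  show bcomp (line0 (wH (Dsc K) (T.Y r)) (loopE s)) q =
    bcomp (act (Homeomorph.refl (ℝ × T.Y r)) Option.some fun _ => loopE s) q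
  congr 1
  refine bext fun p => ?_
  obtain ⟨j, y⟩ := p
  rw [act_coe]
  show opH (wH (Dsc K) (T.Y r)) (LC.smash (loopE s) (((j, y) : Dsc K × T.Y r) :
    OnePoint (Dsc K × T.Y r))) = LC.smash (opt (Option.some j))
      (opH (Homeomorph.refl (ℝ × T.Y r)) (LC.smash (loopE s) (y : OnePoint (T.Y r))))
  generalize loopE (s : ℝ) = u
  induction u using OnePoint.rec with
  | infty => rfl
  | coe u => rfl

end delT

/-! ### `θ` on `QT` -/

section thetaT

variable (T : TSeq) (K : Type) [Finite K]

/-- the labels -/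
def labE (k : ℕ) (K : Type) : Dsc (Fin k × K) ≃ Fin k × Dsc K := Equiv.refl _

/-- **The map `θ_k`.** -/
noncomputable def thetaT (k r : ℕ) :
    C(QT T (Fin k × K) r, PK (Fin (k + 1)) (QT.const T.del K r)) :=
  thetaL (X := Fin r → ℝ) (L := Dsc (Fin k × K)) (J := Dsc K) (Homeomorph.refl (ℝ × T.Y r))
    (labE k K)

/-- `θ` is strictly simplicial -/
theorem thetaT_circ {l k : ℕ} (f : Op l k) (r : ℕ) (q : QT T (Fin k × K) r) :
    PK.re f (thetaT T K k r q) = thetaT T K l r (pushT T r (circK K f) q) := by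
  refine thetaL_re (L := Dsc (Fin k × K)) (L' := Dsc (Fin l × K)) (J := Dsc K)
    (Homeomorph.refl (ℝ × T.Y r)) f (labE k K) (labE l K) (circK K f) (fun p => ?_) q
  show (circK K f p).map (fun x : Fin l × K => x) = cirJ (J := K) f p
  rw [Option.map_id']
  show (circ f (Prod.fst (α := Fin k) (β := K) p)).map _ = _
  rw [circ_eq_cir]
  rfl

variable {K} in
/-- `θ` is natural in the labels -/
theorem thetaT_push {L : Type} [Finite L] (f : K → Option L) (k r : ℕ)
    (q : QT T (Fin k × K) r) : thetaT T L k r (pushT T r (sndK (Fin k) f) q) =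
      PK.map (pushT T.del r f) rfl (thetaT T K k r q) := by
  refine thetaL_push (L := Dsc (Fin k × K)) (L' := Dsc (Fin k × L)) (J := Dsc K) (J' := Dsc L)
    (Homeomorph.refl (ℝ × T.Y r)) (labE k K) (labE k L) (sndK (Fin k) f) f (fun p => ?_) q
  show (sndK (Fin k) f p).map (fun x : Fin k × L => x) = cirL (J := K) (J' := L) k f p
  rw [Option.map_id']
  rfl

/-- `θ` commutes with the stage maps -/
theorem thetaT_stT (k r : ℕ) (q : QT T (Fin k × K) r) :
    thetaT T K k (r + 1) (stT T (Fin k × K) r q) =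
      PK.map (stT T.del K r) (stT_const T.del K r) (thetaT T K k r q) :=
  thetaL_stK (L := Dsc (Fin k × K)) (J := Dsc K) (snocH r) (e' := T.e r) (e₁ := T.del.e r)
    (c := Homeomorph.refl (ℝ × T.Y r)) (c' := Homeomorph.refl (ℝ × T.Y (r + 1)))
    (fun _ _ _ => rfl) (labE k K) q

/-- the projections at one stage -/
noncomputable def prF (k r : ℕ) : C(QT T (Fin k × K) r, Fin k → QT T K r) :=
  prT (L := Dsc K) (Fin r → ℝ) (T.Y r) (labE k K)

/-- the loop sum at one stage -/
noncomputable def smF (k r : ℕ) : C(Fin k → QT T K r, QT T (Fin k × K) (r + 1)) :=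
  smT (L := Dsc K) (labE k K) (snocH r) (T.e r)

theorem homotopic_prF_smF (k r : ℕ) :
    ((prF T K k (r + 1)).comp (smF T K k r)).Homotopic (powC k (stT T K r)) :=
  homotopic_prT_smT (L := Dsc K) (labE k K) (snocH r) (T.e r)

theorem homotopic_smF_prF (k r : ℕ) :
    ((smF T K k r).comp (prF T K k r)).Homotopic (stT T (Fin k × K) r) :=
  homotopic_smT_prT (L := Dsc K) (labE k K) (snocH r) (T.e r)

theorem prF_stT (k r : ℕ) :
    (prF T K k (r + 1)).comp (stT T (Fin k × K) r) = (powC k (stT T K r)).comp (prF T K k r) := by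
  ext1 q
  funext a
  exact push_stK (L := Dsc K) (snocH r) (T.e r) (selK (labE k K) a) q

/-- the loops of `θ_k` -/
theorem toLo_thetaT (k r : ℕ) : PK.toLo.comp (thetaT T K k r) =
    (powC k ⟨Lo.rep3 1, Lo.continuous_rep3.comp (continuous_const.prodMk continuous_id)⟩).comp
      ((powC k (loT T K r)).comp (prF T K k r)) := by
  ext1 q
  funext a
  show PK.toLo (thetaT T K k r q) a = Lo.rep3 1 (loT T K r (prF T K k r q a))
  rw [loT_eq]
  refine (toLo_thetaL (L := Dsc (Fin k × K)) (J := Dsc K) (Homeomorph.refl (ℝ × T.Y r))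
    (labE k K) q a).trans ?_
  have hf : (fun p => prLb a (labE k K p)) = selK (labE k K) a := by
    funext p
    unfold prLb selK
    congr
  rw [hf]
  rfl

/-- the reparametrisation is homotopic to the identity -/
theorem homotopic_rep3 {Y : Type} [TopologicalSpace Y] (y₀ : Y) :
    (⟨Lo.rep3 1, Lo.continuous_rep3.comp (continuous_const.prodMk continuous_id)⟩ :
      C(Lo y₀, Lo y₀)).Homotopic (ContinuousMap.id _) := by
  refine ContinuousMap.Homotopic.symm ⟨⟨⟨fun x => Lo.rep3 x.1 x.2, Lo.continuous_rep3⟩,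
    fun l => ?_, fun l => rfl⟩⟩
  exact Lo.rep3_zero l

theorem homotopic_toLo_thetaT (k r : ℕ) : (PK.toLo.comp (thetaT T K k r)).Homotopic
    ((powC k (loT T K r)).comp (prF T K k r)) := by
  rw [toLo_thetaT]
  exact (powC_homotopic k (homotopic_rep3 _)).comp (ContinuousMap.Homotopic.refl _)

/-- **The inverse of `θ_k` up to two stages.** -/
noncomputable def omegaT (k r : ℕ) :
    C(PK (Fin (k + 1)) (QT.const T.del K r), QT T (Fin k × K) (r + 2)) :=
  (smF T K k (r + 1)).comp ((powC k (ldT T K r)).comp PK.toLo)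

/-- two stage maps -/
noncomputable def st2 (r : ℕ) : C(QT T K r, QT T K (r + 2)) :=
  (stT T K (r + 1)).comp (stT T K r)

theorem st2_const (r : ℕ) : st2 T K r (QT.const T K r) = QT.const T K (r + 2) := by
  show stT T K (r + 1) (stT T K r (QT.const T K r)) = _
  rw [stT_const, stT_const]

theorem homotopic_omega_theta (k r : ℕ) :
    ((omegaT T K k r).comp (thetaT T K k r)).Homotopic (st2 T (Fin k × K) r) := by
  have h0 : (omegaT T K k r).comp (thetaT T K k r) = (smF T K k (r + 1)).comp
      ((powC k (ldT T K r)).comp (PK.toLo.comp (thetaT T K k r))) := by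
    rw [omegaT, ContinuousMap.comp_assoc, ContinuousMap.comp_assoc]
  have h1 : ((omegaT T K k r).comp (thetaT T K k r)).Homotopic
      ((smF T K k (r + 1)).comp ((powC k (ldT T K r)).comp
        ((powC k (loT T K r)).comp (prF T K k r)))) := by
    rw [h0]
    exact (ContinuousMap.Homotopic.refl (smF T K k (r + 1))).comp
      ((ContinuousMap.Homotopic.refl (powC k (ldT T K r))).comp (homotopic_toLo_thetaT T K k r))
  have h2 : (powC k (ldT T K r)).comp ((powC k (loT T K r)).comp (prF T K k r)) =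
      (prF T K k (r + 1)).comp (stT T (Fin k × K) r) := by
    rw [prF_stT]
    refine ContinuousMap.ext fun q => funext fun a => ?_
    rw [ContinuousMap.comp_apply, ContinuousMap.comp_apply, ContinuousMap.comp_apply,
      powC_apply, powC_apply, powC_apply]
    exact ldT_loT T K r (prF T K k r q a)
  rw [h2, ← ContinuousMap.comp_assoc] at h1
  refine h1.trans ?_
  exact (homotopic_smF_prF T K k (r + 1)).comp
    (ContinuousMap.Homotopic.refl (stT T (Fin k × K) r))

theorem homotopic_theta_omega (k r : ℕ) :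
    ((thetaT T K k (r + 2)).comp (omegaT T K k r)).Homotopic
      (PK.map (st2 T.del K r) (st2_const T.del K r)) := by
  refine homotopic_of_comp PK.homotopyEquiv ?_
  rw [PK.homotopyEquiv_toFun]
  -- the left hand side
  have h1 : (PK.toLo.comp ((thetaT T K k (r + 2)).comp (omegaT T K k r))).Homotopic
      (((powC k (loT T K (r + 2))).comp (prF T K k (r + 2))).comp (omegaT T K k r)) := by
    rw [← ContinuousMap.comp_assoc]
    exact (homotopic_toLo_thetaT T K k (r + 2)).comp
      (ContinuousMap.Homotopic.refl (omegaT T K k r))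
  have h2 : (((powC k (loT T K (r + 2))).comp (prF T K k (r + 2))).comp
      (omegaT T K k r)).Homotopic
      ((powC k (loT T K (r + 2))).comp ((powC k (stT T K (r + 1))).comp
        ((powC k (ldT T K r)).comp PK.toLo))) := by
    have e : ((powC k (loT T K (r + 2))).comp (prF T K k (r + 2))).comp (omegaT T K k r) =
        (powC k (loT T K (r + 2))).comp (((prF T K k (r + 2)).comp (smF T K k (r + 1))).comp
          ((powC k (ldT T K r)).comp PK.toLo)) := by
      rw [omegaT, ContinuousMap.comp_assoc, ContinuousMap.comp_assoc]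
    rw [e]
    exact (ContinuousMap.Homotopic.refl (powC k (loT T K (r + 2)))).comp
      ((homotopic_prF_smF T K k (r + 1)).comp
        (ContinuousMap.Homotopic.refl ((powC k (ldT T K r)).comp PK.toLo)))
  have h3 : (powC k (loT T K (r + 2))).comp ((powC k (stT T K (r + 1))).comp
        ((powC k (ldT T K r)).comp PK.toLo)) =
      (powC k (Lo.map (stT T.del K (r + 1)) (stT_const T.del K (r + 1)))).comp
        ((powC k ((loT T K (r + 1)).comp (ldT T K r))).comp PK.toLo) := by
    refine ContinuousMap.ext fun q => funext fun a => ?_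
    rw [ContinuousMap.comp_apply, ContinuousMap.comp_apply, ContinuousMap.comp_apply,
      ContinuousMap.comp_apply, ContinuousMap.comp_apply, powC_apply, powC_apply, powC_apply,
      powC_apply, powC_apply, ContinuousMap.comp_apply]
    exact loT_stT T K (r + 1) (ldT T K r (PK.toLo q a))
  have h4 : ((powC k (Lo.map (stT T.del K (r + 1)) (stT_const T.del K (r + 1)))).comp
        ((powC k ((loT T K (r + 1)).comp (ldT T K r))).comp PK.toLo)).Homotopic
      ((powC k (Lo.map (stT T.del K (r + 1)) (stT_const T.del K (r + 1)))).comp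
        ((powC k (Lo.map (stT T.del K r) (stT_const T.del K r))).comp
          (PK.toLo (k := k) (y₀ := QT.const T.del K r)))) :=
    (ContinuousMap.Homotopic.refl _).comp ((powC_homotopic k (homotopic_loT_ldT T K r)).comp
      (ContinuousMap.Homotopic.refl _))
  have h5 : (powC k (Lo.map (stT T.del K (r + 1)) (stT_const T.del K (r + 1)))).comp
        ((powC k (Lo.map (stT T.del K r) (stT_const T.del K r))).comp
          (PK.toLo (k := k) (y₀ := QT.const T.del K r))) =
      PK.toLo.comp (PK.map (st2 T.del K r) (st2_const T.del K r)) := by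
    refine ContinuousMap.ext fun x => funext fun a => ?_
    rw [ContinuousMap.comp_apply, ContinuousMap.comp_apply, ContinuousMap.comp_apply,
      powC_apply, powC_apply]
    exact (PK.toLo_map (st2 T.del K r) (st2_const T.del K r) x a).symm
  rw [h3] at h2
  rw [h5] at h4
  exact (h1.trans h2).trans h4

end thetaT

end Vale.Agent.P263.GB
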