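import Vale.Agent.P263.GB.LoopLem
import Vale.Agent.P263.GB.Conn
import Vale.Agent.P263.G2.Ladder

/-!
# P263, block G2, (V): the homology of the iterated loop spaces of spheres

`K` a field, `H_j(S^m; K) = 0` for `0 < j`, `j ≠ m` (hypothesis `hS`).

**`hz_loops`** : `H_j(Ω^r S^m; K) = 0` for `r < m`, `0 < j < 2 (m - r)`, `j ≠ m - r`, for the literal
spaces `BMap (Fin r → ℝ) (Fin m → ℝ)` of based maps.
-/

open OnePoint Topology Vale.Agent.P251.G Vale.Agent.P263.TOP unitInterval

namespace Vale.Agent.P263.GB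

open Vale.Agent.P263.S Vale.Agent.P263.E Vale.Agent.P263.G2

namespace Van

variable {R : Type} [CommRing R]

/-! ### reduced and unreduced homology -/

/-- the boundary of the chains of the point -/
theorem pt_d (m : ℕ) (x : Unit →₀ R) :
    ((free R SS.pt).d m x : Unit →₀ R) = if m % 2 = 1 then x else 0 := by
  have h1 : ∀ i ∈ Finset.range (m + 2),
      (sn i (show Unit →₀ R from (free R SS.pt).map (dl m i) x) : Unit →₀ R) = sn i x := by
    intro i _
    exact congrArg (sn i) (Finsupp.mapDomain_id (v := x))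
  refine ((free R SS.pt).d_apply m x).trans ((Finset.sum_congr rfl h1).trans ?_)
  rw [sum_sn, Nat.add_mod_right]

/-- the point -/
theorem pt_hz {n : ℕ} (hn : 0 < n) : (free R SS.pt).cx.HZ n := by
  obtain ⟨n, rfl⟩ := Nat.exists_eq_succ_of_ne_zero hn.ne'
  have key : ∀ x : Unit →₀ R, ((free R SS.pt).d n x : Unit →₀ R) = 0 →
      ∃ y : Unit →₀ R, ((free R SS.pt).d (n + 1) y : Unit →₀ R) = x := by
    intro x hx
    rcases Nat.even_or_odd n with h | h
    · have h0 : n % 2 = 0 := Nat.even_iff.1 h
      exact ⟨x, (pt_d (n + 1) x).trans (if_pos (by omega))⟩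
    · have h0 : n % 2 = 1 := Nat.odd_iff.1 h
      rw [pt_d, if_pos h0] at hx
      exact ⟨0, (map_zero _).trans hx.symm⟩
  intro x hx
  exact key x hx

theorem free_hz_of_red {X : SS} (x₀ : X.obj 0) {n : ℕ} (hn : 0 < n) (h : (red R X).cx.HZ n) :
    (free R X).cx.HZ n := by
  intro (z : (free R X).obj n) hz
  obtain ⟨(w : (red R X).obj (n + 1)), hw⟩ :=
    h ((redQ R x₀).app n z) ((redQ R x₀).cx.cyc hz)
  obtain ⟨(u : (free R SS.pt).obj (n + 1)), hu⟩ :=
    pt_hz (R := R) hn ((freeMap R (SS.toPt X)).app n z) ((freeMap R (SS.toPt X)).cx.cyc hz)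
  refine ⟨(redI R X).app (n + 1) w + (freeMap R (ptv x₀)).app (n + 1) u, ?_⟩
  have e1 : (free R X).d n ((redI R X).app (n + 1) w) =
      z - (freeMap R (ptc X x₀)).app n z := by
    rw [← (redI R X).app_d]
    exact congrArg Subtype.val hw
  have e2 : (free R X).d n ((freeMap R (ptv x₀)).app (n + 1) u) =
      (freeMap R (ptc X x₀)).app n z := by
    rw [← (freeMap R (ptv x₀)).app_d]
    have e3 : (free R SS.pt).d n u = (freeMap R (SS.toPt X)).app n z := hu
    rw [e3]
    exact (freeMap_comp_app (ptv x₀) (SS.toPt X) z).symm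
  have e4 : (free R X).d n ((redI R X).app (n + 1) w + (freeMap R (ptv x₀)).app (n + 1) u) = z := by
    rw [map_add, e1, e2, sub_add_cancel]
  exact e4

/-- a basis vector with a coefficient -/
noncomputable def fsr {X : SS} {p : ℕ} (x : X.obj p) (r : R) : (free R X).obj p :=
  (Finsupp.single x r : X.obj p →₀ R)

theorem redQ_edge {X : SS} (x₀ s : X.obj 0) (t : X.obj 1) (r : R) (h0 : X.map (dl 0 0) t = s)
    (h1 : X.map (dl 0 1) t = x₀) :
    (red R X).d 0 ((redQ R x₀).app 1 (fsr t r)) = (redQ R x₀).app 0 (fsr s r) := by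
  rw [← (redQ R x₀).app_d]
  have e1 : (free R X).d 0 (fsr t r) = fsr s r - fsr x₀ r := by
    rw [SMod.d_apply, Finset.sum_range_succ, Finset.sum_range_succ, Finset.sum_range_zero,
      zero_add]
    have e2 : (free R X).map (dl 0 0) (fsr t r) = fsr s r :=
      (free_map_single X (dl 0 0) t r).trans (by rw [h0]; rfl)
    have e3 : (free R X).map (dl 0 1) (fsr t r) = fsr x₀ r :=
      (free_map_single X (dl 0 1) t r).trans (by rw [h1]; rfl)
    rw [e2, e3, sn_succ, sub_eq_add_neg]
    simp [sn]
  have e4 : (redQ R x₀).app 0 (fsr x₀ r) = 0 := by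
    apply Subtype.ext
    rw [redQ_coe]
    have e5 : (freeMap R (ptc X x₀)).app 0 (fsr x₀ r) = fsr x₀ r := by
      refine (freeMap_single (ptc X x₀) x₀ r).trans ?_
      have e6 : (ptc X x₀).app x₀ = x₀ := by
        show X.map (cst 0 0) x₀ = x₀
        have : (cst 0 0 : Op 0 0) = OrderHom.id := OrderHom.ext _ _ (funext fun y =>
          Subsingleton.elim (α := Fin 1) _ _)
        rw [this, X.map_id]
      rw [e6]
      rfl
    rw [e5, sub_self]
    rfl
  rw [e1, map_sub, e4, sub_zero]

/-- the reduced homology of a path connected space in degree zero -/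
theorem red_hz_zero {X : Type} [TopologicalSpace X] [PathConnectedSpace X] (x₀ : X) :
    (red R (sing X)).cx.HZ 0 := by
  have key : ∀ z : (free R (sing X)).obj 0, ∃ w : (red R (sing X)).obj 1,
      (red R (sing X)).d 0 w = (redQ R (vpt x₀)).app 0 z := by
    intro z
    induction z using Finsupp.induction_linear with
    | zero => exact ⟨0, (map_zero _).trans (map_zero _).symm⟩
    | add x y hx hy =>
      obtain ⟨w, hw⟩ := hx
      obtain ⟨w', hw'⟩ := hy
      exact ⟨w + w', (map_add _ _ _).trans ((congrArg₂ (· + ·) hw hw').trans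
        (map_add _ _ _).symm)⟩
    | single s r =>
      -- a path
      let x₁ : X := toC s (stdSimplex.vertex 0)
      let γ : Path x₀ x₁ := PathConnectedSpace.somePath x₀ x₁
      let τ : C(Dl 1, X) := (γ : C(I, X)).comp (chiI (OrderHom.id : Op 1 1))
      have f0 : (OrderHom.id : Op 1 1).comp (dl 0 0) = c1 0 := eq_c1 fun y => by
        apply Fin.ext
        show (dl 0 0 y).1 = 1
        rw [dl_val]
        simp
      have f1 : (OrderHom.id : Op 1 1).comp (dl 0 1) = c0 0 := eq_c0 fun y => by
        apply Fin.ext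
        show (dl 0 1 y).1 = 0
        rw [dl_val]
        simp
      have hτ0 : (sing X).map (dl 0 0) (ofC τ) = s := by
        refine ContinuousMap.ext fun t => ?_
        show γ (chiI OrderHom.id (dmap (dl 0 0) t)) = toC s t
        have ht : t = stdSimplex.vertex 0 := Subsingleton.elim _ _
        have h1 : chiI OrderHom.id (dmap (dl 0 0) t) = 1 := by
          rw [← ContinuousMap.comp_apply, ← chiI_comp, f0]
          exact chiI_c1 t
        rw [h1, γ.target, ht]
      have hτ1 : (sing X).map (dl 0 1) (ofC τ) = vpt x₀ := by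
        refine ContinuousMap.ext fun t => ?_
        show γ (chiI OrderHom.id (dmap (dl 0 1) t)) = x₀
        have h1 : chiI OrderHom.id (dmap (dl 0 1) t) = 0 := by
          rw [← ContinuousMap.comp_apply, ← chiI_comp, f1]
          exact chiI_c0 t
        rw [h1, γ.source]
      exact ⟨_, redQ_edge (vpt x₀) s (ofC τ) r hτ0 hτ1⟩
  intro z _
  obtain ⟨w, hw⟩ := key z.1
  exact ⟨w, hw.trans (redQ_redI (vpt x₀) z)⟩

/-- homotopy equivalent spaces, reduced chains -/
theorem red_hz_sing {X Z : Type} [TopologicalSpace X] [TopologicalSpace Z] (e : X ≃ₜ Z)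
    {n : ℕ} (h : (red R (sing Z)).cx.HZ n) : (red R (sing X)).cx.HZ n := by
  refine Cx.HZ.retract (redMap R (singMap (e : C(X, Z)))).cx
    (redMap R (singMap (e.symm : C(Z, X)))).cx (fun n x => ?_) h
  have h1 : (singMap (e.symm : C(Z, X))).comp (singMap (e : C(X, Z))) = SS.Map.id (sing X) := by
    rw [← singMap_comp, ← singMap_id]
    congr 1
    exact ContinuousMap.ext fun x => e.symm_apply_apply x
  exact (redMap_comp_app (singMap (e.symm : C(Z, X))) (singMap (e : C(X, Z))) x).symm.trans
    ((redMap_congr h1 x).trans (redMap_id_app x))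

theorem free_hz_sing {X Z : Type} [TopologicalSpace X] [TopologicalSpace Z] (e : X ≃ₜ Z)
    {n : ℕ} (h : (free R (sing Z)).cx.HZ n) : (free R (sing X)).cx.HZ n := by
  refine Cx.HZ.retract (freeMap R (singMap (e : C(X, Z)))).cx
    (freeMap R (singMap (e.symm : C(Z, X)))).cx (fun n x => ?_) h
  have h1 : (singMap (e.symm : C(Z, X))).comp (singMap (e : C(X, Z))) = SS.Map.id (sing X) := by
    rw [← singMap_comp, ← singMap_id]
    congr 1
    exact ContinuousMap.ext fun x => e.symm_apply_apply x
  exact (freeMap_comp_app (singMap (e.symm : C(Z, X))) (singMap (e : C(X, Z))) x).symm.trans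
    ((freeMap_congr h1 x).trans (freeMap_id_app x))

/-! ### the loop spaces of mapping spaces -/

/-- loops in a mapping space -/
noncomputable def adjH (X T : Type) [TopologicalSpace X] [T2Space X] [LocallyCompactSpace X]
    [TopologicalSpace T] [T2Space T] [LocallyCompactSpace T] :
    BMap (ℝ × X) T ≃ₜ Lo (bzero X T) where
  toFun := adjL
  invFun := adjR
  left_inv f := adjR_adjL f
  right_inv l := adjL_adjR l
  continuous_toFun := adjL.continuous
  continuous_invFun := adjR.continuous

/-- `Ω^{r+1} = Ω Ω^r` -/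
noncomputable def loH (r : ℕ) (T : Type) [TopologicalSpace T] [T2Space T]
    [LocallyCompactSpace T] : BMap (Fin (r + 1) → ℝ) T ≃ₜ Lo (bzero (Fin r → ℝ) T) :=
  (BMap.conj ((Homeomorph.prodComm ℝ (Fin r → ℝ)).trans (snocH r))
    (Homeomorph.refl T)).symm.trans (adjH (Fin r → ℝ) T)

/-- `Ω^0` -/
noncomputable def zeroH (T : Type) [TopologicalSpace T] [T2Space T]
    [LocallyCompactSpace T] : BMap (Fin 0 → ℝ) T ≃ₜ OnePoint T where
  toFun f := f.1 ((fun i => Fin.elim0 i : Fin 0 → ℝ) : OnePoint (Fin 0 → ℝ))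
  invFun y := ⟨⟨fun z => z.elim ∞ fun _ => y, continuous_of_discreteTopology⟩, rfl⟩
  left_inv f := by
    refine bext fun x => ?_
    show f.1 _ = f.1 _
    congr 2
    exact Subsingleton.elim _ _
  right_inv y := rfl
  continuous_toFun := continuous_bmap continuous_id continuous_const
  continuous_invFun := by
    refine continuous_bmk _ ?_
    refine continuous_prod_of_discrete_right.2 fun z => ?_
    induction z using OnePoint.rec with
    | infty => exact continuous_const
    | coe z => exact continuous_id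

/-- **(V)** The homology of the iterated loop spaces of spheres in the stable range. -/
theorem hz_loops (K : Type) [Field K]
    (hS : ∀ m j : ℕ, 0 < j → j ≠ m → (free K (sing (OnePoint (Fin m → ℝ)))).cx.HZ j) (r : ℕ) :
    ∀ m, r < m → ∀ j, 0 < j → j < 2 * (m - r) → j ≠ m - r →
      (free K (sing (BMap (Fin r → ℝ) (Fin m → ℝ)))).cx.HZ j := by
  induction r with
  | zero =>
    intro m _ j hj _ hjm
    exact free_hz_sing (zeroH (Fin m → ℝ)) (hS m j hj (by omega))
  | succ r ih =>
    intro m hm j hj hj2 hjm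
    have hm' : r < m := by omega
    have hpY : PathConnectedSpace (BMap (Fin r → ℝ) (Fin m → ℝ)) :=
      pathConnected_bmap (by simpa using hm')
    have hpL : PathConnectedSpace (BMap (Fin (r + 1) → ℝ) (Fin m → ℝ)) :=
      pathConnected_bmap (by simpa using hm)
    let y₀ : BMap (Fin r → ℝ) (Fin m → ℝ) := bzero _ _
    let e : BMap (Fin (r + 1) → ℝ) (Fin m → ℝ) ≃ₜ Lo y₀ := loH r (Fin m → ℝ)
    have h0 : (red K (sing (Lo y₀))).cx.HZ 0 :=
      red_hz_sing e.symm (red_hz_zero (bzero (Fin (r + 1) → ℝ) (Fin m → ℝ)))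
    have hY : ∀ i, 0 < i → i < 2 * (m - r) → i ≠ m - r →
        (free K (sing (BMap (Fin r → ℝ) (Fin m → ℝ)))).cx.HZ i := fun i h1 h2 h3 =>
      ih m hm' i h1 h2 h3
    have hlow : ∀ i < m - (r + 1), (red K (sing (Lo y₀))).cx.HZ i :=
      loop_lemma_low y₀ h0 (m - (r + 1)) fun i hi hi0 => hY (i + 1) (by omega) (by omega) (by omega)
    have hred : (red K (sing (Lo y₀))).cx.HZ j := by
      rcases Nat.lt_or_ge j (m - (r + 1)) with h | h
      · exact hlow j h
      · exact loop_lemma y₀ (m - (r + 1)) hlow j hj2 (hY (j + 1) (by omega) (by omega) (by omega))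
    have hred' : (red K (sing (BMap (Fin (r + 1) → ℝ) (Fin m → ℝ)))).cx.HZ j :=
      red_hz_sing e hred
    exact free_hz_of_red (vpt (bzero (Fin (r + 1) → ℝ) (Fin m → ℝ))) hj hred'

end Van

end Vale.Agent.P263.GB
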