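import Vale.Agent.P263.GB.VanTwo
import Vale.Agent.P263.GB.QRange

/-!
# P263, block G2: the range of `B^N Q(1₊)` mod 2

`hz_BN_two` : `H_j(B^N Q(1₊); 𝔽₂) = 0` for `N ≥ 1`, `0 < j < 2 N`, `j ≠ N`.
-/

namespace Vale.Agent.P263.GB

open Vale.Agent.P263.S Vale.Agent.P263.E Vale.Agent.P263.G2

theorem hz_BN_two (N : ℕ) (hN : 0 < N) (j : ℕ) (h0 : 0 < j) (h2 : j < 2 * N) (hj : j ≠ N) :
    (free (ZMod 2) (((Gam.QT TSeq.zero).BN N).obj Unit)).cx.HZ j :=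
  Gam.hz_BN_of_stages N j fun m => ⟨m, le_rfl, hz_loops_two N m hN j h0 h2 hj⟩

end Vale.Agent.P263.GB
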